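import Crest.Agent.R316.CF2

/-!
# `CF`: exponentially long sums, list maps, products modulo a prime
-/

namespace Crest.Agent.R316

open Crest.Agent.Lib.PT

variable {α β γ : Type} [Enc α] [Enc β] [Enc γ]

namespace Arith

theorem cnt_eq_sum (N : ℕ) (q : ℕ → Prop) [DecidablePred q] :
    cnt N q = ∑ y ∈ Finset.range N, if q y then 1 else 0 := by
  unfold cnt
  rw [Finset.card_filter]
  exact Finset.sum_congr rfl fun y _ => by congr

theorem cnt_congr {N : ℕ} {q q' : ℕ → Prop} (h : ∀ y < N, q y ↔ q' y) : cnt N q = cnt N q' := by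
  classical
  rw [cnt_eq_sum, cnt_eq_sum]
  exact Finset.sum_congr rfl fun y hy => by simp only [h y (Finset.mem_range.1 hy)]

theorem cnt_lt {N m : ℕ} (h : m ≤ N) : cnt N (fun y => y < m) = m := by
  classical
  have : (Finset.range N).filter (fun y => y < m) = Finset.range m := by
    ext y; simp only [Finset.mem_filter, Finset.mem_range]; omega
  have h2 := congrArg Finset.card this
  rw [Finset.card_range] at h2
  unfold cnt
  convert h2

theorem cnt_sum (N K : ℕ) (f : ℕ → ℕ) (h : ∀ y < N, f y ≤ K) :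
    cnt (N * K) (fun z => z % K < f (z / K)) = ∑ y ∈ Finset.range N, f y := by
  classical
  induction N with
  | zero => simp [cnt]
  | succ N ih =>
    rw [Finset.sum_range_succ, ← ih (fun y hy => h y (by omega)), ← cnt_lt (h N (by omega)),
      cnt_eq_sum, cnt_eq_sum, cnt_eq_sum, Nat.succ_mul, Finset.sum_range_add]
    congr 1
    refine Finset.sum_congr rfl fun x hx => ?_
    have hx' := Finset.mem_range.1 hx
    have hK : 0 < K := by omega
    have e1 : (N * K + x) % K = x := by
      rw [Nat.add_comm, Nat.add_mul_mod_self_right, Nat.mod_eq_of_lt hx']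
    have e2 : (N * K + x) / K = N := by
      rw [Nat.add_comm, Nat.add_mul_div_right _ _ hK, Nat.div_eq_of_lt hx', Nat.zero_add]
    simp only [e1, e2]

/-- The least `y < N` with `q y` (or `N` if there is none), as a count. -/
noncomputable def least (N : ℕ) (q : ℕ → Prop) : ℕ := cnt N fun y => ∀ y' < y + 1, ¬ q y'

theorem least_spec {N : ℕ} {q : ℕ → Prop} (h : ∃ y < N, q y) :
    least N q < N ∧ q (least N q) := by
  classical
  have h' : ∃ y, q y := let ⟨y, _, hy⟩ := h; ⟨y, hy⟩
  have hlt : Nat.find h' < N := let ⟨y, hy, hq⟩ := h; (Nat.find_min' h' hq).trans_lt hy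
  have : least N q = Nat.find h' := by
    rw [← cnt_lt hlt.le]
    refine cnt_congr fun y _ => ?_
    rw [Nat.lt_find_iff]
    exact forall_congr' fun y' => by rw [Nat.lt_succ_iff]
  rw [this]
  exact ⟨hlt, Nat.find_spec h'⟩

theorem least_cf {N : α → ℕ} {q : α → ℕ → Prop} (hN : CF N)
    (hq : CF fun x : α × ℕ => q x.1 x.2) : CF fun a => least (N a) (q a) := by
  refine CF.cnt (q := fun a y => ∀ y' < y + 1, ¬ q a y') hN ?_
  refine CF.ball_lt (N := fun x : α × ℕ => x.2 + 1) (q := fun x y' => ¬ q x.1 y')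
    (by fun_prop) (CF.not ?_)
  exact hq.comp_eq (fun x : (α × ℕ) × ℕ => (x.1.1, x.2)) (by fun_prop)

/-- `g` generates the nonzero residues modulo `p`. -/
def Gen (p g : ℕ) : Prop := ∀ u < p, 0 < u → ∃ e < p, g ^ e % p = u

theorem exists_gen {p : ℕ} (hp : p.Prime) : ∃ g < p, Gen p g := by
  have : Fact p.Prime := ⟨hp⟩
  obtain ⟨G, hG⟩ := IsCyclic.exists_generator (α := (ZMod p)ˣ)
  refine ⟨(G : ZMod p).val, ZMod.val_lt _, fun u hu hu0 => ?_⟩
  have hu' : (u : ZMod p) ≠ 0 := by
    rw [Ne, ZMod.natCast_eq_zero_iff]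
    exact Nat.not_dvd_of_pos_of_lt hu0 hu
  have h1 := hG (Units.mk0 _ hu')
  rw [mem_zpowers_iff_mem_range_orderOf, Finset.mem_image] at h1
  obtain ⟨e, he, h2⟩ := h1
  have h3 : orderOf G ≤ p - 1 := by
    have := orderOf_le_card_univ (x := G)
    rwa [ZMod.card_units] at this
  refine ⟨e, by have := Finset.mem_range.1 he; omega, ?_⟩
  have h4 : (G : ZMod p) ^ e = u := by
    have := congrArg (fun x : (ZMod p)ˣ => (x : ZMod p)) h2
    simpa using this
  have h5 : (((G : ZMod p).val ^ e : ℕ) : ZMod p) = u := by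
    rw [Nat.cast_pow, ZMod.natCast_zmod_val, h4]
  rw [ZMod.natCast_eq_natCast_iff', Nat.mod_eq_of_lt hu] at h5
  exact h5

/-- The least generator. -/
noncomputable def gen (p : ℕ) : ℕ := least p (Gen p)

/-- The discrete logarithm. -/
noncomputable def dlog (p u : ℕ) : ℕ := least p fun e => gen p ^ e % p = u % p

theorem pow_dlog {p u : ℕ} (hp : p.Prime) (hu : ¬ p ∣ u) : gen p ^ dlog p u % p = u % p := by
  have h1 : Gen p (gen p) := (least_spec (exists_gen hp)).2
  have h2 := h1 (u % p) (Nat.mod_lt _ hp.pos)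
    (Nat.pos_of_ne_zero fun h => hu (Nat.dvd_of_mod_eq_zero h))
  exact (least_spec h2).2

theorem prod_mod_eq {p N : ℕ} (hp : p.Prime) {f : ℕ → ℕ} (h : ∀ y < N, ¬ p ∣ f y) :
    gen p ^ (∑ y ∈ Finset.range N, dlog p (f y)) % p = (∏ y ∈ Finset.range N, f y) % p := by
  rw [← Finset.prod_pow_eq_pow_sum, Finset.prod_nat_mod, Finset.prod_nat_mod _ _ f]
  congr 1
  exact Finset.prod_congr rfl fun y hy => pow_dlog hp (h y (Finset.mem_range.1 hy))

theorem gen_cf {p : α → ℕ} (hp : CF p) (h0 : ∀ a, 0 < p a) : CF fun a => gen (p a) := by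
  refine least_cf (q := fun a g => Gen (p a) g) hp ?_
  refine CF.ball_lt (N := fun x : α × ℕ => p x.1)
    (q := fun x u => 0 < u → ∃ e < p x.1, x.2 ^ e % p x.1 = u) (by fun_prop) ?_
  refine CF.imp (by fun_prop) ?_
  refine CF.bex_lt (N := fun x : (α × ℕ) × ℕ => p x.1.1)
    (q := fun x e => x.1.2 ^ e % p x.1.1 = x.2) (by fun_prop) ?_
  exact CF.eq (CF.nat_powMod (by fun_prop) (by fun_prop) (by fun_prop) fun _ => h0 _)
    (by fun_prop)

theorem dlog_cf {p u : α → ℕ} (hp : CF p) (h0 : ∀ a, 0 < p a) (hu : CF u) :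
    CF fun a => dlog (p a) (u a) := by
  have hg := gen_cf hp h0
  refine least_cf (q := fun a e => gen (p a) ^ e % p a = u a % p a) hp ?_
  exact CF.eq (CF.nat_powMod (hg.comp CF.id.fst) (by fun_prop) (by fun_prop) fun _ => h0 _)
    (by fun_prop)

omit [Enc β] in
theorem enc_map_iff (l : List β) (f : β → γ) (w : V) :
    enc (l.map f) = w ↔ w.toList.length = l.length ∧
      ∀ i < l.length, ∀ h : i < l.length, enc (f l[i]) = w.toList.getD i V.nil := by
  induction l generalizing w with
  | nil => cases w <;> simp [V.toList, enc_nil]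
  | cons b l ih =>
    cases w with
    | nil => simp [V.toList, enc_cons]
    | node x y =>
      rw [List.map_cons, enc_cons, V.node.injEq, ih, V.toList]
      simp only [List.length_cons, Nat.add_right_cancel_iff]
      constructor
      · rintro ⟨h1, h2, h3⟩
        refine ⟨h2, fun i _ hi => ?_⟩
        cases i with
        | zero => simpa using h1
        | succ i =>
          have hi' : i < l.length := by simpa using hi
          simpa using h3 i hi' hi'
      · rintro ⟨h2, h3⟩
        refine ⟨by simpa using h3 0 (by omega) (by simp), h2, fun i hi _ => ?_⟩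
        have h4 := h3 (i + 1) (by omega) (by simpa using hi)
        rwa [List.getElem_cons_succ, List.getD_cons_succ] at h4

end Arith

open Arith

namespace CF

/-- Sum of exponentially many small numbers. -/
theorem sum_range' {N : α → ℕ} {f : α → ℕ → ℕ} (hN : CF N)
    (hf : CF fun x : {x : α × ℕ // x.2 < N x.1} => f x.1.1 x.1.2) :
    CF fun a => ∑ y ∈ Finset.range (N a), f a y := by
  obtain ⟨b, -, hb, hfb⟩ := hf.lt_two_pow
  obtain ⟨B, hB, hBb, hbB⟩ := PB_sup' hN hb
  have hK : CF fun a => 2 ^ B a := nat_pow (const 2) (PT_cf hB) hBb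
  have hM : CF fun a => N a * 2 ^ B a := hN.nat_mul hK
  have h := cnt' (q := fun a z => z % 2 ^ B a < f a (z / 2 ^ B a)) hM ?_
  · refine h.of_eq fun a => cnt_sum _ _ _ fun y hy => ?_
    exact (hfb ⟨(a, y), hy⟩).le.trans (Nat.pow_le_pow_right (by norm_num) (hbB a y hy))
  · have hK' : CF fun x : {x : α × ℕ // x.2 < N x.1 * 2 ^ B x.1} => 2 ^ B x.1.1 :=
      hK.comp id.val.fst
    refine nat_lt (id.val.snd.nat_mod hK') ?_
    exact hf.comp_sub (fun x : {x : α × ℕ // x.2 < N x.1 * 2 ^ B x.1} =>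
      (x.1.1, x.1.2 / 2 ^ B x.1.1)) (id.val.fst.pair (id.val.snd.nat_div hK'))
      fun x => (Nat.div_lt_iff_lt_mul (by positivity)).2 x.2

theorem sum_range {N : α → ℕ} {f : α → ℕ → ℕ} (hN : CF N) (hf : CF fun x : α × ℕ => f x.1 x.2) :
    CF fun a => ∑ y ∈ Finset.range (N a), f a y := sum_range' hN (hf.restrict _)

/-- Sum of exponentially many small integers. -/
theorem int_sum_range' {N : α → ℕ} {f : α → ℕ → ℤ} (hN : CF N)
    (hf : CF fun x : {x : α × ℕ // x.2 < N x.1} => f x.1.1 x.1.2) :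
    CF fun a => ∑ y ∈ Finset.range (N a), f a y := by
  have h1 := sum_range' (f := fun a y => (f a y).toNat) hN hf.int_toNat
  have h2 := sum_range' (f := fun a y => (-f a y).toNat) hN hf.int_neg.int_toNat
  refine (h1.int_natCast.int_sub h2.int_natCast).of_eq fun a => ?_
  rw [Nat.cast_sum, Nat.cast_sum, ← Finset.sum_sub_distrib]
  exact Finset.sum_congr rfl fun y _ => Int.toNat_sub_toNat_neg _

theorem int_sum_range {N : α → ℕ} {f : α → ℕ → ℤ} (hN : CF N)
    (hf : CF fun x : α × ℕ => f x.1 x.2) :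
    CF fun a => ∑ y ∈ Finset.range (N a), f a y := int_sum_range' hN (hf.restrict _)

/-- `map` with a `CF` function. -/
theorem map_mem {l : α → List β} {f : α → β → γ} (hl : CF l)
    (hf : CF fun x : {x : α × β // x.2 ∈ l x.1} => f x.1.1 x.1.2) :
    CF fun a => (l a).map (f a) := by
  refine ⟨?_, ?_⟩
  · obtain ⟨c, k, hG⟩ := hf.1
    have h1 : PB fun a => (l a).length * (c * (sz a + sz (l a) + 1) ^ k + 1) + 1 :=
      (((PB_lengthCF hl).mul ((((PB.const c).mul
        (((PB.sz_self.add hl.1).add (PB.const 1)).pow k))).add (PB.const 1))).add (PB.const 1))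
    refine h1.mono fun a => ?_
    have h2 := sz_list_le (l := (l a).map (f a)) (B := c * (sz a + sz (l a) + 1) ^ k) (by
      intro x hx
      obtain ⟨b, hb, rfl⟩ := List.mem_map.1 hx
      refine (hG ⟨(a, b), hb⟩).trans ?_
      have := sz_le_of_mem hb
      refine Nat.mul_le_mul_left _ (Nat.pow_le_pow_left ?_ _)
      rw [sz_subtype]; simp; omega)
    rwa [List.length_map] at h2
  · rw [← iff_CH]
    have hw : CF fun q : α × V => q.2.toList := PT_cf (PT.toListV PT.id.snd)
    have hl' : CF fun q : α × V => l q.1 := hl.comp id.fst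
    have h1 : CF fun q : α × V => q.2.toList.length = (l q.1).length ∧
        ∀ i < (l q.1).length, ∀ h : i < (l q.1).length,
          Enc.enc (f q.1 (l q.1)[i]) = q.2.toList.getD i V.nil := by
      refine (hw.length.eq hl'.length).and ?_
      refine ball_lt' (N := fun q : α × V => (l q.1).length)
        (q := fun q i => ∀ h : i < (l q.1).length,
          Enc.enc (f q.1 (l q.1)[i]) = q.2.toList.getD i V.nil) hl'.length ?_
      have h2 : PT fun x : {x : List β × ℕ // x.2 < x.1.length} => x.1.1[x.1.2]'x.2 :=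
        PT.getElem PT.id.val.fst PT.id.val.snd _
      have h3 : CF fun x : {x : (α × V) × ℕ // x.2 < (l x.1.1).length} =>
          (l x.1.1.1)[x.1.2]'x.2 :=
        (PT_cf h2).comp_sub (fun x => (l x.1.1.1, x.1.2))
          ((hl.comp id.val.fst.fst).pair id.val.snd) fun x => x.2
      have h4 : CF fun x : {x : (α × V) × ℕ // x.2 < (l x.1.1).length} =>
          f x.1.1.1 ((l x.1.1.1)[x.1.2]'x.2) :=
        hf.comp_sub (fun x => (x.1.1.1, (l x.1.1.1)[x.1.2]'x.2)) (id.val.fst.fst.pair h3)
          fun x => List.getElem_mem _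
      have h5 : CF fun x : {x : (α × V) × ℕ // x.2 < (l x.1.1).length} =>
          x.1.1.2.toList.getD x.1.2 V.nil :=
        getD (hw.comp id.val.fst) id.val.snd (const _)
      exact (h4.enc.eq h5).of_iff fun x => ⟨fun h _ => h, fun h => h x.2⟩
    exact h1.of_iff fun q => (enc_map_iff _ _ _).symm

@[fun_prop] theorem map {l : α → List β} {f : α → β → γ} (hl : CF l)
    (hf : CF fun x : α × β => f x.1 x.2) : CF fun a => (l a).map (f a) :=
  map_mem hl (hf.restrict _)

theorem map_range {n : α → ℕ} {f : α → ℕ → β} (hn : CF n) (hb : PB n)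
    (hf : CF fun p : {p : α × ℕ // p.2 < n p.1} => f p.1.1 p.1.2) :
    CF fun a => (List.range (n a)).map (f a) :=
  map_mem (hn.range hb) (hf.comp_sub (fun x => x.1) CF.id.val fun x => List.mem_range.1 x.2)

/-- Product of polynomially many small numbers. -/
theorem prod_range_pb' {n : α → ℕ} {f : α → ℕ → ℕ} (hn : CF n) (hb : PB n)
    (hf : CF fun p : {p : α × ℕ // p.2 < n p.1} => f p.1.1 p.1.2) :
    CF fun a => ∏ i ∈ Finset.range (n a), f a i :=
  (map_range hn hb hf).nat_prod

theorem prod_range_pb {n : α → ℕ} {f : α → ℕ → ℕ} (hn : CF n) (hb : PB n)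
    (hf : CF fun p : α × ℕ => f p.1 p.2) : CF fun a => ∏ i ∈ Finset.range (n a), f a i :=
  prod_range_pb' hn hb (hf.restrict _)

/-- Product of exponentially many small numbers modulo a prime (discrete logarithms). -/
theorem prodMod' {N p : α → ℕ} {f : α → ℕ → ℕ} (hN : CF N) (hp : CF p) (hpp : ∀ a, (p a).Prime)
    (hf : CF fun x : {x : α × ℕ // x.2 < N x.1} => f x.1.1 x.1.2) :
    CF fun a => (∏ y ∈ Finset.range (N a), f a y) % p a := by
  classical
  have h0 : ∀ a, 0 < p a := fun a => (hpp a).pos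
  have hp' : CF fun x : {x : α × ℕ // x.2 < N x.1} => p x.1.1 := hp.comp id.val.fst
  have h1 : CF fun a => ∃ y < N a, p a ∣ f a y :=
    bex_lt' (q := fun a y => p a ∣ f a y) hN (hp'.nat_dvd hf)
  have h2 : CF fun a => ∑ y ∈ Finset.range (N a), dlog (p a) (f a y) :=
    sum_range' (f := fun a y => dlog (p a) (f a y)) hN (dlog_cf hp' (fun _ => h0 _) hf)
  have h3 := nat_powMod (gen_cf hp h0) h2 hp h0
  refine (ite h1 (const 0) h3).of_eq fun a => ?_
  split_ifs with h
  · obtain ⟨y, hy, hd⟩ := h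
    exact (Nat.mod_eq_zero_of_dvd
      (hd.trans (Finset.dvd_prod_of_mem _ (Finset.mem_range.2 hy)))).symm
  · exact prod_mod_eq (hpp a) fun y hy hd => h ⟨y, hy, hd⟩

end CF

end Crest.Agent.R316
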