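import Crest.Agent.R316.CFLevel

/-!
# Functions computable in the counting hierarchy

`CF f` : the output of `f` has polynomial size and the graph of `f` is in the counting hierarchy.
Predicates are functions into the encoded type `Prop`.  `CF` is a `fun_prop` predicate.
The definitions `cnt`, `CHl`, `CH` and the closure properties of `CH` are in `CFAux.lean`.
-/

namespace Crest.Agent.R316

open Crest.Agent.Lib.PT

/-- Polynomial output size and graph in the counting hierarchy. -/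
@[fun_prop] def CF {α β : Type} [Enc α] [Enc β] (f : α → β) : Prop :=
  PB (fun a => sz (f a)) ∧ CH fun q : α × V => enc (f q.1) = q.2

variable {α β γ δ : Type} [Enc α] [Enc β] [Enc γ] [Enc δ]

/-! ### Bounds -/

/-- A polynomial bound is dominated by a polynomial-time polynomial bound. -/
theorem PB_exists_pt {b : α → ℕ} (hb : PB b) : ∃ B : α → ℕ, PT B ∧ PB B ∧ ∀ a, b a ≤ B a := by
  obtain ⟨c, k, h⟩ := hb
  have h1 : PT fun a : α => sz a := CFAux.PT_sz PT.id
  have h2 : PB fun a : α => sz a := PB.sz_self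
  exact ⟨fun a => c * sz a ^ k, by fun_prop, by fun_prop, h⟩

theorem CF.pb_sz {f : α → β} (hf : CF f) : PB fun a => sz (f a) := hf.1

/-- A `CF` number has polynomially many bits. -/
theorem CF.lt_two_pow {N : α → ℕ} (hN : CF N) :
    ∃ B : α → ℕ, PT B ∧ PB B ∧ ∀ a, N a < 2 ^ B a := by
  obtain ⟨B, h1, h2, h3⟩ := PB_exists_pt hN.1
  exact ⟨B, h1, h2, fun a => (lt_two_pow_sz _).trans_le (Nat.pow_le_pow_right (by omega) (h3 a))⟩

theorem PB_compCF {g : β → ℕ} {f : α → β} (hg : PB g) (hf : CF f) : PB fun a => g (f a) :=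
  hg.comp_sz hf.1

/-- A polynomial bound is uniform over an index below a `CF` number. -/
theorem PB_sup' {N : α → ℕ} (hN : CF N) {b : {x : α × ℕ // x.2 < N x.1} → ℕ} (hb : PB b) :
    ∃ B : α → ℕ, PT B ∧ PB B ∧ ∀ a y (h : y < N a), b ⟨(a, y), h⟩ ≤ B a := by
  obtain ⟨c, k, h⟩ := hb
  have h1 : PB fun a : α => sz a := PB.sz_self
  have h2 := hN.1
  have h3 : PB fun a : α => c * (sz a + 2 * sz (N a) + 1) ^ k := by fun_prop
  obtain ⟨B, b1, b2, b3⟩ := PB_exists_pt h3
  refine ⟨B, b1, b2, fun a y hy => (h _).trans (le_trans ?_ (b3 a))⟩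
  refine Nat.mul_le_mul_left _ (Nat.pow_le_pow_left ?_ _)
  have := sz_nat_le_of_le hy.le
  rw [sz_subtype, sz_mk]
  omega

theorem PB_sup {N : α → ℕ} (hN : CF N) {b : α × ℕ → ℕ} (hb : PB b) :
    ∃ B : α → ℕ, PT B ∧ PB B ∧ ∀ a y, y < N a → b (a, y) ≤ B a :=
  PB_sup' hN (b := fun x => b x.1) (hb.comp PT.id.val)

/-! ### Core closure properties -/

@[fun_prop] theorem PT_cf {f : α → β} (hf : PT f) : CF f := by
  exact ⟨PB.sz hf, CH.of_PT ((hf.comp PT.id.fst).enc.eq PT.id.snd)⟩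

namespace CF

theorem of_enc_eq {f : α → β} {g : α → γ} (hg : CF g) (h : ∀ a, enc (f a) = enc (g a)) :
    CF f := by
  refine ⟨hg.1.mono fun a => ?_, hg.2.congr fun q => by rw [h]⟩
  unfold sz
  rw [h]

theorem of_eq {f g : α → β} (hg : CF g) (h : ∀ a, g a = f a) : CF f :=
  hg.of_enc_eq fun a => by rw [h]

theorem of_iff {p q : α → Prop} (hq : CF q) (h : ∀ a, q a ↔ p a) : CF p :=
  hq.of_eq fun a => propext (h a)

/-- Predicates in `CF` are the predicates in `CH`. -/
theorem iff_CH {p : α → Prop} : CF p ↔ CH p := by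
  constructor
  · intro h
    refine (h.2.comp (f := fun a : α => (a, enc True)) (by fun_prop)).congr fun a => ?_
    simp only [enc_inj]
    simp
  · intro h
    refine ⟨(PB.const 3).mono fun a => sz_prop_le _, ?_⟩
    have h1 : CH fun q : α × V => p q.1 := h.comp PT.id.fst
    have h2 : ∀ r : Prop, CH fun q : α × V => enc r = q.2 := fun r => CH.of_PT (by fun_prop)
    refine ((h1.and (h2 True)).or (h1.not.and (h2 False))).congr fun q => ?_
    by_cases hp : p q.1
    · simp [hp]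
    · simp [hp]

@[fun_prop] theorem id : CF fun a : α => a := PT_cf PT.id

@[fun_prop] theorem const (b : β) : CF fun _ : α => b := PT_cf (PT.const b)

@[fun_prop] theorem comp {g : β → γ} {f : α → β} (hg : CF g) (hf : CF f) :
    CF fun a => g (f a) := by
  obtain ⟨B, b1, b2, b3⟩ := PB_exists_pt hf.1
  obtain ⟨G, hG, eG⟩ := hg.2.extend
  refine ⟨PB_compCF (g := fun b => sz (g b)) hg.1 hf, ?_⟩
  have h1 : CH fun x : (α × V) × V => enc (f x.1.1) = x.2 :=
    hf.2.comp (f := fun x : (α × V) × V => (x.1.1, x.2)) (by fun_prop)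
  have h2 : CH fun x : (α × V) × V => G (V.node x.2 x.1.2) := hG.comp (by fun_prop)
  refine ((h1.and h2).bexV (b1.comp PT.id.fst) (b2.comp PT.id.fst)).congr fun q => ⟨?_, ?_⟩
  · rintro ⟨v, -, e, h⟩
    dsimp only at e h
    subst e
    exact (eG (f q.1, q.2)).1 h
  · intro h
    exact ⟨enc (f q.1), b3 _, rfl, (eG (f q.1, q.2)).2 h⟩

@[fun_prop] theorem pair {f : α → β} {g : α → γ} (hf : CF f) (hg : CF g) :
    CF fun a => (f a, g a) := by
  refine ⟨((hf.1.add hg.1).add (PB.const 1)).mono fun a => le_rfl, ?_⟩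
  have h1 : CH fun q : α × V => enc (f q.1) = q.2.left :=
    hf.2.comp (f := fun q : α × V => (q.1, q.2.left)) (by fun_prop)
  have h2 : CH fun q : α × V => enc (g q.1) = q.2.right :=
    hg.2.comp (f := fun q : α × V => (q.1, q.2.right)) (by fun_prop)
  have h3 : CH fun q : α × V => q.2 ≠ V.nil := CH.of_PT (by fun_prop)
  refine ((h1.and h2).and h3).congr fun q => ?_
  rw [enc_mk]
  cases q.2 <;> simp

/-- A `CF` map is the restriction of a `CF` map on all trees. -/
theorem extend {f : α → β} (hf : CF f) : ∃ F : V → V, CF F ∧ ∀ a, F (enc a) = enc (f a) := by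
  classical
  obtain ⟨c, k, hb⟩ := hf.1
  obtain ⟨G, hG, eG⟩ := hf.2.extend
  let B : V → ℕ := fun v => c * v.size ^ k
  have s1 : PT fun v : V => v.size := CFAux.PT_size PT.id
  have s2 : PB fun v : V => v.size := PB.sz_self
  have b1 : PT B := by fun_prop
  have b2 : PB B := by fun_prop
  let U : V × V → Prop := fun x => G (V.node x.1 x.2) ∧
    ∀ w : V, w.size ≤ B x.1 → G (V.node x.1 w) → w = x.2
  have hU : CH U := by
    refine (hG.comp (by fun_prop)).and (CH.ballV
      (q := fun y : (V × V) × V => G (V.node y.1.1 y.2) → y.2 = y.1.2) ?_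
      (b1.comp PT.id.fst) (b2.comp PT.id.fst))
    exact (hG.comp (by fun_prop)).imp (CH.of_PT (by fun_prop))
  let F : V → V := fun v => if h : ∃ w : V, w.size ≤ B v ∧ U (v, w) then h.choose else V.nil
  refine ⟨F, ⟨(b2.add (PB.const 1)).mono fun v => ?_, ?_⟩, fun a => ?_⟩
  · simp only [F]
    split_ifs with h
    · exact h.choose_spec.1.trans (Nat.le_succ _)
    · simp
  · have h1 : CH fun x : V × V => x.2.size ≤ B x.1 :=
      CH.of_PT ((s1.comp PT.id.snd).nat_le (b1.comp PT.id.fst))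
    have h2 : CH fun x : V × V => ∃ w : V, w.size ≤ B x.1 ∧ U (x.1, w) :=
      (hU.bexV b1 b2).comp PT.id.fst
    have h3 : CH fun x : V × V => x.2 = V.nil := CH.of_PT (by fun_prop)
    refine ((h1.and hU).or (h2.not.and h3)).congr fun x => ?_
    simp only [F, enc_V]
    split_ifs with h
    · constructor
      · rintro (⟨a1, a2⟩ | ⟨a1, -⟩)
        · exact a2.2 _ h.choose_spec.1 h.choose_spec.2.1
        · exact absurd h a1
      · intro e
        have := h.choose_spec
        rw [e] at this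
        exact Or.inl this
    · constructor
      · rintro (a1 | ⟨-, a2⟩)
        · exact absurd ⟨_, a1⟩ h
        · exact a2.symm
      · intro e
        exact Or.inr ⟨h, e.symm⟩
  · have h : ∃ w : V, w.size ≤ B (enc a) ∧ U (enc a, w) :=
      ⟨enc (f a), hb a, (eG (a, enc (f a))).2 rfl, fun w _ hw => ((eG (a, w)).1 hw).symm⟩
    simp only [F]
    rw [dif_pos h]
    exact ((eG (a, _)).1 h.choose_spec.2.1).symm

/-- Case distinction; the branches need only be `CF` on their own part. -/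
theorem by_cases {p : α → Prop} {f : α → β} (hp : CF p)
    (h₁ : CF fun a : {a // p a} => f a.1) (h₂ : CF fun a : {a // ¬ p a} => f a.1) : CF f := by
  obtain ⟨F₁, hF₁, e₁⟩ := h₁.extend
  obtain ⟨F₂, hF₂, e₂⟩ := h₂.extend
  have g₁ : CF fun a : α => F₁ (enc a) := hF₁.comp (PT_cf PT.id.enc)
  have g₂ : CF fun a : α => F₂ (enc a) := hF₂.comp (PT_cf PT.id.enc)
  have k₁ : ∀ a, p a → F₁ (enc a) = enc (f a) := fun a h => e₁ ⟨a, h⟩
  have k₂ : ∀ a, ¬ p a → F₂ (enc a) = enc (f a) := fun a h => e₂ ⟨a, h⟩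
  refine ⟨(g₁.1.add g₂.1).mono fun a => ?_, ?_⟩
  · beta_reduce
    by_cases h : p a
    · rw [k₁ a h]; exact Nat.le_add_right _ _
    · rw [k₂ a h]; exact Nat.le_add_left _ _
  · have hq : CH fun q : α × V => p q.1 := (iff_CH.1 hp).comp PT.id.fst
    refine ((hq.and g₁.2).or (hq.not.and g₂.2)).congr fun q => ?_
    by_cases h : p q.1
    · simp [h, k₁ _ h, enc_V]
    · simp [h, k₂ _ h, enc_V]

/-- Counting over an exponentially long range. -/
theorem cnt' {N : α → ℕ} {q : α → ℕ → Prop} (hN : CF N)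
    (hq : CF fun x : {x : α × ℕ // x.2 < N x.1} => q x.1.1 x.1.2) :
    CF fun a => cnt (N a) (q a) := by
  obtain ⟨B, b1, b2, b3⟩ := hN.lt_two_pow
  obtain ⟨Q, hQ, eQ⟩ := (iff_CH.1 hq).extend
  refine ⟨((PB.const 2).mul hN.1).mono fun a => sz_nat_le_of_le (CFAux.cnt_le _ _), ?_⟩
  have h1 : CF fun x : α × ℕ => x.2 < N x.1 :=
    (PT_cf (f := fun y : ℕ × ℕ => y.1 < y.2) (by fun_prop)).comp
      ((PT_cf PT.id.snd).pair (hN.comp (PT_cf PT.id.fst)))
  have h2 : CH fun x : α × ℕ => x.2 < N x.1 ∧ Q (enc x) :=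
    (iff_CH.1 h1).and (hQ.comp PT.id.enc)
  have h3 : CH fun x : (α × V) × ℕ => x.2 < N x.1.1 ∧ Q (enc (x.1.1, x.2)) :=
    h2.comp (f := fun x : (α × V) × ℕ => (x.1.1, x.2)) (by fun_prop)
  have hM : PT fun x : α × V => 2 ^ B x.1 := by fun_prop
  have h4 := h3.count hM (t := fun x => dec x.2) (by fun_prop)
  have h5 := h3.count hM (t := fun x => dec x.2 + 1) (by fun_prop)
  have h6 : CH fun x : α × V => enc (dec x.2 : ℕ) = x.2 := CH.of_PT (by fun_prop)
  refine ((h4.and h5.not).and h6).congr fun x => ?_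
  have e : (cnt (2 ^ B x.1) fun y => y < N x.1 ∧ Q (enc (x.1, y))) = cnt (N x.1) (q x.1) := by
    rw [CFAux.cnt_restrict (b3 _).le]
    exact CFAux.cnt_congr fun y hy => eQ ⟨(x.1, y), hy⟩
  simp only [e]
  constructor
  · rintro ⟨⟨a1, a2⟩, a3⟩
    rw [← a3]
    congr 1
    omega
  · intro a
    rw [← a, dec_enc]
    simp

/-- Existence of an object of polynomial size. -/
theorem bex_sz [Dec β] {B : α → ℕ} {q : α → β → Prop} (hB : CF B) (hb : PB B)
    (hq : CF fun x : α × β => q x.1 x.2) : CF fun a => ∃ s : β, sz s ≤ B a ∧ q a s := by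
  obtain ⟨B', b1, b2, b3⟩ := PB_exists_pt hb
  have h1 : CF fun x : α × V => sz (dec x.2 : β) ≤ B x.1 :=
    (PT_cf (f := fun y : ℕ × ℕ => y.1 ≤ y.2) (by fun_prop)).comp
      ((PT_cf (CFAux.PT_sz PT.id.snd.dec)).pair (hB.comp (PT_cf PT.id.fst)))
  have h2 : CH fun x : α × V => q x.1 (dec x.2) :=
    (iff_CH.1 hq).comp (f := fun x : α × V => (x.1, (dec x.2 : β))) (by fun_prop)
  refine iff_CH.2 ((((iff_CH.1 h1).and h2).bexV b1 b2).congr fun a => ⟨?_, ?_⟩)
  · rintro ⟨v, -, h⟩
    exact ⟨_, h⟩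
  · rintro ⟨s, h3, h4⟩
    exact ⟨enc s, h3.trans (b3 a), by simpa using ⟨h3, h4⟩⟩

/-- The bridge to the frozen definition. -/
theorem mem_level {L : Set (List Bool)} (h : CF fun w => w ∈ L) :
    ∃ j, L ∈ Crest.CountHier.level j := by
  obtain ⟨j, hj⟩ := iff_CH.1 h
  exact ⟨j, CFAux.CHl_mem_level j _ hj⟩

end CF

end Crest.Agent.R316
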