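import Crest.Agent.R316.CF

/-!
# `CF`: derived closure properties (`fun_prop` lemmas, quantifiers)
-/

namespace Crest.Agent.R316

open Crest.Agent.Lib.PT

variable {α β γ δ : Type} [Enc α] [Enc β] [Enc γ] [Enc δ]

namespace CF

theorem comp₂ {F : β × γ → δ} (hF : PT F) {f : α → β} {g : α → γ} (hf : CF f) (hg : CF g) :
    CF fun a => F (f a, g a) := (PT_cf hF).comp (hf.pair hg)

theorem comp₃ {ε : Type} [Enc ε] {F : β × γ × δ → ε} (hF : PT F) {f : α → β} {g : α → γ}
    {h : α → δ} (hf : CF f) (hg : CF g) (hh : CF h) : CF fun a => F (f a, g a, h a) :=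
  (PT_cf hF).comp (hf.pair (hg.pair hh))

@[fun_prop] theorem comp' {g : β → γ} {f : α → β} (hg : CF g) (hf : CF f) : CF (g ∘ f) :=
  hg.comp hf

@[fun_prop] theorem enc {f : α → β} (hf : CF f) : CF fun a => Enc.enc (f a) :=
  hf.of_enc_eq fun _ => rfl

@[fun_prop] theorem fst {f : α → β × γ} (hf : CF f) : CF fun a => (f a).1 :=
  (PT_cf PT.id.fst).comp hf

@[fun_prop] theorem snd {f : α → β × γ} (hf : CF f) : CF fun a => (f a).2 :=
  (PT_cf PT.id.snd).comp hf

@[fun_prop] theorem val {p : β → Prop} {f : α → Subtype p} (hf : CF f) : CF fun a => (f a).1 :=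
  hf.of_enc_eq fun _ => rfl

@[fun_prop] theorem subtype_mk {p : β → Prop} {f : α → β} (hf : CF f) (h : ∀ a, p (f a)) :
    CF fun a => (⟨f a, h a⟩ : Subtype p) := hf.of_enc_eq fun _ => rfl

@[fun_prop] theorem fin_val {n : ℕ} {f : α → Fin n} (hf : CF f) : CF fun a => (f a).1 :=
  hf.of_enc_eq fun _ => rfl

/-- Restrict the domain. -/
theorem restrict {f : α → β} (hf : CF f) (p : α → Prop) : CF fun a : {a // p a} => f a.1 :=
  hf.comp id.val

/-- Composition, with the composite recognised up to definitional equality. -/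
theorem comp_eq {F : β → γ} {H : α → γ} (hF : CF F) (g : α → β) (hg : CF g)
    (e : ∀ a, F (g a) = H a := by intros; rfl) : CF H := (hF.comp hg).of_eq e

/-- Composition with a map that is only `CF` on a part of its domain. -/
theorem comp_sub {p : β → Prop} {F : Subtype p → γ} {H : α → γ} (hF : CF F) (g : α → β)
    (hg : CF g) (h : ∀ a, p (g a)) (e : ∀ a, F ⟨g a, h a⟩ = H a := by intros; rfl) : CF H :=
  (hF.comp (hg.subtype_mk h)).of_eq e

theorem dite {p : α → Prop} [DecidablePred p] {f : ∀ a, p a → β} {g : ∀ a, ¬ p a → β}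
    (hp : CF p) (h₁ : CF fun a : {a // p a} => f a.1 a.2)
    (h₂ : CF fun a : {a // ¬ p a} => g a.1 a.2) : CF fun a => dite (p a) (f a) (g a) :=
  by_cases hp (h₁.of_eq fun a => by rw [dif_pos a.2]) (h₂.of_eq fun a => by rw [dif_neg a.2])

@[fun_prop] theorem ite {p : α → Prop} [DecidablePred p] {f g : α → β}
    (hp : CF p) (h₁ : CF f) (h₂ : CF g) : CF fun a => ite (p a) (f a) (g a) :=
  by_cases hp ((h₁.restrict _).of_eq fun a => by rw [if_pos a.2])
    ((h₂.restrict _).of_eq fun a => by rw [if_neg a.2])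

/-- `CF.ite` with the decidability instance found by unification. -/
theorem ite' {p : α → Prop} {_ : DecidablePred p} {f g : α → β}
    (hp : CF p) (h₁ : CF f) (h₂ : CF g) : CF fun a => _root_.ite (p a) (f a) (g a) :=
  ite hp h₁ h₂

/-- `CF.dite` with the decidability instance found by unification. -/
theorem dite' {p : α → Prop} {_ : DecidablePred p} {f : ∀ a, p a → β} {g : ∀ a, ¬ p a → β}
    (hp : CF p) (h₁ : CF fun a : {a // p a} => f a.1 a.2)
    (h₂ : CF fun a : {a // ¬ p a} => g a.1 a.2) : CF fun a => _root_.dite (p a) (f a) (g a) :=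
  dite hp h₁ h₂

@[fun_prop] theorem decide {p : α → Prop} [DecidablePred p] (hp : CF p) :
    CF fun a => Decidable.decide (p a) := hp.of_enc_eq fun a => (enc_prop (p a)).symm

theorem of_decide {p : α → Prop} [DecidablePred p] (hp : CF fun a => Decidable.decide (p a)) :
    CF p := hp.of_enc_eq fun a => enc_prop (p a)

theorem eq_true {f : α → Bool} (hf : CF f) : CF fun a => f a = true :=
  of_decide (hf.of_eq fun a => by simp)

@[fun_prop] theorem cond {c : α → Bool} {f g : α → β} (hc : CF c) (h₁ : CF f) (h₂ : CF g) :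
    CF fun a => cond (c a) (f a) (g a) :=
  (ite hc.eq_true h₁ h₂).of_eq fun a => by cases c a <;> simp

@[fun_prop] theorem not {p : α → Prop} (hp : CF p) : CF fun a => ¬ p a :=
  (PT_cf PT.id.not).comp hp

@[fun_prop] theorem and {p q : α → Prop} (hp : CF p) (hq : CF q) : CF fun a => p a ∧ q a :=
  comp₂ (F := fun x : Prop × Prop => x.1 ∧ x.2) (by fun_prop) hp hq

@[fun_prop] theorem or {p q : α → Prop} (hp : CF p) (hq : CF q) : CF fun a => p a ∨ q a :=
  comp₂ (F := fun x : Prop × Prop => x.1 ∨ x.2) (by fun_prop) hp hq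

theorem imp {p q : α → Prop} (hp : CF p) (hq : CF q) : CF fun a => p a → q a :=
  (hp.not.or hq).of_iff fun _ => imp_iff_not_or.symm

@[fun_prop] theorem iff {p q : α → Prop} (hp : CF p) (hq : CF q) : CF fun a => p a ↔ q a :=
  comp₂ (F := fun x : Prop × Prop => x.1 ↔ x.2) (by fun_prop) hp hq

/-- The second conjunct need only be `CF` where the first holds. -/
theorem and' {p q : α → Prop} (hp : CF p) (hq : CF fun a : {a // p a} => q a.1) :
    CF fun a => p a ∧ q a :=
  by_cases hp (hq.of_iff fun a => by simp [a.2]) ((const False).of_iff fun a => by simp [a.2])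

/-- Dependent conjunction. -/
theorem exists_prop {p : α → Prop} {q : ∀ a, p a → Prop} (hp : CF p)
    (hq : CF fun a : {a // p a} => q a.1 a.2) : CF fun a => ∃ h : p a, q a h :=
  by_cases hp (hq.of_iff fun a => ⟨fun h => ⟨a.2, h⟩, fun ⟨_, h⟩ => h⟩)
    ((const False).of_iff fun a => ⟨False.elim, fun ⟨h, _⟩ => a.2 h⟩)

@[fun_prop] theorem eq {f g : α → β} (hf : CF f) (hg : CF g) : CF fun a => f a = g a :=
  comp₂ (F := fun x : β × β => x.1 = x.2) (by fun_prop) hf hg

@[fun_prop] theorem ne {f g : α → β} (hf : CF f) (hg : CF g) : CF fun a => f a ≠ g a :=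
  (hf.eq hg).not

@[fun_prop] theorem nat_succ {f : α → ℕ} (hf : CF f) : CF fun a => (f a).succ :=
  (PT_cf (f := fun x : ℕ => (x).succ) (by fun_prop)).comp hf

@[fun_prop] theorem nat_pred {f : α → ℕ} (hf : CF f) : CF fun a => (f a).pred :=
  (PT_cf (f := fun x : ℕ => (x).pred) (by fun_prop)).comp hf

@[fun_prop] theorem nat_size {f : α → ℕ} (hf : CF f) : CF fun a => (f a).size :=
  (PT_cf (f := fun x : ℕ => (x).size) (by fun_prop)).comp hf

@[fun_prop] theorem nat_log2 {f : α → ℕ} (hf : CF f) : CF fun a => (f a).log2 :=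
  (PT_cf (f := fun x : ℕ => (x).log2) (by fun_prop)).comp hf

@[fun_prop] theorem nat_even {f : α → ℕ} (hf : CF f) : CF fun a => Even (f a) :=
  (PT_cf (f := fun x : ℕ => Even (x)) (by fun_prop)).comp hf

@[fun_prop] theorem nat_odd {f : α → ℕ} (hf : CF f) : CF fun a => Odd (f a) :=
  (PT_cf (f := fun x : ℕ => Odd (x)) (by fun_prop)).comp hf

@[fun_prop] theorem bits {f : α → ℕ} (hf : CF f) : CF fun a => (f a).bits :=
  (PT_cf (f := fun x : ℕ => (x).bits) (by fun_prop)).comp hf

@[fun_prop] theorem int_natCast {f : α → ℕ} (hf : CF f) : CF fun a => ((f a : ℕ) : ℤ) :=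
  (PT_cf (f := fun x : ℕ => ((x : ℕ) : ℤ)) (by fun_prop)).comp hf

@[fun_prop] theorem natAbs {f : α → ℤ} (hf : CF f) : CF fun a => (f a).natAbs :=
  (PT_cf (f := fun x : ℤ => (x).natAbs) (by fun_prop)).comp hf

@[fun_prop] theorem int_neg {f : α → ℤ} (hf : CF f) : CF fun a => - (f a) :=
  (PT_cf (f := fun x : ℤ => - (x)) (by fun_prop)).comp hf

@[fun_prop] theorem int_toNat {f : α → ℤ} (hf : CF f) : CF fun a => (f a).toNat :=
  (PT_cf (f := fun x : ℤ => (x).toNat) (by fun_prop)).comp hf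

@[fun_prop] theorem int_abs {f : α → ℤ} (hf : CF f) : CF fun a => |f a| :=
  (PT_cf (f := fun x : ℤ => |x|) (by fun_prop)).comp hf

@[fun_prop] theorem int_sign {f : α → ℤ} (hf : CF f) : CF fun a => (f a).sign :=
  (PT_cf (f := fun x : ℤ => (x).sign) (by fun_prop)).comp hf

@[fun_prop] theorem length {f : α → List β} (hf : CF f) : CF fun a => (f a).length :=
  (PT_cf (f := fun x : List β => (x).length) (by fun_prop)).comp hf

@[fun_prop] theorem tail {f : α → List β} (hf : CF f) : CF fun a => (f a).tail :=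
  (PT_cf (f := fun x : List β => (x).tail) (by fun_prop)).comp hf

@[fun_prop] theorem reverse {f : α → List β} (hf : CF f) : CF fun a => (f a).reverse :=
  (PT_cf (f := fun x : List β => (x).reverse) (by fun_prop)).comp hf

@[fun_prop] theorem flatten {f : α → List (List β)} (hf : CF f) : CF fun a => (f a).flatten :=
  (PT_cf (f := fun x : List (List β) => (x).flatten) (by fun_prop)).comp hf

@[fun_prop] theorem nat_sum {f : α → List ℕ} (hf : CF f) : CF fun a => (f a).sum :=
  (PT_cf (f := fun x : List ℕ => (x).sum) (by fun_prop)).comp hf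

@[fun_prop] theorem nat_prod {f : α → List ℕ} (hf : CF f) : CF fun a => (f a).prod :=
  (PT_cf (f := fun x : List ℕ => (x).prod) (by fun_prop)).comp hf

@[fun_prop] theorem int_sum {f : α → List ℤ} (hf : CF f) : CF fun a => (f a).sum :=
  (PT_cf (f := fun x : List ℤ => (x).sum) (by fun_prop)).comp hf

@[fun_prop] theorem int_prod {f : α → List ℤ} (hf : CF f) : CF fun a => (f a).prod :=
  (PT_cf (f := fun x : List ℤ => (x).prod) (by fun_prop)).comp hf

@[fun_prop] theorem ofBits {f : α → List Bool} (hf : CF f) : CF fun a => Lib.PT.ofBits (f a) :=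
  (PT_cf (f := fun x : List Bool => Lib.PT.ofBits (x)) (by fun_prop)).comp hf

@[fun_prop] theorem some {f : α → β} (hf : CF f) : CF fun a => Option.some (f a) :=
  (PT_cf (f := fun x : β => Option.some (x)) (by fun_prop)).comp hf

@[fun_prop] theorem isSome {f : α → Option β} (hf : CF f) : CF fun a => (f a).isSome :=
  (PT_cf (f := fun x : Option β => (x).isSome) (by fun_prop)).comp hf

@[fun_prop] theorem isNone {f : α → Option β} (hf : CF f) : CF fun a => (f a).isNone :=
  (PT_cf (f := fun x : Option β => (x).isNone) (by fun_prop)).comp hf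

@[fun_prop] theorem isLeft {f : α → β ⊕ γ} (hf : CF f) : CF fun a => (f a).isLeft :=
  (PT_cf (f := fun x : β ⊕ γ => (x).isLeft) (by fun_prop)).comp hf

@[fun_prop] theorem isRight {f : α → β ⊕ γ} (hf : CF f) : CF fun a => (f a).isRight :=
  (PT_cf (f := fun x : β ⊕ γ => (x).isRight) (by fun_prop)).comp hf

@[fun_prop] theorem getLeft? {f : α → β ⊕ γ} (hf : CF f) : CF fun a => (f a).getLeft? :=
  (PT_cf (f := fun x : β ⊕ γ => (x).getLeft?) (by fun_prop)).comp hf

@[fun_prop] theorem getRight? {f : α → β ⊕ γ} (hf : CF f) : CF fun a => (f a).getRight? :=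
  (PT_cf (f := fun x : β ⊕ γ => (x).getRight?) (by fun_prop)).comp hf

@[fun_prop] theorem inl {f : α → β} (hf : CF f) : CF fun a => (Sum.inl (f a) : β ⊕ γ) :=
  (PT_cf (f := fun x : β => (Sum.inl (x) : β ⊕ γ)) (by fun_prop)).comp hf

@[fun_prop] theorem inr {f : α → γ} (hf : CF f) : CF fun a => (Sum.inr (f a) : β ⊕ γ) :=
  (PT_cf (f := fun x : γ => (Sum.inr (x) : β ⊕ γ)) (by fun_prop)).comp hf

@[fun_prop] theorem bnot {f : α → Bool} (hf : CF f) : CF fun a => !(f a) :=
  (PT_cf (f := fun x : Bool => !(x)) (by fun_prop)).comp hf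

@[fun_prop] theorem toNat {f : α → Bool} (hf : CF f) : CF fun a => (f a).toNat :=
  (PT_cf (f := fun x : Bool => (x).toNat) (by fun_prop)).comp hf

@[fun_prop] theorem left {f : α → V} (hf : CF f) : CF fun a => (f a).left :=
  (PT_cf (f := fun x : V => (x).left) (by fun_prop)).comp hf

@[fun_prop] theorem right {f : α → V} (hf : CF f) : CF fun a => (f a).right :=
  (PT_cf (f := fun x : V => (x).right) (by fun_prop)).comp hf

@[fun_prop] theorem toBits {f : α → β} (hf : CF f) : CF fun a => Lib.PT.toBits (f a) :=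
  (PT_cf (f := fun x : β => Lib.PT.toBits (x)) (by fun_prop)).comp hf

@[fun_prop] theorem nat_add {f : α → ℕ} {g : α → ℕ} (hf : CF f) (hg : CF g) :
    CF fun a => f a + g a :=
  comp₂ (F := fun x : (ℕ) × (ℕ) => x.1 + x.2) (by fun_prop) hf hg

@[fun_prop] theorem nat_sub {f : α → ℕ} {g : α → ℕ} (hf : CF f) (hg : CF g) :
    CF fun a => f a - g a :=
  comp₂ (F := fun x : (ℕ) × (ℕ) => x.1 - x.2) (by fun_prop) hf hg

@[fun_prop] theorem nat_mul {f : α → ℕ} {g : α → ℕ} (hf : CF f) (hg : CF g) :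
    CF fun a => f a * g a :=
  comp₂ (F := fun x : (ℕ) × (ℕ) => x.1 * x.2) (by fun_prop) hf hg

@[fun_prop] theorem nat_div {f : α → ℕ} {g : α → ℕ} (hf : CF f) (hg : CF g) :
    CF fun a => f a / g a :=
  comp₂ (F := fun x : (ℕ) × (ℕ) => x.1 / x.2) (by fun_prop) hf hg

@[fun_prop] theorem nat_mod {f : α → ℕ} {g : α → ℕ} (hf : CF f) (hg : CF g) :
    CF fun a => f a % g a :=
  comp₂ (F := fun x : (ℕ) × (ℕ) => x.1 % x.2) (by fun_prop) hf hg

@[fun_prop] theorem nat_le {f : α → ℕ} {g : α → ℕ} (hf : CF f) (hg : CF g) :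
    CF fun a => f a ≤ g a :=
  comp₂ (F := fun x : (ℕ) × (ℕ) => x.1 ≤ x.2) (by fun_prop) hf hg

@[fun_prop] theorem nat_lt {f : α → ℕ} {g : α → ℕ} (hf : CF f) (hg : CF g) :
    CF fun a => f a < g a :=
  comp₂ (F := fun x : (ℕ) × (ℕ) => x.1 < x.2) (by fun_prop) hf hg

@[fun_prop] theorem nat_ge {f : α → ℕ} {g : α → ℕ} (hf : CF f) (hg : CF g) :
    CF fun a => f a ≥ g a :=
  comp₂ (F := fun x : (ℕ) × (ℕ) => x.1 ≥ x.2) (by fun_prop) hf hg

@[fun_prop] theorem nat_gt {f : α → ℕ} {g : α → ℕ} (hf : CF f) (hg : CF g) :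
    CF fun a => f a > g a :=
  comp₂ (F := fun x : (ℕ) × (ℕ) => x.1 > x.2) (by fun_prop) hf hg

@[fun_prop] theorem nat_max {f : α → ℕ} {g : α → ℕ} (hf : CF f) (hg : CF g) :
    CF fun a => max (f a) (g a) :=
  comp₂ (F := fun x : (ℕ) × (ℕ) => max (x.1) (x.2)) (by fun_prop) hf hg

@[fun_prop] theorem nat_min {f : α → ℕ} {g : α → ℕ} (hf : CF f) (hg : CF g) :
    CF fun a => min (f a) (g a) :=
  comp₂ (F := fun x : (ℕ) × (ℕ) => min (x.1) (x.2)) (by fun_prop) hf hg

@[fun_prop] theorem nat_dvd {f : α → ℕ} {g : α → ℕ} (hf : CF f) (hg : CF g) :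
    CF fun a => f a ∣ g a :=
  comp₂ (F := fun x : (ℕ) × (ℕ) => x.1 ∣ x.2) (by fun_prop) hf hg

@[fun_prop] theorem testBit {f : α → ℕ} {g : α → ℕ} (hf : CF f) (hg : CF g) :
    CF fun a => (f a).testBit (g a) :=
  comp₂ (F := fun x : (ℕ) × (ℕ) => (x.1).testBit (x.2)) (by fun_prop) hf hg

@[fun_prop] theorem int_add {f : α → ℤ} {g : α → ℤ} (hf : CF f) (hg : CF g) :
    CF fun a => f a + g a :=
  comp₂ (F := fun x : (ℤ) × (ℤ) => x.1 + x.2) (by fun_prop) hf hg

@[fun_prop] theorem int_sub {f : α → ℤ} {g : α → ℤ} (hf : CF f) (hg : CF g) :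
    CF fun a => f a - g a :=
  comp₂ (F := fun x : (ℤ) × (ℤ) => x.1 - x.2) (by fun_prop) hf hg

@[fun_prop] theorem int_mul {f : α → ℤ} {g : α → ℤ} (hf : CF f) (hg : CF g) :
    CF fun a => f a * g a :=
  comp₂ (F := fun x : (ℤ) × (ℤ) => x.1 * x.2) (by fun_prop) hf hg

@[fun_prop] theorem int_ediv {f : α → ℤ} {g : α → ℤ} (hf : CF f) (hg : CF g) :
    CF fun a => f a / g a :=
  comp₂ (F := fun x : (ℤ) × (ℤ) => x.1 / x.2) (by fun_prop) hf hg

@[fun_prop] theorem int_emod {f : α → ℤ} {g : α → ℤ} (hf : CF f) (hg : CF g) :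
    CF fun a => f a % g a :=
  comp₂ (F := fun x : (ℤ) × (ℤ) => x.1 % x.2) (by fun_prop) hf hg

@[fun_prop] theorem int_le {f : α → ℤ} {g : α → ℤ} (hf : CF f) (hg : CF g) :
    CF fun a => f a ≤ g a :=
  comp₂ (F := fun x : (ℤ) × (ℤ) => x.1 ≤ x.2) (by fun_prop) hf hg

@[fun_prop] theorem int_lt {f : α → ℤ} {g : α → ℤ} (hf : CF f) (hg : CF g) :
    CF fun a => f a < g a :=
  comp₂ (F := fun x : (ℤ) × (ℤ) => x.1 < x.2) (by fun_prop) hf hg

@[fun_prop] theorem int_ge {f : α → ℤ} {g : α → ℤ} (hf : CF f) (hg : CF g) :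
    CF fun a => f a ≥ g a :=
  comp₂ (F := fun x : (ℤ) × (ℤ) => x.1 ≥ x.2) (by fun_prop) hf hg

@[fun_prop] theorem int_gt {f : α → ℤ} {g : α → ℤ} (hf : CF f) (hg : CF g) :
    CF fun a => f a > g a :=
  comp₂ (F := fun x : (ℤ) × (ℤ) => x.1 > x.2) (by fun_prop) hf hg

@[fun_prop] theorem int_max {f : α → ℤ} {g : α → ℤ} (hf : CF f) (hg : CF g) :
    CF fun a => max (f a) (g a) :=
  comp₂ (F := fun x : (ℤ) × (ℤ) => max (x.1) (x.2)) (by fun_prop) hf hg

@[fun_prop] theorem int_min {f : α → ℤ} {g : α → ℤ} (hf : CF f) (hg : CF g) :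
    CF fun a => min (f a) (g a) :=
  comp₂ (F := fun x : (ℤ) × (ℤ) => min (x.1) (x.2)) (by fun_prop) hf hg

@[fun_prop] theorem cons {f : α → β} {g : α → List β} (hf : CF f) (hg : CF g) :
    CF fun a => f a :: g a :=
  comp₂ (F := fun x : (β) × (List β) => x.1 :: x.2) (by fun_prop) hf hg

@[fun_prop] theorem append {f : α → List β} {g : α → List β} (hf : CF f) (hg : CF g) :
    CF fun a => f a ++ g a :=
  comp₂ (F := fun x : (List β) × (List β) => x.1 ++ x.2) (by fun_prop) hf hg

@[fun_prop] theorem headD {f : α → List β} {g : α → β} (hf : CF f) (hg : CF g) :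
    CF fun a => (f a).headD (g a) :=
  comp₂ (F := fun x : (List β) × (β) => (x.1).headD (x.2)) (by fun_prop) hf hg

@[fun_prop] theorem take {f : α → ℕ} {g : α → List β} (hf : CF f) (hg : CF g) :
    CF fun a => (g a).take (f a) :=
  comp₂ (F := fun x : (ℕ) × (List β) => (x.2).take (x.1)) (by fun_prop) hf hg

@[fun_prop] theorem drop {f : α → ℕ} {g : α → List β} (hf : CF f) (hg : CF g) :
    CF fun a => (g a).drop (f a) :=
  comp₂ (F := fun x : (ℕ) × (List β) => (x.2).drop (x.1)) (by fun_prop) hf hg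

@[fun_prop] theorem getElem? {f : α → List β} {g : α → ℕ} (hf : CF f) (hg : CF g) :
    CF fun a => (f a)[g a]? :=
  comp₂ (F := fun x : (List β) × (ℕ) => (x.1)[x.2]?) (by fun_prop) hf hg

@[fun_prop] theorem mem {f : α → List β} {g : α → β} (hf : CF f) (hg : CF g) :
    CF fun a => g a ∈ f a :=
  comp₂ (F := fun x : (List β) × (β) => x.2 ∈ x.1) (by fun_prop) hf hg

@[fun_prop] theorem option_getD {f : α → Option β} {g : α → β} (hf : CF f) (hg : CF g) :
    CF fun a => (f a).getD (g a) :=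
  comp₂ (F := fun x : (Option β) × (β) => (x.1).getD (x.2)) (by fun_prop) hf hg

@[fun_prop] theorem zip {f : α → List β} {g : α → List γ} (hf : CF f) (hg : CF g) :
    CF fun a => (f a).zip (g a) :=
  comp₂ (F := fun x : (List β) × (List γ) => (x.1).zip (x.2)) (by fun_prop) hf hg

@[fun_prop] theorem band {f : α → Bool} {g : α → Bool} (hf : CF f) (hg : CF g) :
    CF fun a => f a && g a :=
  comp₂ (F := fun x : (Bool) × (Bool) => x.1 && x.2) (by fun_prop) hf hg

@[fun_prop] theorem bor {f : α → Bool} {g : α → Bool} (hf : CF f) (hg : CF g) :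
    CF fun a => f a || g a :=
  comp₂ (F := fun x : (Bool) × (Bool) => x.1 || x.2) (by fun_prop) hf hg

@[fun_prop] theorem node {f : α → V} {g : α → V} (hf : CF f) (hg : CF g) :
    CF fun a => V.node (f a) (g a) :=
  comp₂ (F := fun x : (V) × (V) => V.node (x.1) (x.2)) (by fun_prop) hf hg

@[fun_prop] theorem getD {l : α → List β} {n : α → ℕ} {d : α → β} (hl : CF l) (hn : CF n)
    (hd : CF d) : CF fun a => (l a).getD (n a) (d a) :=
  comp₃ (F := fun x : List β × ℕ × β => x.1.getD x.2.1 x.2.2) (by fun_prop) hl hn hd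

@[fun_prop] theorem idxOf [BEq β] [LawfulBEq β] {l : α → List β} {f : α → β} (hl : CF l)
    (hf : CF f) : CF fun a => (l a).idxOf (f a) :=
  comp₂ (F := fun x : List β × β => x.1.idxOf x.2) (by fun_prop) hl hf

@[fun_prop] theorem dec [Dec β] {f : α → V} (hf : CF f) : CF fun a => (Dec.dec (f a) : β) :=
  (PT_cf Dec.pt).comp hf

@[fun_prop] theorem fromBits [Dec β] {f : α → List Bool} (hf : CF f) :
    CF fun a => (Lib.PT.fromBits (f a) : β) :=
  (PT_cf (f := fun x : List Bool => (Lib.PT.fromBits x : β)) (by fun_prop)).comp hf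

/-- A polynomially bounded number in unary. -/
@[fun_prop] theorem un_mk {n : α → ℕ} (hn : CF n) (hb : PB n) : CF fun a => Un.mk (n a) := by
  obtain ⟨B, h1, h2, h3⟩ := PB_exists_pt hb
  have h : PT fun x : ℕ × Un => Un.mk (min x.1 x.2.n) :=
    PT.un_mk (by fun_prop) (PB.min_right _ (by fun_prop))
  exact (comp₂ h hn (PT_cf (h1.un_mk h2))).of_eq fun a => by rw [min_eq_left (h3 a)]

@[fun_prop] theorem un_n {u : α → Un} (hu : CF u) : CF fun a => (u a).n :=
  (PT_cf (f := fun x : Un => x.n) (by fun_prop)).comp hu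

@[fun_prop] theorem nat_pow {n m : α → ℕ} (hn : CF n) (hm : CF m) (hb : PB m) :
    CF fun a => n a ^ m a :=
  comp₂ (F := fun x : ℕ × Un => x.1 ^ x.2.n) (by fun_prop) hn (hm.un_mk hb)

@[fun_prop] theorem int_pow {n : α → ℤ} {m : α → ℕ} (hn : CF n) (hm : CF m) (hb : PB m) :
    CF fun a => n a ^ m a :=
  comp₂ (F := fun x : ℤ × Un => x.1 ^ x.2.n) (by fun_prop) hn (hm.un_mk hb)

@[fun_prop] theorem range {n : α → ℕ} (hn : CF n) (hb : PB n) : CF fun a => List.range (n a) :=
  (PT_cf (f := fun x : Un => List.range x.n) (by fun_prop)).comp (hn.un_mk hb)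

theorem nat_powMod {n e m : α → ℕ} (hn : CF n) (he : CF e) (hm : CF m) (h0 : ∀ a, 0 < m a) :
    CF fun a => n a ^ e a % m a := by
  have h : PT fun x : ℕ × ℕ × ℕ => x.1 ^ x.2.1 % (x.2.2 + 1) :=
    PT.nat_powMod (by fun_prop) (by fun_prop) (by fun_prop) fun _ => Nat.succ_pos _
  exact (comp₃ h hn he (hm.nat_sub (const 1))).of_eq fun a => by
    have := h0 a
    rw [Nat.sub_add_cancel this]

/-- Case distinction on an option. -/
theorem option_cases {o : α → Option β} {F f : α → γ} {g : α → β → γ} (ho : CF o)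
    (h₁ : CF f) (h₂ : CF fun p : α × β => g p.1 p.2)
    (e₁ : ∀ a, o a = none → F a = f a) (e₂ : ∀ a b, o a = Option.some b → F a = g a b) :
    CF F := by
  refine by_cases (p := fun a => (o a).isSome = true) ho.isSome.eq_true ?_
    ((h₁.restrict _).of_eq fun a => (e₁ _ (by simpa using a.2)).symm)
  have h3 : PT fun x : {x : Option β // x.isSome = true} => x.1.get x.2 :=
    PT.option_get PT.id.val _
  have h4 : CF fun a : {a // (o a).isSome = true} => (o a.1).get a.2 :=
    (PT_cf h3).comp_sub (fun a => o a.1) (ho.restrict _) fun a => a.2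
  exact (h₂.comp (id.val.pair h4)).of_eq fun a => (e₂ _ _ (by simp)).symm

@[fun_prop] theorem option_elim {o : α → Option β} {f : α → γ} {g : α → β → γ}
    (ho : CF o) (h₁ : CF f) (h₂ : CF fun p : α × β => g p.1 p.2) :
    CF fun a => (o a).elim (f a) (g a) :=
  option_cases ho h₁ h₂ (fun a h => by rw [h]; rfl) (fun a b h => by rw [h]; rfl)

/-- Case distinction on a sum. -/
theorem sum_cases {s : α → β ⊕ γ} {F : α → δ} {f : α → β → δ} {g : α → γ → δ} (hs : CF s)
    (h₁ : CF fun p : α × β => f p.1 p.2) (h₂ : CF fun p : α × γ => g p.1 p.2)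
    (e₁ : ∀ a b, s a = Sum.inl b → F a = f a b) (e₂ : ∀ a c, s a = Sum.inr c → F a = g a c) :
    CF F := by
  refine by_cases (p := fun a => (s a).isLeft = true) hs.isLeft.eq_true ?_ ?_
  · have h3 : PT fun x : {x : β ⊕ γ // x.getLeft?.isSome = true} => x.1.getLeft?.get x.2 :=
      PT.option_get PT.id.val.getLeft? _
    have k : ∀ a : {a // (s a).isLeft = true}, (s a.1).getLeft?.isSome = true := fun a => by
      have := a.2
      cases h : s a.1 <;> simp_all
    have h4 : CF fun a : {a // (s a).isLeft = true} => (s a.1).getLeft?.get (k a) :=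
      (PT_cf h3).comp_sub (fun a => s a.1) (hs.restrict _) k
    refine (h₁.comp (id.val.pair h4)).of_eq fun a => (e₁ _ _ ?_).symm
    exact Sum.getLeft?_eq_some_iff.1 (Option.some_get (k a)).symm
  · have h3 : PT fun x : {x : β ⊕ γ // x.getRight?.isSome = true} => x.1.getRight?.get x.2 :=
      PT.option_get PT.id.val.getRight? _
    have k : ∀ a : {a // ¬ (s a).isLeft = true}, (s a.1).getRight?.isSome = true := fun a => by
      have := a.2
      cases h : s a.1 <;> simp_all
    have h4 : CF fun a : {a // ¬ (s a).isLeft = true} => (s a.1).getRight?.get (k a) :=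
      (PT_cf h3).comp_sub (fun a => s a.1) (hs.restrict _) k
    refine (h₂.comp (id.val.pair h4)).of_eq fun a => (e₂ _ _ ?_).symm
    exact Sum.getRight?_eq_some_iff.1 (Option.some_get (k a)).symm

@[fun_prop] theorem sum_elim {s : α → β ⊕ γ} {f : α → β → δ} {g : α → γ → δ} (hs : CF s)
    (h₁ : CF fun p : α × β => f p.1 p.2) (h₂ : CF fun p : α × γ => g p.1 p.2) :
    CF fun a => Sum.elim (f a) (g a) (s a) :=
  sum_cases hs h₁ h₂ (fun a b h => by rw [h]; rfl) (fun a b h => by rw [h]; rfl)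

/-! ### Quantifiers over exponentially long ranges -/

theorem cnt {N : α → ℕ} {q : α → ℕ → Prop} (hN : CF N) (hq : CF fun x : α × ℕ => q x.1 x.2) :
    CF fun a => cnt (N a) (q a) := cnt' hN (hq.restrict _)

theorem bex_lt' {N : α → ℕ} {q : α → ℕ → Prop} (hN : CF N)
    (hq : CF fun x : {x : α × ℕ // x.2 < N x.1} => q x.1.1 x.1.2) :
    CF fun a => ∃ y < N a, q a y := by
  classical
  refine ((const 0).nat_lt (cnt' hN hq)).of_iff fun a => ?_
  simp only [R316.cnt, Finset.card_pos, Finset.Nonempty, Finset.mem_filter, Finset.mem_range]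

theorem bex_lt {N : α → ℕ} {q : α → ℕ → Prop} (hN : CF N) (hq : CF fun x : α × ℕ => q x.1 x.2) :
    CF fun a => ∃ y < N a, q a y := bex_lt' hN (hq.restrict _)

theorem ball_lt' {N : α → ℕ} {q : α → ℕ → Prop} (hN : CF N)
    (hq : CF fun x : {x : α × ℕ // x.2 < N x.1} => q x.1.1 x.1.2) :
    CF fun a => ∀ y < N a, q a y :=
  (bex_lt' (q := fun a y => ¬ q a y) hN hq.not).not.of_iff fun a => by simp

theorem ball_lt {N : α → ℕ} {q : α → ℕ → Prop} (hN : CF N) (hq : CF fun x : α × ℕ => q x.1 x.2) :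
    CF fun a => ∀ y < N a, q a y := ball_lt' hN (hq.restrict _)

theorem nat_prime {p : α → ℕ} (hp : CF p) : CF fun a => (p a).Prime := by
  have h : CF fun a => 2 ≤ p a ∧ ∀ m < p a, m ∣ p a → m = 1 :=
    ((const 2).nat_le hp).and (ball_lt hp
      ((id.snd.nat_dvd (hp.comp id.fst)).imp (id.snd.eq (const 1))))
  exact h.of_iff fun a => Nat.prime_def_lt.symm

end CF

/-! ### Polynomial bounds along `CF` maps -/

attribute [fun_prop] PB_compCF

@[fun_prop] theorem PB_szCF {f : α → β} (hf : CF f) : PB fun a => sz (f a) := hf.1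

@[fun_prop] theorem PB_lengthCF {l : α → List β} (hl : CF l) : PB fun a => (l a).length :=
  hl.1.mono fun a => by have := length_le_sz (l a); omega

@[fun_prop] theorem PB_sizeCF {n : α → ℕ} (hn : CF n) : PB fun a => (n a).size :=
  hn.1.mono fun a => by have := size_le_sz (n a); omega

/-- On pairs with an index in a polynomially bounded range, the index is polynomially bounded. -/
theorem PB_idx {n : α → ℕ} (hb : PB n) : PB fun p : {p : α × ℕ // p.2 < n p.1} => p.1.2 :=
  PB.idx hb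

/-! ### Digits -/

/-- The `i`-th digit of `c` in base `K`. -/
def dig (K c i : ℕ) : ℕ := c / K ^ i % K

theorem dig_lt {K : ℕ} (hK : 0 < K) (c i : ℕ) : dig K c i < K := Nat.mod_lt _ hK

theorem dig_eq_min (K c i : ℕ) : dig K c i = c / K ^ (min i (c.size + 1)) % K := by
  unfold dig
  rcases le_total i (c.size + 1) with h | h
  · rw [min_eq_left h]
  · rw [min_eq_right h]
    rcases Nat.lt_or_ge K 2 with hK | hK
    · interval_cases K
      · obtain ⟨j, rfl⟩ : ∃ j, i = j + 1 := ⟨i - 1, by omega⟩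
        simp
      · simp [Nat.mod_one]
    · have h1 : ∀ j, c.size ≤ j → c / K ^ j = 0 := fun j hj =>
        Nat.div_eq_of_lt ((Nat.size_le.1 hj).trans_le (Nat.pow_le_pow_left hK j))
      rw [h1 i (by omega), h1 _ (by omega)]

@[fun_prop] theorem PT_dig {K c i : α → ℕ} (hK : PT K) (hc : PT c) (hi : PT i) :
    PT fun a => dig (K a) (c a) (i a) :=
  ((hc.nat_div (hK.nat_pow (hi.nat_min (hc.nat_size.nat_add (PT.const 1)))
    (PB.min_right _ (by fun_prop)))).nat_mod hK).of_eq fun a => (dig_eq_min _ _ _).symm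

@[fun_prop] theorem CF.dig {K c i : α → ℕ} (hK : CF K) (hc : CF c) (hi : CF i) :
    CF fun a => dig (K a) (c a) (i a) :=
  CF.comp₃ (F := fun x : ℕ × ℕ × ℕ => R316.dig x.1 x.2.1 x.2.2) (by fun_prop) hK hc hi

example {f g : α → ℕ} {N : α × ℕ → ℕ} (hf : CF f) (hg : CF g) (hN : CF N) :
    CF fun a : α × ℕ => (f a.1 + g a.1 * N a) % 7 < N (a.1, a.2 + 1) ∧ dig 3 a.2 (f a.1) = 1 := by
  fun_prop

example {f : α → ℕ} {b : α × ℕ → ℕ} (hf : CF f) (hb : PB b) :
    PB fun a : α => b (a, f a) + 3 := by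
  fun_prop

end Crest.Agent.R316
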