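import Crest.Agent.R316.Ext
import Crest.Prelude.Def_CountHier

/-!
# The counting hierarchy on encoded types: definitions and closure properties of `CHl`, `CH`
-/

namespace Crest.Agent.R316

open Crest.Agent.Lib.PT

/-- The number of `y < N` with `q y`. -/
noncomputable def cnt (N : ℕ) (q : ℕ → Prop) : ℕ := by
  classical exact ((Finset.range N).filter q).card

/-- Levels of the counting hierarchy on encoded types. -/
def CHl : ℕ → ∀ (α : Type) [Enc α], (α → Prop) → Prop
  | 0, _, _, p => PT p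
  | j + 1, α, _, p => ∃ (q : α × ℕ → Prop) (N t : α → ℕ), CHl j (α × ℕ) q ∧ PT N ∧ PT t ∧
      ∀ a, p a ↔ t a ≤ cnt (N a) fun y => q (a, y)

/-- The counting hierarchy on encoded types. -/
def CH {α : Type} [Enc α] (p : α → Prop) : Prop := ∃ j, CHl j α p

/-! ### Counting -/

namespace CFAux

theorem cnt_congr {N : ℕ} {q q' : ℕ → Prop} (h : ∀ y < N, q y ↔ q' y) : cnt N q = cnt N q' := by
  classical
  unfold cnt
  congr 1
  ext y
  simp only [Finset.mem_filter, Finset.mem_range]
  exact and_congr_right (h y)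

theorem cnt_le (N : ℕ) (q : ℕ → Prop) : cnt N q ≤ N := by
  classical
  unfold cnt
  exact (Finset.card_filter_le _ _).trans (by simp)

theorem cnt_not (N : ℕ) (q : ℕ → Prop) : cnt N q + cnt N (fun y => ¬ q y) = N := by
  classical
  unfold cnt
  have := Finset.card_filter_add_card_filter_not (s := Finset.range N) q
  rw [Finset.card_range] at this
  convert this

theorem one_le_cnt {N : ℕ} {q : ℕ → Prop} : 1 ≤ cnt N q ↔ ∃ y < N, q y := by
  classical
  unfold cnt
  rw [Nat.succ_le_iff, Finset.card_pos]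
  simp [Finset.Nonempty]

theorem cnt_restrict {N M : ℕ} (h : N ≤ M) (q : ℕ → Prop) :
    cnt M (fun y => y < N ∧ q y) = cnt N q := by
  classical
  unfold cnt
  congr 1
  ext y
  simp only [Finset.mem_filter, Finset.mem_range]
  constructor
  · exact fun h => h.2
  · exact fun h' => ⟨by omega, h'⟩

theorem cnt_split (m M s : ℕ) (hs : m + s ≤ M) (q : ℕ → Prop) :
    cnt M (fun u => (u < m ∧ q u) ∨ (¬ u < m ∧ u < m + s)) = cnt m q + s := by
  classical
  unfold cnt
  have e : (Finset.range M).filter (fun u => (u < m ∧ q u) ∨ (¬ u < m ∧ u < m + s)) =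
      (Finset.range m).filter q ∪ Finset.Ico m (m + s) := by
    ext y
    simp only [Finset.mem_filter, Finset.mem_range, Finset.mem_union, Finset.mem_Ico]
    constructor
    · rintro ⟨-, h | h⟩
      · exact Or.inl h
      · exact Or.inr ⟨by omega, h.2⟩
    · rintro (h | h)
      · exact ⟨by omega, Or.inl h⟩
      · exact ⟨by omega, Or.inr ⟨by omega, h.2⟩⟩
  have d : Disjoint ((Finset.range m).filter q) (Finset.Ico m (m + s)) := by
    rw [Finset.disjoint_left]
    intro y h1 h2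
    simp only [Finset.mem_filter, Finset.mem_range, Finset.mem_Ico] at h1 h2
    omega
  have := Finset.card_union_of_disjoint d
  rw [← e] at this
  simp only [Nat.card_Ico, Nat.add_sub_cancel_left] at this
  convert this

end CFAux

open CFAux

/-! ### Closure properties of the levels -/

namespace CHl

theorem congr : ∀ {j : ℕ} {α : Type} [Enc α] {p p' : α → Prop}, CHl j α p →
    (∀ a, p a ↔ p' a) → CHl j α p'
  | 0, _, _, _, _, h, e => PT.of_iff h e
  | _ + 1, _, _, _, _, ⟨q, N, t, hq, hN, ht, h⟩, e =>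
    ⟨q, N, t, hq, hN, ht, fun a => (e a).symm.trans (h a)⟩

theorem comp : ∀ {j : ℕ} {α β : Type} [Enc α] [Enc β] {p : β → Prop} {f : α → β},
    CHl j β p → PT f → CHl j α fun a => p (f a) := by
  intro j
  induction j with
  | zero => intro α β _ _ p f h hf; exact PT.comp h hf
  | succ j ih =>
    intro α β _ _ p f ⟨q, N, t, hq, hN, ht, h⟩ hf
    exact ⟨fun x => q (f x.1, x.2), fun a => N (f a), fun a => t (f a),
      ih (f := fun x : α × ℕ => (f x.1, x.2)) hq (by fun_prop), hN.comp hf, ht.comp hf,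
      fun a => h (f a)⟩

theorem succ {j : ℕ} {α : Type} [Enc α] {p : α → Prop} (h : CHl j α p) : CHl (j + 1) α p :=
  ⟨fun x => p x.1, fun _ => 1, fun _ => 1, h.comp PT.id.fst, PT.const _, PT.const _, fun a => by
    rw [one_le_cnt]; simp⟩

theorem mono {j k : ℕ} {α : Type} [Enc α] {p : α → Prop} (h : CHl j α p) (hjk : j ≤ k) :
    CHl k α p := by
  induction hjk with
  | refl => exact h
  | step _ ih => exact ih.succ

theorem of_PT (j : ℕ) {α : Type} [Enc α] {p : α → Prop} (h : PT p) : CHl j α p :=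
  mono (j := 0) h (Nat.zero_le _)

theorem cases : ∀ {j : ℕ} {α : Type} [Enc α] {r p₁ p₂ : α → Prop}, PT r → CHl j α p₁ →
    CHl j α p₂ → CHl j α fun a => (r a ∧ p₁ a) ∨ (¬ r a ∧ p₂ a) := by
  intro j
  induction j with
  | zero => intro α _ r p₁ p₂ hr h₁ h₂; exact (hr.and h₁).or (hr.not.and h₂)
  | succ j ih =>
    intro α _ r p₁ p₂ hr ⟨q₁, N₁, t₁, hq₁, hN₁, ht₁, h₁⟩ ⟨q₂, N₂, t₂, hq₂, hN₂, ht₂, h₂⟩
    classical
    refine ⟨fun x => (r x.1 ∧ q₁ x) ∨ (¬ r x.1 ∧ q₂ x), fun a => if r a then N₁ a else N₂ a,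
      fun a => if r a then t₁ a else t₂ a, ih (hr.comp PT.id.fst) hq₁ hq₂, hr.ite hN₁ hN₂,
      hr.ite ht₁ ht₂, fun a => ?_⟩
    by_cases h : r a
    · simp only [h, true_and, not_true, false_and, or_false, if_true]; exact h₁ a
    · simp only [h, false_and, not_false_iff, true_and, false_or, if_false]; exact h₂ a

theorem not : ∀ {j : ℕ} {α : Type} [Enc α] {p : α → Prop}, CHl j α p →
    CHl j α fun a => ¬ p a := by
  intro j
  induction j with
  | zero => intro α _ p h; exact PT.not h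
  | succ j ih =>
    intro α _ p ⟨q, N, t, hq, hN, ht, h⟩
    refine ⟨fun x => ¬ q x, N, fun a => N a + 1 - t a, ih hq, hN, by fun_prop, fun a => ?_⟩
    have h1 := cnt_not (N a) fun y => q (a, y)
    have h2 := cnt_le (N a) fun y => q (a, y)
    beta_reduce
    rw [h a]
    omega

theorem extend : ∀ {j : ℕ} {α : Type} [Enc α] {p : α → Prop}, CHl j α p →
    ∃ P : V → Prop, CHl j V P ∧ ∀ a, P (enc a) ↔ p a := by
  intro j
  induction j with
  | zero =>
    intro α _ p h
    obtain ⟨F, hF, e⟩ := PT_extend (f := p) h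
    exact ⟨fun v => F v = enc True, hF.eq (PT.const _), fun a => by
      beta_reduce
      rw [e, enc_inj]; simp⟩
  | succ j ih =>
    intro α _ p ⟨q, N, t, hq, hN, ht, h⟩
    obtain ⟨Q, hQ, eQ⟩ := ih hq
    obtain ⟨FN, hFN, eN⟩ := PT_extend hN
    obtain ⟨Ft, hFt, et⟩ := PT_extend ht
    refine ⟨fun v => (dec (Ft v) : ℕ) ≤ cnt (dec (FN v)) fun y => Q (enc (v, y)),
      ⟨fun x => Q (enc x), fun v => dec (FN v), fun v => dec (Ft v), hQ.comp PT.id.enc,
        hFN.dec, hFt.dec, fun _ => Iff.rfl⟩, fun a => ?_⟩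
    beta_reduce
    rw [h a, eN, et, dec_enc, dec_enc]
    rw [cnt_congr (q := fun y => Q (enc (enc a, y))) (q' := fun y => q (a, y))
      fun y _ => eQ (a, y)]

end CHl

/-! ### Closure properties of `CH` -/

namespace CH

variable {α β : Type} [Enc α] [Enc β] {p q : α → Prop}

theorem congr (h : CH p) (e : ∀ a, p a ↔ q a) : CH q :=
  let ⟨j, h⟩ := h; ⟨j, h.congr e⟩

theorem comp {p : β → Prop} {f : α → β} (h : CH p) (hf : PT f) : CH fun a => p (f a) :=
  let ⟨j, h⟩ := h; ⟨j, h.comp hf⟩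

theorem of_PT (h : PT p) : CH p := ⟨0, h⟩

theorem not (h : CH p) : CH fun a => ¬ p a :=
  let ⟨j, h⟩ := h; ⟨j, h.not⟩

theorem cases {r : α → Prop} (hr : PT r) (hp : CH p) (hq : CH q) :
    CH fun a => (r a ∧ p a) ∨ (¬ r a ∧ q a) :=
  let ⟨j, hp⟩ := hp
  let ⟨k, hq⟩ := hq
  ⟨max j k, CHl.cases hr (hp.mono (le_max_left _ _)) (hq.mono (le_max_right _ _))⟩

theorem count {q : α × ℕ → Prop} {N t : α → ℕ} (hq : CH q) (hN : PT N) (ht : PT t) :
    CH fun a => t a ≤ cnt (N a) fun y => q (a, y) :=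
  let ⟨j, hq⟩ := hq; ⟨j + 1, q, N, t, hq, hN, ht, fun _ => Iff.rfl⟩

theorem bex {q : α × ℕ → Prop} {N : α → ℕ} (hq : CH q) (hN : PT N) :
    CH fun a => ∃ y < N a, q (a, y) :=
  (hq.count hN (PT.const 1)).congr fun _ => one_le_cnt

theorem or (hp : CH p) (hq : CH q) : CH fun a => p a ∨ q a := by
  have h := (cases (r := fun x : α × ℕ => x.2 = 0) (by fun_prop) (hp.comp PT.id.fst)
    (hq.comp PT.id.fst)).bex (PT.const 2)
  refine h.congr fun a => ⟨?_, ?_⟩
  · rintro ⟨y, -, h | h⟩
    · exact Or.inl h.2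
    · exact Or.inr h.2
  · rintro (h | h)
    · exact ⟨0, by omega, Or.inl ⟨rfl, h⟩⟩
    · exact ⟨1, by omega, Or.inr ⟨one_ne_zero, h⟩⟩

theorem and (hp : CH p) (hq : CH q) : CH fun a => p a ∧ q a :=
  (hp.not.or hq.not).not.congr fun a => by tauto

theorem imp (hp : CH p) (hq : CH q) : CH fun a => p a → q a :=
  (hp.not.or hq).congr fun a => by tauto

theorem extend (h : CH p) : ∃ P : V → Prop, CH P ∧ ∀ a, P (enc a) ↔ p a :=
  let ⟨j, h⟩ := h
  let ⟨P, hP, e⟩ := h.extend
  ⟨P, ⟨j, hP⟩, e⟩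

end CH

namespace CFAux

theorem bits_ofBits (l : List Bool) : (ofBits (l ++ [true])).bits = l ++ [true] := by
  induction l with
  | nil => rfl
  | cons b l ih =>
    rw [List.cons_append, ofBits_cons, Nat.bits_append_bit, ih]
    intro h
    rw [h] at ih
    simp at ih

theorem PT_size {α : Type} [Enc α] {f : α → V} (hf : PT f) : PT fun a => (f a).size :=
  hf.bitsV.length.of_eq fun _ => V.length_bits _

theorem PT_sz {α β : Type} [Enc α] [Enc β] {f : α → β} (hf : PT f) : PT fun a => sz (f a) :=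
  PT_size hf.enc

end CFAux

namespace CH

variable {α : Type} [Enc α]

/-- Existence of a tree of polynomial size. -/
theorem bexV {q : α × V → Prop} {B : α → ℕ} (hq : CH q) (hB : PT B) (hb : PB B) :
    CH fun a => ∃ v : V, v.size ≤ B a ∧ q (a, v) := by
  have hd : PT fun x : α × ℕ => unbits x.2.bits.dropLast := by fun_prop
  have h1 : CH fun x : α × ℕ => (unbits x.2.bits.dropLast).size ≤ B x.1 :=
    of_PT ((PT_size hd).nat_le (hB.comp PT.id.fst))
  have h2 : CH fun x : α × ℕ => q (x.1, unbits x.2.bits.dropLast) :=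
    hq.comp (f := fun x : α × ℕ => (x.1, unbits x.2.bits.dropLast)) (PT.id.fst.pair hd)
  refine ((h1.and h2).bex (N := fun a => 2 ^ (B a + 1)) (by fun_prop)).congr fun a => ⟨?_, ?_⟩
  · rintro ⟨y, -, h⟩
    exact ⟨_, h⟩
  · rintro ⟨v, hv, h⟩
    refine ⟨ofBits (v.bits ++ [true]), ?_, ?_⟩
    · refine (ofBits_lt _).trans_le (Nat.pow_le_pow_right (by omega) ?_)
      simpa using hv
    · simp only [bits_ofBits, List.dropLast_concat, unbits_bits]
      exact ⟨hv, h⟩

theorem ballV {q : α × V → Prop} {B : α → ℕ} (hq : CH q) (hB : PT B) (hb : PB B) :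
    CH fun a => ∀ v : V, v.size ≤ B a → q (a, v) :=
  (hq.not.bexV hB hb).not.congr fun a => by simp

end CH

end Crest.Agent.R316
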