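import Crest.Agent.R316.CFAux

/-!
# The bridge from `CHl` to the levels of the frozen definition
-/

namespace Crest.Agent.R316.CFAux

open Crest.Agent.Lib.PT Crest.CountHier

/-- The inverse of `pairBits`. -/
def unpair (z : List Bool) : List Bool × List Bool :=
  (natBits z, z.drop (2 * (natBits z).length + 1))

theorem natBits_pairBits (x y : List Bool) : natBits (pairBits x y) = x := by
  unfold pairBits
  induction x with
  | nil => rfl
  | cons b l ih => simpa [natBits] using ih

theorem unpair_pairBits (x y : List Bool) : unpair (pairBits x y) = (x, y) := by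
  rw [unpair, natBits_pairBits]
  congr 1
  unfold pairBits
  induction x with
  | nil => rfl
  | cons b l ih =>
    have : 2 * (b :: l).length + 1 = (2 * l.length + 1) + 1 + 1 := by simp; omega
    rw [this]
    simpa using ih

theorem unpair_pt : PT unpair := by
  have := natBits_pt
  unfold unpair
  fun_prop

theorem ofBits_injOn : ∀ (l l' : List Bool), l.length = l'.length → ofBits l = ofBits l' → l = l'
  | [], [], _, _ => rfl
  | [], _ :: _, h, _ => by simp at h
  | _ :: _, [], h, _ => by simp at h
  | b :: l, b' :: l', h, e => by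
    simp only [ofBits_cons] at e
    have h1 : b = b' := by
      have := congrArg Nat.bodd e
      simpa using this
    have h2 : ofBits l = ofBits l' := by
      have := congrArg Nat.div2 e
      simpa using this
    rw [h1, ofBits_injOn l l' (by simpa using h) h2]

theorem exists_ofBits : ∀ (k u : ℕ), u < 2 ^ k → ∃ l : List Bool, l.length = k ∧ ofBits l = u
  | 0, u, h => ⟨[], rfl, by simp at h; simp [h]⟩
  | k + 1, u, h => by
    obtain ⟨l, h1, h2⟩ := exists_ofBits k u.div2 (by rw [Nat.div2_val]; omega)
    exact ⟨u.bodd :: l, by simp [h1], by rw [ofBits_cons, h2, Nat.bit_bodd_div2]⟩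

theorem ncard_eq_cnt (k : ℕ) (q : ℕ → Prop) :
    {y : List Bool | y.length = k ∧ q (ofBits y)}.ncard = cnt (2 ^ k) q := by
  classical
  rw [← Set.InjOn.ncard_image (f := ofBits)
    (fun l hl l' hl' e => ofBits_injOn l l' (hl.1.trans hl'.1.symm) e)]
  unfold cnt
  rw [← Set.ncard_coe_finset]
  congr 1
  ext u
  simp only [Set.mem_image, Set.mem_ofPred_eq, Finset.coe_filter, Finset.mem_range]
  constructor
  · rintro ⟨l, ⟨h1, h2⟩, rfl⟩
    exact ⟨h1 ▸ ofBits_lt l, h2⟩
  · rintro ⟨h1, h2⟩
    obtain ⟨l, h3, rfl⟩ := exists_ofBits k u h1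
    exact ⟨l, ⟨h3, h2⟩, rfl⟩

theorem exists_poly {N : List Bool → ℕ} (hN : PT N) :
    ∃ m : Polynomial ℕ, ∀ x, N x < 2 ^ m.eval x.length := by
  obtain ⟨c, k, h⟩ := PB.sz hN
  refine ⟨Polynomial.C c * (4 * Polynomial.X + 1) ^ k, fun x => (lt_two_pow_sz _).trans_le
    (Nat.pow_le_pow_right (by omega) ((h x).trans ?_))⟩
  simp only [Polynomial.eval_mul, Polynomial.eval_C, Polynomial.eval_pow, Polynomial.eval_add,
    Polynomial.eval_X, Polynomial.eval_one, Polynomial.eval_ofNat]
  exact Nat.mul_le_mul_left _ (Nat.pow_le_pow_left (sz_boolList_le x) _)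

theorem CHl_mem_level : ∀ (j : ℕ) (p : List Bool → Prop), CHl j (List Bool) p →
    {w | p w} ∈ level j := by
  intro j
  induction j with
  | zero => intro p h; exact PT.inP (L := {w | p w}) h
  | succ j ih =>
    intro p ⟨q, N, t, hq, hN, ht, h⟩
    obtain ⟨m, hm⟩ := exists_poly (hN.nat_add ht)
    let M : List Bool → ℕ := fun x => 2 ^ m.eval x.length
    have hM : PT M := by fun_prop
    let p' : List Bool × List Bool → Prop := fun z =>
      (ofBits z.2 < M z.1 ∧ ((ofBits z.2 < N z.1 ∧ q (z.1, ofBits z.2)) ∨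
        (¬ ofBits z.2 < N z.1 ∧ False))) ∨
      (¬ ofBits z.2 < M z.1 ∧ ofBits z.2 < M z.1 + (2 * M z.1 + 1 - t z.1))
    have hp' : CHl j _ p' :=
      CHl.cases (by fun_prop) (CHl.cases (by fun_prop)
        (hq.comp (f := fun z : List Bool × List Bool => (z.1, ofBits z.2)) (by fun_prop))
        (CHl.of_PT j (PT.const _))) (CHl.of_PT j (by fun_prop))
    refine ⟨_, ih _ (hp'.comp unpair_pt), m + 2, fun x => ?_⟩
    have e : {y : List Bool | y.length = (m + 2).eval x.length ∧
        pairBits x y ∈ {w | p' (unpair w)}}.ncard = cnt (2 ^ (m.eval x.length + 2))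
          (fun u => (u < M x ∧ (u < N x ∧ q (x, u))) ∨
            (¬ u < M x ∧ u < M x + (2 * M x + 1 - t x))) := by
      rw [← ncard_eq_cnt]
      congr 1
      ext y
      simp [p', unpair_pairBits]
    have h1 := hm x
    have h2 : 2 ^ (m.eval x.length + 2) = 4 * M x := by simp only [M]; ring
    have h3 : 1 ≤ M x := Nat.one_le_two_pow
    change N x + t x < M x at h1
    rw [e, h2, cnt_split _ _ _ (by omega), cnt_restrict (by omega)]
    simp only [Polynomial.eval_add, Polynomial.eval_ofNat, Set.mem_ofPred_eq]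
    rw [h2, h x]
    omega

end Crest.Agent.R316.CFAux
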