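import Crest.Agent.R316.ClsDef

/-!
# `Cls`: ring operations, exponentially long sums and products, renaming, substitution
-/

namespace Crest.Agent.R316

open Crest.Agent.Lib.PT MvPolynomial

attribute [fun_prop] Cls

variable {α β σ τ : Type} [Enc α] [Enc β] [Enc σ] [Enc τ]

section nrm

variable {σ τ : Type}

theorem nrm_eq_of_subset {P : MvPolynomial σ ℤ} {s : Finset (σ →₀ ℕ)} (h : P.support ⊆ s) :
    nrm P = ∑ m ∈ s, (P.coeff m).natAbs :=
  Finset.sum_subset h fun m _ hm => by rw [notMem_support_iff.1 hm, Int.natAbs_zero]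

theorem nrm_zero : nrm (0 : MvPolynomial σ ℤ) = 0 := by simp [nrm]

theorem nrm_add_le (P Q : MvPolynomial σ ℤ) : nrm (P + Q) ≤ nrm P + nrm Q := by
  classical
  rw [nrm_eq_of_subset (support_add (p := P) (q := Q)),
    nrm_eq_of_subset (P := P) (Finset.subset_union_left (s₂ := Q.support)),
    nrm_eq_of_subset (P := Q) (Finset.subset_union_right (s₁ := P.support)),
    ← Finset.sum_add_distrib]
  exact Finset.sum_le_sum fun m _ => by rw [coeff_add]; exact Int.natAbs_add_le _ _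

theorem nrm_sum_le {ι : Type*} (s : Finset ι) (F : ι → MvPolynomial σ ℤ) :
    nrm (∑ i ∈ s, F i) ≤ ∑ i ∈ s, nrm (F i) :=
  Finset.le_sum_of_subadditive nrm nrm_zero.le nrm_add_le s F

theorem nrm_monomial (m : σ →₀ ℕ) (c : ℤ) : nrm (monomial m c) = c.natAbs := by
  classical
  rw [nrm_eq_of_subset support_monomial_subset]
  simp

theorem nrm_C (c : ℤ) : nrm (C c : MvPolynomial σ ℤ) = c.natAbs := nrm_monomial 0 c

theorem nrm_one : nrm (1 : MvPolynomial σ ℤ) = 1 := nrm_C 1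

theorem nrm_X (i : σ) : nrm (X i : MvPolynomial σ ℤ) = 1 := nrm_monomial _ 1

theorem nrm_mul_le (P Q : MvPolynomial σ ℤ) : nrm (P * Q) ≤ nrm P * nrm Q := by
  conv_lhs => rw [P.as_sum, Q.as_sum, Finset.sum_mul_sum]
  unfold nrm
  rw [Finset.sum_mul_sum]
  refine (nrm_sum_le _ _).trans (Finset.sum_le_sum fun m _ => ?_)
  refine (nrm_sum_le _ _).trans (Finset.sum_le_sum fun n _ => ?_)
  rw [monomial_mul, nrm_monomial, Int.natAbs_mul]

theorem nrm_prod_le {ι : Type*} (s : Finset ι) (F : ι → MvPolynomial σ ℤ) :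
    nrm (∏ i ∈ s, F i) ≤ ∏ i ∈ s, nrm (F i) := by
  classical
  induction s using Finset.induction_on with
  | empty => simp [nrm_one]
  | insert i s hi ih =>
    rw [Finset.prod_insert hi, Finset.prod_insert hi]
    exact (nrm_mul_le _ _).trans (Nat.mul_le_mul_left _ ih)

theorem nrm_pow_le (P : MvPolynomial σ ℤ) (n : ℕ) : nrm (P ^ n) ≤ nrm P ^ n := by
  simpa using nrm_prod_le (Finset.range n) fun _ => P

theorem aeval_eq_sum {K : Type*} [CommRing K] [Algebra ℤ K] (z : σ → K) (P : MvPolynomial σ ℤ) :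
    aeval z P = ∑ m ∈ P.support, ((P.coeff m : ℤ) : K) * ∏ i ∈ m.support, z i ^ m i := by
  simp only [aeval_def, eval₂_eq, eq_intCast]

theorem nrm_aeval_le (s : σ → MvPolynomial τ ℤ) {M : ℕ} (hM : 1 ≤ M) (hs : ∀ i, nrm (s i) ≤ M)
    (R : MvPolynomial σ ℤ) : nrm (aeval s R) ≤ nrm R * M ^ R.totalDegree := by
  rw [aeval_eq_sum]
  refine (nrm_sum_le _ _).trans ?_
  conv_rhs => rw [nrm, Finset.sum_mul]
  refine Finset.sum_le_sum fun m hm => (nrm_mul_le _ _).trans (Nat.mul_le_mul (nrm_C _).le ?_)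
  refine (nrm_prod_le _ _).trans ?_
  refine le_trans (Finset.prod_le_prod' fun i _ =>
    (nrm_pow_le _ _).trans (Nat.pow_le_pow_left (hs i) _)) ?_
  rw [Finset.prod_pow_eq_pow_sum]
  exact Nat.pow_le_pow_right hM (le_totalDegree hm)

theorem totalDegree_aeval_le' (s : σ → MvPolynomial τ ℤ) {D : ℕ}
    (hs : ∀ i, (s i).totalDegree ≤ D) (R : MvPolynomial σ ℤ) :
    (aeval s R).totalDegree ≤ R.totalDegree * D := by
  rw [aeval_eq_sum]
  refine totalDegree_finsetSum_le fun m hm => (totalDegree_mul _ _).trans ?_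
  have h0 : (((R.coeff m : ℤ) : MvPolynomial τ ℤ)).totalDegree = 0 := totalDegree_C _
  rw [h0, zero_add]
  refine (totalDegree_finsetProd _ _).trans ?_
  refine le_trans (Finset.sum_le_sum fun i _ =>
    (totalDegree_pow _ _).trans (Nat.mul_le_mul_left _ (hs i))) ?_
  rw [← Finset.sum_mul]
  exact Nat.mul_le_mul_right _ (le_totalDegree hm)

theorem nrm_rename_le (r : σ → τ) (P : MvPolynomial σ ℤ) : nrm (rename r P) ≤ nrm P := by
  have := nrm_aeval_le (fun i => X (r i)) le_rfl (fun i => (nrm_X _).le) P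
  rw [one_pow, mul_one] at this
  rwa [rename_eq_aeval]

variable {p : ℕ} (x : σ → ℕ)

theorem ev_add (hp : p ≠ 0) (P Q : MvPolynomial σ ℤ) :
    ev p x (P + Q) = (ev p x P + ev p x Q) % p := by
  have : NeZero p := ⟨hp⟩
  simp only [ev, map_add, ZMod.val_add]

theorem ev_mul (P Q : MvPolynomial σ ℤ) : ev p x (P * Q) = ev p x P * ev p x Q % p := by
  simp only [ev, map_mul, ZMod.val_mul]

theorem ev_sum (hp : p ≠ 0) {ι : Type*} (s : Finset ι) (F : ι → MvPolynomial σ ℤ) :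
    ev p x (∑ i ∈ s, F i) = (∑ i ∈ s, ev p x (F i)) % p := by
  have : NeZero p := ⟨hp⟩
  rw [← ZMod.val_natCast]
  simp only [ev, map_sum, Nat.cast_sum, ZMod.natCast_zmod_val]

theorem ev_prod (hp : p ≠ 0) {ι : Type*} (s : Finset ι) (F : ι → MvPolynomial σ ℤ) :
    ev p x (∏ i ∈ s, F i) = (∏ i ∈ s, ev p x (F i)) % p := by
  have : NeZero p := ⟨hp⟩
  rw [← ZMod.val_natCast]
  simp only [ev, map_prod, Nat.cast_prod, ZMod.natCast_zmod_val]

theorem ev_C (hp : p ≠ 0) (z : ℤ) : ev p x (C z) = (z % p).toNat := by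
  have : NeZero p := ⟨hp⟩
  rw [← ZMod.val_intCast, Int.toNat_natCast]
  simp [ev]

theorem ev_X (i : σ) : ev p x (X i) = x i % p := by
  simp [ev]

theorem ev_rename (x : τ → ℕ) (r : σ → τ) (P : MvPolynomial σ ℤ) :
    ev p x (rename r P) = ev p (fun i => x (r i)) P := by
  simp only [ev, aeval_rename]; rfl

theorem ev_aeval (hp : p ≠ 0) (x : τ → ℕ) (s : σ → MvPolynomial τ ℤ) (R : MvPolynomial σ ℤ) :
    ev p x (aeval s R) = ev p (fun i => ev p x (s i)) R := by
  have : NeZero p := ⟨hp⟩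
  simp only [ev, ZMod.natCast_zmod_val]
  exact congrArg ZMod.val
    (map_aeval_int (aeval fun i => (x i : ZMod p) : MvPolynomial τ ℤ →ₐ[ℤ] _).toRingHom s R)

theorem ev_subst1 (hp : p ≠ 0) (Q : MvPolynomial σ ℤ) (R : MvPolynomial (Option σ) ℤ) :
    ev p x (aeval (fun o : Option σ => o.elim Q X) R) =
      ev p (fun o : Option σ => o.elim (ev p x Q) x) R := by
  rw [ev_aeval hp]
  unfold ev
  congr 3
  funext o
  cases o <;> simp

theorem two_pow_add_le (a b : ℕ) : 2 ^ a + 2 ^ b ≤ 2 ^ (a + b + 1) := by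
  have h1 : 2 ^ a ≤ 2 ^ (a + b) := Nat.pow_le_pow_right two_pos (by omega)
  have h2 : 2 ^ b ≤ 2 ^ (a + b) := Nat.pow_le_pow_right two_pos (by omega)
  omega

theorem two_pow_pow_mul_le (a b : ℕ) : 2 ^ 2 ^ a * 2 ^ 2 ^ b ≤ 2 ^ 2 ^ (a + b + 1) := by
  rw [← pow_add]
  exact Nat.pow_le_pow_right two_pos (two_pow_add_le a b)

theorem two_pow_mono {a b : ℕ} (h : a ≤ b) : 2 ^ a ≤ 2 ^ b := Nat.pow_le_pow_right two_pos h

end nrm

theorem PB_of_subtype {p : α → Prop} {b : Subtype p → ℕ} (hb : PB b) :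
    ∃ B : α → ℕ, PB B ∧ ∀ a, b a ≤ B a.1 := by
  obtain ⟨c, k, h⟩ := hb
  exact ⟨fun a => c * sz a ^ k, ⟨c, k, fun _ => le_rfl⟩, h⟩

/-- Separate bounds for the degree, the norm and the primes. -/
theorem Cls.mk' {P : α → MvPolynomial σ ℤ} {b₁ b₂ b₃ : α → ℕ} (h₁ : PB b₁) (h₂ : PB b₂)
    (h₃ : PB b₃) (hd : ∀ a, (P a).totalDegree ≤ 2 ^ b₁ a) (hn : ∀ a, nrm (P a) ≤ 2 ^ 2 ^ b₂ a)
    (he : ∀ (β : Type) [Enc β] (f : β → α) (p : β → ℕ) (x : β → σ → ℕ), CF f → CF p →
      (CF fun q : β × σ => x q.1 q.2) → (∀ e, (p e).Prime ∧ 2 ^ b₃ (f e) < p e) →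
      CF fun e => ev (p e) (x e) (P (f e))) : Cls P :=
  ⟨fun a => b₁ a + b₂ a + b₃ a, (h₁.add h₂).add h₃,
    fun a => (hd a).trans (two_pow_mono (by beta_reduce; omega)),
    fun a => (hn a).trans (two_pow_mono (two_pow_mono (by beta_reduce; omega))),
    fun β _ f p x hf hp hx h => he β f p x hf hp hx fun e =>
      ⟨(h e).1, (two_pow_mono (by beta_reduce; omega)).trans_lt (h e).2⟩⟩

/-- Values are bounded by the norm and the degree. -/
theorem norm_aeval_le {σ K : Type} [NormedField K] (z : σ → K) {M : ℝ} (hM : 1 ≤ M)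
    (hz : ∀ i, ‖z i‖ ≤ M) (P : MvPolynomial σ ℤ) :
    ‖aeval z P‖ ≤ nrm P * M ^ P.totalDegree := by
  rw [aeval_eq_sum, nrm, Nat.cast_sum, Finset.sum_mul]
  refine (norm_sum_le _ _).trans (Finset.sum_le_sum fun m hm => ?_)
  rw [norm_mul, norm_prod]
  refine mul_le_mul ?_ ?_ (Finset.prod_nonneg fun _ _ => norm_nonneg _) (Nat.cast_nonneg _)
  · have h : ∀ n : ℕ, ‖(n : K)‖ ≤ n := fun n => by simpa using Nat.norm_cast_le (α := K) n
    rcases Int.natAbs_eq (P.coeff m) with e | e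
    · rw [e, Int.cast_natCast, Int.natAbs_natCast]; exact h _
    · rw [e, Int.cast_neg, Int.cast_natCast, norm_neg, Int.natAbs_neg, Int.natAbs_natCast]
      exact h _
  · refine le_trans (Finset.prod_le_prod (fun _ _ => norm_nonneg _) fun i _ =>
      (norm_pow _ _).trans_le (pow_le_pow_left₀ (norm_nonneg _) (hz i) _)) ?_
    rw [Finset.prod_pow_eq_pow_sum]
    exact pow_le_pow_right₀ hM (le_totalDegree hm)

namespace Cls

variable {P Q : α → MvPolynomial σ ℤ}

theorem of_eq (hQ : Cls Q) (h : ∀ a, Q a = P a) : Cls P := by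
  rw [← funext h]; exact hQ

@[fun_prop] theorem comp (hP : Cls P) {g : β → α} (hg : CF g) : Cls fun b => P (g b) := by
  obtain ⟨b, hb, hd, hn, he⟩ := hP
  exact ⟨fun a => b (g a), PB_compCF hb hg, fun a => hd _, fun a => hn _,
    fun γ _ f p x hf hp hx h => he γ (fun e => g (f e)) p x (hg.comp hf) hp hx h⟩

theorem restrict (hP : Cls P) (p : α → Prop) : Cls fun a : {a // p a} => P a.1 :=
  hP.comp CF.id.val

theorem comp_eq {H : β → MvPolynomial σ ℤ} (hP : Cls P) (g : β → α) (hg : CF g)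
    (e : ∀ b, P (g b) = H b := by intros; rfl) : Cls H := (hP.comp hg).of_eq e

/-- A `CF` bound for the degree. -/
theorem deg_bound (hP : Cls P) : ∃ D : α → ℕ, CF D ∧ ∀ a, (P a).totalDegree ≤ D a := by
  obtain ⟨b, hb, hd, -⟩ := hP
  obtain ⟨B, h1, h2, h3⟩ := PB_exists_pt hb
  exact ⟨fun a => 2 ^ B a, (CF.const 2).nat_pow (PT_cf h1) h2,
    fun a => (hd a).trans (two_pow_mono (h3 a))⟩

/-- Values at points of doubly exponential size have doubly exponential size. -/
theorem bound (hP : Cls P) {c : α → ℕ} (hc : PB c) : ∃ b : α → ℕ, PB b ∧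
    ∀ (K : Type) [NormedField K] (a : α) (z : σ → K), (∀ i, ‖z i‖ ≤ 2 ^ 2 ^ c a) →
      ‖aeval z (P a)‖ ≤ 2 ^ 2 ^ b a := by
  obtain ⟨b, hb, hd, hn, -⟩ := hP
  refine ⟨fun a => b a + (c a + b a) + 1, by fun_prop, fun K _ a z hz => ?_⟩
  refine (norm_aeval_le z (one_le_pow₀ one_le_two) hz _).trans ?_
  have h1 : nrm (P a) * (2 ^ 2 ^ c a) ^ (P a).totalDegree ≤ 2 ^ 2 ^ (b a + (c a + b a) + 1) := by
    refine le_trans (Nat.mul_le_mul (hn a) ?_) (two_pow_pow_mul_le _ _)
    rw [pow_add, pow_mul]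
    exact Nat.pow_le_pow_right (by positivity) (hd a)
  exact_mod_cast h1

@[fun_prop] theorem C {z : α → ℤ} (hz : CF z) :
    Cls fun a => (MvPolynomial.C (z a) : MvPolynomial σ ℤ) := by
  refine ⟨fun a => sz (z a), hz.pb_sz, fun a => (totalDegree_C _).trans_le (Nat.zero_le _),
    fun a => ?_,
    fun γ _ f p x hf hp hx h => ?_⟩
  · rw [nrm_C]
    exact (natAbs_lt_two_pow_sz _).le.trans (two_pow_mono Nat.lt_two_pow_self.le)
  · exact ((hz.comp hf).int_emod hp.int_natCast).int_toNat.of_eq fun e =>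
      (ev_C _ (h e).1.ne_zero _).symm

@[fun_prop] theorem intCast {z : α → ℤ} (hz : CF z) :
    Cls fun a => ((z a : ℤ) : MvPolynomial σ ℤ) := (C hz).of_eq fun a => by simp

@[fun_prop] theorem natCast {n : α → ℕ} (hn : CF n) :
    Cls fun a => ((n a : ℕ) : MvPolynomial σ ℤ) := (C hn.int_natCast).of_eq fun a => by simp

@[fun_prop] theorem X {i : α → σ} (hi : CF i) :
    Cls fun a => (MvPolynomial.X (i a) : MvPolynomial σ ℤ) := by
  refine ⟨fun _ => 0, PB.const 0, fun a => by simp, fun a => by simp [nrm_X],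
    fun γ _ f p x hf hp hx h => ?_⟩
  exact ((hx.comp (CF.id.pair (hi.comp hf))).nat_mod hp).of_eq fun e => (ev_X _ _).symm

@[fun_prop] theorem add (hP : Cls P) (hQ : Cls Q) : Cls fun a => P a + Q a := by
  obtain ⟨b, hb, hd, hn, he⟩ := hP
  obtain ⟨b', hb', hd', hn', he'⟩ := hQ
  refine ⟨fun a => b a + b' a + 1, by fun_prop, fun a => ?_, fun a => ?_,
    fun γ _ f p x hf hp hx h => ?_⟩
  · exact (totalDegree_add _ _).trans (max_le ((hd a).trans (two_pow_mono (by beta_reduce; omega)))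
      ((hd' a).trans (two_pow_mono (by beta_reduce; omega))))
  · refine (nrm_add_le _ _).trans ((add_le_add (hn a) (hn' a)).trans ?_)
    exact (Nat.add_le_mul (two_pow_mono (a := 1) Nat.one_le_two_pow)
      (two_pow_mono (a := 1) Nat.one_le_two_pow)).trans (two_pow_pow_mul_le _ _)
  · exact (((he γ f p x hf hp hx fun e =>
      ⟨(h e).1, (two_pow_mono (by beta_reduce; omega)).trans_lt (h e).2⟩).nat_add
      (he' γ f p x hf hp hx fun e =>
        ⟨(h e).1, (two_pow_mono (by beta_reduce; omega)).trans_lt (h e).2⟩)).nat_mod hp).of_eq fun e =>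
      (ev_add _ (h e).1.ne_zero _ _).symm

@[fun_prop] theorem mul (hP : Cls P) (hQ : Cls Q) : Cls fun a => P a * Q a := by
  obtain ⟨b, hb, hd, hn, he⟩ := hP
  obtain ⟨b', hb', hd', hn', he'⟩ := hQ
  refine ⟨fun a => b a + b' a + 1, by fun_prop, fun a => ?_, fun a => ?_,
    fun γ _ f p x hf hp hx h => ?_⟩
  · exact (totalDegree_mul _ _).trans ((add_le_add (hd a) (hd' a)).trans (two_pow_add_le _ _))
  · exact (nrm_mul_le _ _).trans ((Nat.mul_le_mul (hn a) (hn' a)).trans (two_pow_pow_mul_le _ _))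
  · exact (((he γ f p x hf hp hx fun e =>
      ⟨(h e).1, (two_pow_mono (by beta_reduce; omega)).trans_lt (h e).2⟩).nat_mul
      (he' γ f p x hf hp hx fun e =>
        ⟨(h e).1, (two_pow_mono (by beta_reduce; omega)).trans_lt (h e).2⟩)).nat_mod hp).of_eq fun e =>
      (ev_mul _ _ _).symm

@[fun_prop] theorem const (R : MvPolynomial σ ℤ) : Cls fun _ : α => R := by
  induction R using MvPolynomial.induction_on with
  | C a => exact C (CF.const a)
  | add p q hp hq => exact hp.add hq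
  | mul_X p i hp => exact hp.mul (X (CF.const i))

@[fun_prop] theorem neg (hP : Cls P) : Cls fun a => - P a :=
  ((const (-1)).mul hP).of_eq fun a => by simp

@[fun_prop] theorem sub (hP : Cls P) (hQ : Cls Q) : Cls fun a => P a - Q a :=
  (hP.add hQ.neg).of_eq fun a => by rw [sub_eq_add_neg]

theorem sum' {N : α → ℕ} {F : α → ℕ → MvPolynomial σ ℤ} (hN : CF N)
    (hF : Cls fun x : {x : α × ℕ // x.2 < N x.1} => F x.1.1 x.1.2) :
    Cls fun a => ∑ y ∈ Finset.range (N a), F a y := by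
  obtain ⟨b, hb, hd, hn, he⟩ := hF
  obtain ⟨B, -, hB, hbB⟩ := PB_sup' hN hb
  obtain ⟨L, -, hL, hNL⟩ := hN.lt_two_pow
  refine mk' hB ((hL.add hB).add (PB.const 1)) hB (fun a => ?_) (fun a => ?_)
    fun γ _ f p x hf hp hx h => ?_
  · exact totalDegree_finsetSum_le fun y hy =>
      (hd ⟨(a, y), Finset.mem_range.1 hy⟩).trans (two_pow_mono (hbB _ _ _))
  · refine (nrm_sum_le _ _).trans ((Finset.sum_le_card_nsmul _ _ (2 ^ 2 ^ B a) fun y hy =>
      (hn ⟨(a, y), Finset.mem_range.1 hy⟩).trans (two_pow_mono (two_pow_mono (hbB _ _ _)))).trans ?_)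
    rw [Finset.card_range, smul_eq_mul]
    exact (Nat.mul_le_mul_right _ ((hNL a).le.trans
      (two_pow_mono Nat.lt_two_pow_self.le))).trans (two_pow_pow_mul_le _ _)
  · have h1 := he {q : γ × ℕ // q.2 < N (f q.1)} (fun q => ⟨(f q.1.1, q.1.2), q.2⟩)
      (fun q => p q.1.1) (fun q => x q.1.1)
      (((hf.comp CF.id.val.fst).pair CF.id.val.snd).subtype_mk _) (hp.comp CF.id.val.fst)
      (hx.comp (CF.id.fst.val.fst.pair CF.id.snd))
      fun q => ⟨(h _).1, (two_pow_mono (hbB _ _ _)).trans_lt (h _).2⟩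
    exact ((CF.sum_range' (f := fun e y => ev (p e) (x e) (F (f e) y)) (hN.comp hf) h1).nat_mod
      hp).of_eq fun e => (ev_sum _ (h e).1.ne_zero _ _).symm

theorem prod' {N : α → ℕ} {F : α → ℕ → MvPolynomial σ ℤ} (hN : CF N)
    (hF : Cls fun x : {x : α × ℕ // x.2 < N x.1} => F x.1.1 x.1.2) :
    Cls fun a => ∏ y ∈ Finset.range (N a), F a y := by
  obtain ⟨b, hb, hd, hn, he⟩ := hF
  obtain ⟨B, -, hB, hbB⟩ := PB_sup' hN hb
  obtain ⟨L, -, hL, hNL⟩ := hN.lt_two_pow
  refine mk' (hL.add hB) (hB.add hL) hB (fun a => ?_) (fun a => ?_)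
    fun γ _ f p x hf hp hx h => ?_
  · refine (totalDegree_finsetProd _ _).trans ((Finset.sum_le_card_nsmul _ _ (2 ^ B a) fun y hy =>
      (hd ⟨(a, y), Finset.mem_range.1 hy⟩).trans (two_pow_mono (hbB _ _ _))).trans ?_)
    rw [Finset.card_range, smul_eq_mul, pow_add]
    exact Nat.mul_le_mul_right _ (hNL a).le
  · refine (nrm_prod_le _ _).trans ((Finset.prod_le_pow_card _ _ (2 ^ 2 ^ B a) fun y hy =>
      (hn ⟨(a, y), Finset.mem_range.1 hy⟩).trans (two_pow_mono (two_pow_mono (hbB _ _ _)))).trans ?_)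
    rw [Finset.card_range, pow_add, pow_mul]
    exact Nat.pow_le_pow_right (by positivity) (hNL a).le
  · have h1 := he {q : γ × ℕ // q.2 < N (f q.1)} (fun q => ⟨(f q.1.1, q.1.2), q.2⟩)
      (fun q => p q.1.1) (fun q => x q.1.1)
      (((hf.comp CF.id.val.fst).pair CF.id.val.snd).subtype_mk _) (hp.comp CF.id.val.fst)
      (hx.comp (CF.id.fst.val.fst.pair CF.id.snd))
      fun q => ⟨(h _).1, (two_pow_mono (hbB _ _ _)).trans_lt (h _).2⟩
    exact (CF.prodMod' (f := fun e y => ev (p e) (x e) (F (f e) y)) (hN.comp hf) hp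
      (fun e => (h e).1) h1).of_eq fun e => (ev_prod _ (h e).1.ne_zero _ _).symm

@[fun_prop] theorem sum {N : α → ℕ} {F : α → ℕ → MvPolynomial σ ℤ} (hN : CF N)
    (hF : Cls fun x : α × ℕ => F x.1 x.2) : Cls fun a => ∑ y ∈ Finset.range (N a), F a y :=
  sum' hN (hF.restrict _)

@[fun_prop] theorem prod {N : α → ℕ} {F : α → ℕ → MvPolynomial σ ℤ} (hN : CF N)
    (hF : Cls fun x : α × ℕ => F x.1 x.2) : Cls fun a => ∏ y ∈ Finset.range (N a), F a y :=
  prod' hN (hF.restrict _)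

@[fun_prop] theorem pow (hP : Cls P) {n : α → ℕ} (hn : CF n) : Cls fun a => P a ^ n a :=
  (prod (F := fun a _ => P a) hn (hP.comp CF.id.fst)).of_eq fun a => by simp

/-- Case distinction; the branches need only be uniform on their own part. -/
theorem by_cases {p : α → Prop} (hp : CF p) (h₁ : Cls fun a : {a // p a} => P a.1)
    (h₂ : Cls fun a : {a // ¬ p a} => P a.1) : Cls P := by
  obtain ⟨b, hb, hd, hn, he⟩ := h₁
  obtain ⟨b', hb', hd', hn', he'⟩ := h₂
  obtain ⟨B, hB, hbB⟩ := PB_of_subtype hb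
  obtain ⟨B', hB', hbB'⟩ := PB_of_subtype hb'
  have k : ∀ a, b a ≤ B a.1 + B' a.1 := fun a => (hbB a).trans (Nat.le_add_right _ _)
  have k' : ∀ a, b' a ≤ B a.1 + B' a.1 := fun a => (hbB' a).trans (Nat.le_add_left _ _)
  refine ⟨fun a => B a + B' a, hB.add hB', fun a => ?_, fun a => ?_,
    fun γ _ f q x hf hq hx h => CF.by_cases (hp.comp hf) ?_ ?_⟩
  · by_cases ha : p a
    · exact (hd ⟨a, ha⟩).trans (two_pow_mono (k _))
    · exact (hd' ⟨a, ha⟩).trans (two_pow_mono (k' _))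
  · by_cases ha : p a
    · exact (hn ⟨a, ha⟩).trans (two_pow_mono (two_pow_mono (k _)))
    · exact (hn' ⟨a, ha⟩).trans (two_pow_mono (two_pow_mono (k' _)))
  · exact he {e // p (f e)} (fun e => ⟨f e.1, e.2⟩) (fun e => q e.1) (fun e => x e.1)
      ((hf.restrict _).subtype_mk _) (hq.restrict _) (hx.comp (CF.id.fst.val.pair CF.id.snd))
      fun e => ⟨(h _).1, (two_pow_mono (k _)).trans_lt (h _).2⟩
  · exact he' {e // ¬ p (f e)} (fun e => ⟨f e.1, e.2⟩) (fun e => q e.1) (fun e => x e.1)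
      ((hf.restrict _).subtype_mk _) (hq.restrict _) (hx.comp (CF.id.fst.val.pair CF.id.snd))
      fun e => ⟨(h _).1, (two_pow_mono (k' _)).trans_lt (h _).2⟩

@[fun_prop] theorem ite {p : α → Prop} [DecidablePred p] (hp : CF p) (hP : Cls P) (hQ : Cls Q) :
    Cls fun a => ite (p a) (P a) (Q a) :=
  by_cases hp ((hP.restrict _).of_eq fun a => by rw [if_pos a.2])
    ((hQ.restrict _).of_eq fun a => by rw [if_neg a.2])

/-- `Cls.ite` with the decidability instance found by unification. -/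
theorem ite' {p : α → Prop} {_ : DecidablePred p} (hp : CF p) (hP : Cls P) (hQ : Cls Q) :
    Cls fun a => _root_.ite (p a) (P a) (Q a) := ite hp hP hQ

theorem rename' (hP : Cls P) {r : α → σ → τ} (hr : CF fun q : α × σ => r q.1 q.2) :
    Cls fun a => MvPolynomial.rename (r a) (P a) := by
  obtain ⟨b, hb, hd, hn, he⟩ := hP
  refine ⟨b, hb, fun a => (totalDegree_rename_le _ _).trans (hd a),
    fun a => (nrm_rename_le _ _).trans (hn a), fun γ _ f p x hf hp hx h => ?_⟩
  exact (he γ f p (fun e i => x e (r (f e) i)) hf hp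
    (hx.comp (CF.id.fst.pair (hr.comp ((hf.comp CF.id.fst).pair CF.id.snd)))) h).of_eq
    fun e => (ev_rename _ _ _).symm

@[fun_prop] theorem rename (hP : Cls P) {r : σ → τ} (hr : CF r) :
    Cls fun a => MvPolynomial.rename r (P a) :=
  rename' (r := fun _ => r) hP (hr.comp CF.id.snd)

/-- Substitution for the variable `none`. -/
theorem subst1 {R : α → MvPolynomial (Option σ) ℤ} (hR : Cls R) (hQ : Cls Q) :
    Cls fun a => aeval (fun o : Option σ => o.elim (Q a) MvPolynomial.X) (R a) := by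
  obtain ⟨b, hb, hd, hn, he⟩ := hR
  obtain ⟨b', hb', hd', hn', he'⟩ := hQ
  refine mk' (hb.add hb') ((hb.add (hb'.add hb)).add (PB.const 1)) (hb.add hb')
    (fun a => ?_) (fun a => ?_) fun γ _ f p x hf hp hx h => ?_
  · refine (totalDegree_aeval_le' _ (D := 2 ^ b' a) (fun o => ?_) _).trans ?_
    · cases o with
      | none => exact hd' a
      | some i => exact (totalDegree_X i).le.trans Nat.one_le_two_pow
    · rw [pow_add]; exact Nat.mul_le_mul_right _ (hd a)
  · refine (nrm_aeval_le _ (M := 2 ^ 2 ^ b' a) Nat.one_le_two_pow (fun o => ?_) _).trans ?_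
    · cases o with
      | none => exact hn' a
      | some i => exact (nrm_X i).le.trans Nat.one_le_two_pow
    · refine le_trans (Nat.mul_le_mul (hn a) ?_) (two_pow_pow_mul_le _ _)
      rw [pow_add, pow_mul]
      exact Nat.pow_le_pow_right (by positivity) (hd a)
  · have h1 := he' γ f p x hf hp hx fun e =>
      ⟨(h e).1, (two_pow_mono (Nat.le_add_left _ _)).trans_lt (h e).2⟩
    exact (he γ f p (fun e o => o.elim (ev (p e) (x e) (Q (f e))) (x e)) hf hp
      (CF.option_elim (g := fun (q : γ × Option σ) i => x q.1 i) CF.id.snd (h1.comp CF.id.fst)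
        (hx.comp (CF.id.fst.fst.pair CF.id.snd)))
      fun e => ⟨(h e).1, (two_pow_mono (Nat.le_add_right _ _)).trans_lt (h e).2⟩).of_eq
      fun e => (ev_subst1 _ (h e).1.ne_zero _ _).symm

end Cls

example {P : α × ℕ → MvPolynomial σ ℤ} {Q : α → MvPolynomial (Option σ) ℤ} {N : α → ℕ}
    (hP : Cls P) (hQ : Cls Q) (hN : CF N) :
    Cls fun a => ∑ y ∈ Finset.range (N a + 1), (rename some (P (a, y + 2)) * X none ^ y -
      ∏ k ∈ Finset.range y, if k = N a then 1 else (Q a + (k : MvPolynomial (Option σ) ℤ))) := by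
  have : CF (some : σ → Option σ) := CF.id.some
  fun_prop

end Crest.Agent.R316
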