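import Crest.Agent.R316.Cls

/-!
# `Cls`: coefficients (interpolation over prime fields), derivatives, determinants
-/

namespace Crest.Agent.R316

open Crest.Agent.Lib.PT MvPolynomial

variable {α β σ τ : Type} [Enc α] [Enc β] [Enc σ] [Enc τ]

/-! ### Boxes and digits -/

theorem dig_finFunctionFinEquiv {n K : ℕ} (f : Fin n → Fin K) (i : Fin n) :
    dig K (finFunctionFinEquiv f) i = f i := by
  have := finFunctionFinEquiv_symm_apply_val (finFunctionFinEquiv f) i
  rw [Equiv.symm_apply_apply] at this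
  exact this.symm

theorem sum_dig_eq_sum_fun {A : Type} [AddCommMonoid A] (n K : ℕ) (F : (Fin n → ℕ) → A) :
    ∑ c ∈ Finset.range (K ^ n), F (fun i => dig K c i) =
      ∑ f : Fin n → Fin K, F fun i => f i := by
  rw [Finset.sum_range (fun c => F fun i => dig K c i), ← finFunctionFinEquiv.sum_comp]
  simp only [dig_finFunctionFinEquiv]

theorem sum_box {A : Type} [AddCommMonoid A] (n K : ℕ) (F : (Fin n → ℕ) → A) :
    ∑ κ ∈ Fintype.piFinset (fun _ : Fin n => Finset.range K), F κ =
      ∑ c ∈ Finset.range (K ^ n), F fun i => dig K c i := by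
  rw [sum_dig_eq_sum_fun]
  symm
  refine Finset.sum_bij (fun f _ => fun i => (f i : ℕ)) (fun f _ => ?_) (fun f _ g _ h => ?_)
    (fun κ hκ => ?_) (fun _ _ => rfl)
  · simp
  · funext i
    exact Fin.ext (congrFun h i)
  · simp only [Fintype.mem_piFinset, Finset.mem_range] at hκ
    exact ⟨fun i => ⟨κ i, hκ i⟩, Finset.mem_univ _, rfl⟩

theorem exists_dig (n K : ℕ) (κ : ℕ → ℕ) (h : ∀ i < n, κ i < K) :
    ∃ c < K ^ n, ∀ i < n, dig K c i = κ i := by
  refine ⟨finFunctionFinEquiv (fun i : Fin n => (⟨κ i, h i i.2⟩ : Fin K)), Fin.is_lt _,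
    fun i hi => ?_⟩
  exact dig_finFunctionFinEquiv (fun i : Fin n => (⟨κ i, h i i.2⟩ : Fin K)) ⟨i, hi⟩

/-! ### Degrees and derivatives under specialisation -/

section spec

variable {σ K : Type} [CommRing K]

namespace Cls2

theorem totalDegree_aeval_le {τ : Type} (g : σ → MvPolynomial τ K)
    (hg : ∀ i, (g i).totalDegree ≤ 1) (P : MvPolynomial σ ℤ) :
    (aeval g P).totalDegree ≤ P.totalDegree := by
  rw [aeval_def, eval₂_eq]
  refine totalDegree_finsetSum_le fun m hm => ?_
  refine (totalDegree_mul _ _).trans ?_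
  have h1 : (algebraMap ℤ (MvPolynomial τ K) (coeff m P)).totalDegree = 0 := by
    have : algebraMap ℤ (MvPolynomial τ K) (coeff m P) = C ((coeff m P : ℤ) : K) := by simp
    rw [this, totalDegree_C]
  rw [h1, zero_add]
  refine (totalDegree_finsetProd _ _).trans ?_
  refine le_trans ?_ (le_totalDegree hm)
  refine Finset.sum_le_sum fun i _ => (totalDegree_pow _ _).trans ?_
  simpa using Nat.mul_le_mul_left (m i) (hg i)

/-- The renaming that turns `up` into `upn 1`. -/
def toSum (o : Option σ) : σ ⊕ ℕ := o.elim (Sum.inr 0) Sum.inl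

theorem upn_one_rename (z : σ → K) (P : MvPolynomial (Option σ) ℤ) :
    upn 1 z (rename toSum P) = Polynomial.toMvPolynomial (0 : Fin 1) (up z P) := by
  have := map_aeval_int (Polynomial.toMvPolynomial (R := K) (0 : Fin 1)).toRingHom
    (fun o : Option σ => o.elim Polynomial.X fun i => Polynomial.C (z i)) P
  refine Eq.trans ?_ this.symm
  rw [upn, aeval_rename]
  congr 2
  funext o
  cases o with
  | none => simp [toSum, extn]
  | some i => simp [toSum]

theorem coeff_toMvPolynomial (k : ℕ) (q : Polynomial K) :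
    coeff (expo 1 fun _ => k) (Polynomial.toMvPolynomial (0 : Fin 1) q) = q.coeff k := by
  induction q using Polynomial.induction_on' with
  | add p q hp hq => simp [hp, hq]
  | monomial j a =>
    rw [← Polynomial.C_mul_X_pow_eq_monomial, map_mul, map_pow, Polynomial.toMvPolynomial_C,
      Polynomial.toMvPolynomial_X, coeff_C_mul, Polynomial.coeff_C_mul, coeff_X_pow,
      Polynomial.coeff_X_pow]
    congr 1
    refine if_congr ⟨fun h => ?_, fun h => ?_⟩ rfl rfl
    · simpa using (DFunLike.congr_fun h 0).symm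
    · refine Finsupp.ext fun i => ?_
      rw [Subsingleton.elim i 0]
      simp [h]

theorem cf1_eq_cfn (k : ℕ) (P : MvPolynomial (Option σ) ℤ) :
    cf1 k P = cfn 1 (fun _ => k) (rename toSum P) := by
  rw [cfn, upn_one_rename, coeff_toMvPolynomial, cf1]

theorem upn_monomial_one (n : ℕ) (s : σ ⊕ ℕ →₀ ℕ) :
    upn n (fun i => (X i : MvPolynomial σ ℤ)) (monomial s 1) = 0 ∨
      ∃ (e : Fin n →₀ ℕ) (m : σ →₀ ℕ), m.degree ≤ s.degree ∧
        upn n (fun i => (X i : MvPolynomial σ ℤ)) (monomial s 1) = monomial e (monomial m 1) := by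
  induction s using Finsupp.induction_linear with
  | zero => exact Or.inr ⟨0, 0, le_rfl, by simp⟩
  | add s t hs ht =>
    have h : (monomial (s + t) 1 : MvPolynomial (σ ⊕ ℕ) ℤ) = monomial s 1 * monomial t 1 := by
      rw [monomial_mul, one_mul]
    rw [h, map_mul]
    rcases hs with hs | ⟨e, m, hm, hs⟩
    · exact Or.inl (by rw [hs, zero_mul])
    rcases ht with ht | ⟨e', m', hm', ht⟩
    · exact Or.inl (by rw [ht, mul_zero])
    refine Or.inr ⟨e + e', m + m', ?_, ?_⟩
    · rw [map_add, map_add]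
      exact Nat.add_le_add hm hm'
    · rw [hs, ht, monomial_mul, monomial_mul, one_mul]
  | single o k =>
    rw [← X_pow_eq_monomial, map_pow]
    cases o with
    | inl i =>
      refine Or.inr ⟨0, Finsupp.single i k, by simp, ?_⟩
      rw [upn_X_inl, ← map_pow, X_pow_eq_monomial, monomial_zero']
    | inr j =>
      by_cases hj : j < n
      · refine Or.inr ⟨Finsupp.single ⟨j, hj⟩ k, 0, by simp, ?_⟩
        have := upn_X_inr n (fun i => (X i : MvPolynomial σ ℤ)) ⟨j, hj⟩
        rw [this, X_pow_eq_monomial]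
        simp
      · have : upn n (fun i => (X i : MvPolynomial σ ℤ)) (X (Sum.inr j)) = 0 := by
          simp [upn, extn_of_le _ (not_lt.1 hj)]
        rw [this]
        rcases Nat.eq_zero_or_pos k with rfl | hk
        · exact Or.inr ⟨0, 0, by simp, by simp⟩
        · exact Or.inl (zero_pow hk.ne')

theorem cfn_monomial (n : ℕ) (μ : ℕ → ℕ) (s : σ ⊕ ℕ →₀ ℕ) (c : ℤ) :
    cfn n μ (monomial s c) = 0 ∨
      ∃ m : σ →₀ ℕ, m.degree ≤ s.degree ∧ cfn n μ (monomial s c) = monomial m c := by
  classical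
  have h : (monomial s c : MvPolynomial (σ ⊕ ℕ) ℤ) = c • monomial s 1 := by
    rw [smul_monomial, smul_eq_mul, mul_one]
  rw [h, cfn, map_zsmul, coeff_smul]
  rcases upn_monomial_one n s with hs | ⟨e, m, hm, hs⟩
  · exact Or.inl (by rw [hs, coeff_zero, smul_zero])
  · rw [hs, coeff_monomial]
    split_ifs
    · exact Or.inr ⟨m, hm, by rw [smul_monomial, smul_eq_mul, mul_one]⟩
    · exact Or.inl (smul_zero _)

theorem cfn_eq_sum (n : ℕ) (μ : ℕ → ℕ) (P : MvPolynomial (σ ⊕ ℕ) ℤ) :
    cfn n μ P = ∑ s ∈ P.support, cfn n μ (monomial s (coeff s P)) := by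
  conv_lhs => rw [P.as_sum]
  simp only [cfn, map_sum, coeff_sum]

theorem nrm_eq_sum {P : MvPolynomial σ ℤ} {S : Finset (σ →₀ ℕ)} (h : P.support ⊆ S) :
    nrm P = ∑ m ∈ S, (P.coeff m).natAbs := by
  refine Finset.sum_subset h fun m _ hm => ?_
  rw [notMem_support_iff.1 hm, Int.natAbs_zero]

theorem nrm_add_le (P Q : MvPolynomial σ ℤ) : nrm (P + Q) ≤ nrm P + nrm Q := by
  classical
  rw [nrm_eq_sum (S := P.support ∪ Q.support) support_add,
    nrm_eq_sum (P := P) (S := P.support ∪ Q.support) Finset.subset_union_left,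
    nrm_eq_sum (P := Q) (S := P.support ∪ Q.support) Finset.subset_union_right,
    ← Finset.sum_add_distrib]
  refine Finset.sum_le_sum fun m _ => ?_
  rw [coeff_add]
  exact Int.natAbs_add_le _ _

theorem nrm_sum_le {ι : Type} (S : Finset ι) (F : ι → MvPolynomial σ ℤ) :
    nrm (∑ i ∈ S, F i) ≤ ∑ i ∈ S, nrm (F i) :=
  Finset.le_sum_of_subadditive nrm (by simp [nrm]) nrm_add_le S F

theorem nrm_monomial (m : σ →₀ ℕ) (c : ℤ) : nrm (monomial m c) = c.natAbs := by
  classical
  rw [nrm_eq_sum (S := {m}) support_monomial_subset]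
  simp

theorem nrm_cfn_le (n : ℕ) (μ : ℕ → ℕ) (P : MvPolynomial (σ ⊕ ℕ) ℤ) :
    nrm (cfn n μ P) ≤ nrm P := by
  rw [cfn_eq_sum]
  refine (nrm_sum_le _ _).trans (Finset.sum_le_sum fun s _ => ?_)
  rcases cfn_monomial n μ s (coeff s P) with h | ⟨m, -, h⟩
  · rw [h]; simp [nrm]
  · rw [h, nrm_monomial]

theorem totalDegree_cfn_le' (n : ℕ) (μ : ℕ → ℕ) (P : MvPolynomial (σ ⊕ ℕ) ℤ) :
    (cfn n μ P).totalDegree ≤ P.totalDegree := by
  rw [cfn_eq_sum]
  refine totalDegree_finsetSum_le fun s hs => ?_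
  rcases cfn_monomial n μ s (coeff s P) with h | ⟨m, hm, h⟩
  · rw [h]; simp
  · rw [h]
    exact (totalDegree_monomial_le _ _).trans (hm.trans (le_totalDegree hs))

end Cls2

theorem natDegree_up_le (z : σ → K) (P : MvPolynomial (Option σ) ℤ) :
    (up z P).natDegree ≤ P.totalDegree := by
  rw [up, aeval_def, eval₂_eq]
  refine Polynomial.natDegree_sum_le_of_forall_le _ _ fun m hm => ?_
  refine Polynomial.natDegree_mul_le.trans ?_
  have h1 : (algebraMap ℤ (Polynomial K) (coeff m P)).natDegree = 0 := by simp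
  rw [h1, zero_add]
  refine (Polynomial.natDegree_prod_le _ _).trans ?_
  refine le_trans ?_ (le_totalDegree hm)
  refine Finset.sum_le_sum fun o _ => Polynomial.natDegree_pow_le.trans ?_
  have : (o.elim Polynomial.X fun i => Polynomial.C (z i)).natDegree ≤ 1 := by
    cases o with
    | none => exact Polynomial.natDegree_X_le
    | some i => simp
  simpa using Nat.mul_le_mul_left (m o) this

theorem totalDegree_upn_le (n : ℕ) (z : σ → K) (P : MvPolynomial (σ ⊕ ℕ) ℤ) :
    (upn n z P).totalDegree ≤ P.totalDegree := by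
  refine Cls2.totalDegree_aeval_le _ (fun o => ?_) P
  cases o with
  | inl i => simp
  | inr j =>
    simp only [Sum.elim_inr, extn]
    split_ifs
    · exact (totalDegree_monomial_le _ _).trans (by simp)
    · simp

theorem cf1_eq_zero {P : MvPolynomial (Option σ) ℤ} {k : ℕ} (h : P.totalDegree < k) :
    cf1 k P = 0 :=
  Polynomial.coeff_eq_zero_of_natDegree_lt ((natDegree_up_le _ P).trans_lt h)

theorem totalDegree_cf1_le (k : ℕ) (P : MvPolynomial (Option σ) ℤ) :
    (cf1 k P).totalDegree ≤ P.totalDegree := by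
  rw [Cls2.cf1_eq_cfn]
  exact (Cls2.totalDegree_cfn_le' _ _ _).trans (totalDegree_rename_le _ _)

theorem totalDegree_cfn_le (n : ℕ) (μ : ℕ → ℕ) (P : MvPolynomial (σ ⊕ ℕ) ℤ) :
    (cfn n μ P).totalDegree ≤ P.totalDegree := by
  exact Cls2.totalDegree_cfn_le' n μ P

theorem up_pderiv (z : σ → K) (P : MvPolynomial (Option σ) ℤ) :
    up z (pderiv none P) = Polynomial.derivative (up z P) := by
  induction P using MvPolynomial.induction_on with
  | C a => simp [up]
  | add p q hp hq => simp only [map_add, hp, hq]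
  | mul_X p o hp =>
    rw [pderiv_mul, map_add, map_mul, map_mul, map_mul, Polynomial.derivative_mul, hp]
    congr 2
    cases o with
    | none => simp
    | some i => rw [pderiv_X_of_ne (by simp)]; simp

theorem upn_pderiv (n : ℕ) (z : σ → K) (j : Fin n) (P : MvPolynomial (σ ⊕ ℕ) ℤ) :
    upn n z (pderiv (Sum.inr (j : ℕ)) P) = pderiv j (upn n z P) := by
  induction P using MvPolynomial.induction_on with
  | C a =>
    have : upn n z (C a) = C (a : K) := by simp [upn]
    rw [pderiv_C, map_zero, this, pderiv_C]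
  | add p q hp hq => simp only [map_add, hp, hq]
  | mul_X p o hp =>
    rw [pderiv_mul, map_add, map_mul, map_mul, map_mul, pderiv_mul, hp]
    congr 2
    cases o with
    | inl i => rw [pderiv_X_of_ne (by simp)]; simp
    | inr k =>
      by_cases hk : k < n
      · have h1 := upn_X_inr n z ⟨k, hk⟩
        rw [h1]
        by_cases hkj : k = j
        · subst hkj
          simp
        · rw [pderiv_X_of_ne (by simpa using hkj), pderiv_X_of_ne (fun h => hkj (by rw [← h])),
            map_zero]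
      · have h1 : upn n z (X (Sum.inr k)) = 0 := by simp [upn, extn_of_le _ (not_lt.1 hk)]
        have h2 : k ≠ j := fun h => hk (h ▸ j.2)
        rw [h1, pderiv_X_of_ne (by simpa using h2), map_zero, map_zero]

end spec

namespace Cls2

/-! ### Interpolation over a prime field -/

theorem sum_pow_field {K : Type} [Field K] [Fintype K] {t : ℕ} (ht : t ≠ 0) :
    ∑ x : K, x ^ t = if Fintype.card K - 1 ∣ t then -1 else 0 := by
  classical
  let φ : Kˣ ↪ K := ⟨fun x ↦ x, Units.val_injective⟩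
  have : Finset.univ.map φ = Finset.univ \ {0} := by
    ext x
    simpa only [Finset.mem_map, Finset.mem_univ, Function.Embedding.coeFn_mk, true_and,
      Finset.mem_sdiff, Finset.mem_singleton, φ] using! isUnit_iff_ne_zero
  calc
    ∑ x : K, x ^ t = ∑ x ∈ Finset.univ \ {(0 : K)}, x ^ t := by
      rw [← Finset.sum_sdiff ({0} : Finset K).subset_univ, Finset.sum_singleton, zero_pow ht,
        add_zero]
    _ = ∑ x : Kˣ, (x ^ t : K) := by simp [φ, ← this, Finset.univ.sum_map φ]
    _ = _ := FiniteField.sum_pow_units K t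

theorem sum_range_pow (p : ℕ) [hp : Fact p.Prime] {e μ : ℕ} (he : e + 1 < p) (hμ : μ + 1 < p) :
    ∑ k ∈ Finset.range p, (k : ZMod p) ^ (e + (p - 1 - μ)) = if e = μ then -1 else 0 := by
  have h1 : ∑ k ∈ Finset.range p, (k : ZMod p) ^ (e + (p - 1 - μ)) =
      ∑ x : ZMod p, x ^ (e + (p - 1 - μ)) := by
    refine Finset.sum_nbij' (fun k => (k : ZMod p)) (fun x => x.val) (fun _ _ => by simp)
      (fun x _ => by simpa using ZMod.val_lt x) (fun k hk => ?_) (fun x _ => by simp)
      (fun _ _ => rfl)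
    exact ZMod.val_cast_of_lt (by simpa using hk)
  rw [h1, sum_pow_field (by omega), ZMod.card]
  refine if_congr ⟨fun h => ?_, fun h => ?_⟩ rfl rfl
  · obtain ⟨c, hc⟩ := h
    rcases c with _ | _ | c
    · omega
    · omega
    · have : (p - 1) * (c + 1 + 1) = (p - 1) * c + 2 * (p - 1) := by ring
      omega
  · exact ⟨1, by omega⟩

theorem coeff_eq_sum (p : ℕ) [hp : Fact p.Prime] (n : ℕ) (q : MvPolynomial (Fin n) (ZMod p))
    (hq : q.totalDegree + 1 < p) (μ : ℕ → ℕ) (hμ : ∀ i < n, μ i + 1 < p) :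
    coeff (expo n μ) q = (-1) ^ n * ∑ c ∈ Finset.range (p ^ n),
      eval (fun i : Fin n => (dig p c i : ZMod p)) q *
        ∏ i ∈ Finset.range n, (dig p c i : ZMod p) ^ (p - 1 - μ i) := by
  classical
  have h1 := sum_box n p (fun κ => eval (fun i : Fin n => (κ i : ZMod p)) q *
    ∏ i : Fin n, (κ i : ZMod p) ^ (p - 1 - μ i))
  simp only [Finset.prod_range (fun i => (dig p _ i : ZMod p) ^ (p - 1 - μ i))]
  rw [← h1]
  have h2 : ∀ κ : Fin n → ℕ, eval (fun i : Fin n => (κ i : ZMod p)) q *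
      ∏ i : Fin n, (κ i : ZMod p) ^ (p - 1 - μ i) =
      ∑ e ∈ q.support, coeff e q * ∏ i : Fin n, (κ i : ZMod p) ^ (e i + (p - 1 - μ i)) := by
    intro κ
    rw [eval_eq', Finset.sum_mul]
    refine Finset.sum_congr rfl fun e _ => ?_
    rw [mul_assoc, ← Finset.prod_mul_distrib]
    simp only [pow_add]
  simp only [h2]
  rw [Finset.sum_comm]
  have h3 : ∀ e ∈ q.support, ∑ κ ∈ Fintype.piFinset (fun _ : Fin n => Finset.range p),
      coeff e q * ∏ i : Fin n, (κ i : ZMod p) ^ (e i + (p - 1 - μ i)) =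
      if e = expo n μ then coeff e q * (-1) ^ n else 0 := by
    intro e he
    rw [← Finset.mul_sum, ← Finset.prod_univ_sum (fun _ : Fin n => Finset.range p)
      (fun i k => (k : ZMod p) ^ (e i + (p - 1 - μ i)))]
    have h4 : ∀ i : Fin n, ∑ k ∈ Finset.range p, (k : ZMod p) ^ (e i + (p - 1 - μ i)) =
        if e i = μ i then -1 else 0 := by
      intro i
      refine sum_range_pow p ?_ (hμ i i.2)
      have h5 : e i ≤ q.totalDegree :=
        (monomial_le_degreeOf i he).trans (degreeOf_le_totalDegree q i)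
      omega
    simp only [h4]
    split_ifs with h
    · subst h
      simp
    · obtain ⟨i, hi⟩ : ∃ i : Fin n, e i ≠ μ i := by
        by_contra hcon
        push Not at hcon
        exact h (Finsupp.ext hcon)
      rw [Finset.prod_eq_zero (Finset.mem_univ i) (if_neg hi), mul_zero]
  rw [Finset.sum_congr rfl h3, Finset.sum_ite_eq']
  split_ifs with h
  · rw [mul_left_comm, ← mul_pow]
    simp
  · rw [notMem_support_iff.1 h, mul_zero]

theorem natCast_ev {σ : Type} (p : ℕ) [NeZero p] (x : σ → ℕ) (P : MvPolynomial σ ℤ) :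
    (ev p x P : ZMod p) = aeval (fun i => (x i : ZMod p)) P := by
  simp [ev]

theorem ev_cfn {σ : Type} {p : ℕ} (hp : p.Prime) (n : ℕ) (μ : ℕ → ℕ) (x : σ → ℕ)
    (P : MvPolynomial (σ ⊕ ℕ) ℤ) (hP : P.totalDegree + 1 < p) :
    ev p x (cfn n μ P) = if ∀ i < n, μ i + 1 < p then
      ((p - 1) ^ n * ∑ c ∈ Finset.range (p ^ n),
        ev p (Sum.elim x fun j => if j < n then dig p c j else 0) P *
          ∏ i ∈ Finset.range n, (dig p c i ^ (p - 1 - μ i) % p)) % p else 0 := by
  have := Fact.mk hp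
  have hq := totalDegree_upn_le n (fun i => (x i : ZMod p)) P
  rw [ev, aeval_cfn]
  split_ifs with h
  · rw [← ZMod.val_natCast, coeff_eq_sum p n _ (by omega) μ h]
    congr 1
    have h1 : ((p - 1 : ℕ) : ZMod p) = -1 := by
      rw [Nat.cast_sub hp.one_le]
      simp
    push_cast
    rw [h1]
    congr 1
    refine Finset.sum_congr rfl fun c _ => ?_
    rw [eval_upn, natCast_ev]
    congr 1
    · congr 2
      funext o
      cases o with
      | inl i => rfl
      | inr j =>
        simp only [Sum.elim_inr, extn]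
        split_ifs <;> simp
    · simp
  · push Not at h
    obtain ⟨i, hi, h⟩ := h
    rw [coeff_eq_zero_of_totalDegree_lt, ZMod.val_zero]
    have h1 : expo n μ ⟨i, hi⟩ ≤ ∑ j ∈ (expo n μ).support, expo n μ j := by
      by_cases h0 : (⟨i, hi⟩ : Fin n) ∈ (expo n μ).support
      · exact Finset.single_le_sum (f := fun j => expo n μ j) (fun _ _ => Nat.zero_le _) h0
      · rw [Finsupp.notMem_support_iff.1 h0]
        exact Nat.zero_le _
    simp only [expo_apply] at h1 ⊢
    omega

/-! ### Derivatives -/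

theorem coeff_shift {σ : Type} [DecidableEq σ] (i : σ) (P : MvPolynomial σ ℤ) :
    (aeval (fun j => if j = i then Polynomial.C (X i) + Polynomial.X else Polynomial.C (X j)) P :
      Polynomial (MvPolynomial σ ℤ)).coeff 0 = P ∧
    (aeval (fun j => if j = i then Polynomial.C (X i) + Polynomial.X else Polynomial.C (X j)) P :
      Polynomial (MvPolynomial σ ℤ)).coeff 1 = pderiv i P := by
  induction P using MvPolynomial.induction_on with
  | C a =>
    have : algebraMap ℤ (Polynomial (MvPolynomial σ ℤ)) a = Polynomial.C (C a) := by simp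
    rw [aeval_C, this, Polynomial.coeff_C_zero, Polynomial.coeff_C_succ, pderiv_C]
    exact ⟨rfl, rfl⟩
  | add p q hp hq => simp only [map_add, Polynomial.coeff_add, hp.1, hp.2, hq.1, hq.2, and_self]
  | mul_X p j hp =>
    rw [map_mul, aeval_X, pderiv_mul]
    split_ifs with h
    · subst h
      rw [mul_add, Polynomial.coeff_add, Polynomial.coeff_add, Polynomial.coeff_mul_C,
        Polynomial.coeff_mul_C, Polynomial.coeff_mul_X_zero, Polynomial.coeff_mul_X, hp.1, hp.2]
      simp
    · rw [Polynomial.coeff_mul_C, Polynomial.coeff_mul_C, hp.1, hp.2, pderiv_X_of_ne h]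
      simp

theorem pderiv_eq_cf1 {σ : Type} [DecidableEq σ] (i : σ) (P : MvPolynomial σ ℤ) :
    cf1 1 (aeval (fun o : Option (Option σ) => o.elim (X (some i) + X none) X)
      (rename (fun j => if j = i then none else some (some j)) P)) = pderiv i P := by
  rw [← (coeff_shift i P).2, cf1, aeval_rename]
  congr 1
  have := map_aeval_int (up (fun i => (X i : MvPolynomial σ ℤ))).toRingHom
    ((fun o : Option (Option σ) => o.elim (X (some i) + X none) X) ∘
      fun j => if j = i then none else some (some j)) P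
  refine this.trans ?_
  congr 2
  funext j
  by_cases h : j = i <;> simp [h]

/-! ### Determinants -/

theorem det_eq_sum {R : Type} [CommRing R] (n : ℕ) (M : ℕ → ℕ → R) :
    (Matrix.of fun i j : Fin n => M i j).det = ∑ c ∈ Finset.range (n ^ n),
      (∏ j ∈ Finset.range n, ∏ i ∈ Finset.range j,
        ((((dig n c j : ℕ) : ℤ) - (dig n c i : ℕ)).sign : R)) *
          ∏ i ∈ Finset.range n, M (dig n c i) i := by
  classical
  have h0 : ∀ (g : ℕ → R) (j : Fin n), ∏ i ∈ Finset.range j, g i = ∏ i ∈ Finset.Iio j, g i := by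
    intro g j
    rw [← Nat.Iio_eq_range, ← Fin.map_valEmbedding_Iio, Finset.prod_map]
    rfl
  have h1 := sum_dig_eq_sum_fun n n (fun κ => (∏ j : Fin n, ∏ i ∈ Finset.Iio j,
    ((((κ j : ℕ) : ℤ) - (κ i : ℕ)).sign : R)) * ∏ i : Fin n, M (κ i) i)
  have h2 : ∀ c, (∏ j ∈ Finset.range n, ∏ i ∈ Finset.range j,
        ((((dig n c j : ℕ) : ℤ) - (dig n c i : ℕ)).sign : R)) *
          ∏ i ∈ Finset.range n, M (dig n c i) i = (∏ j : Fin n, ∏ i ∈ Finset.Iio j,
    ((((dig n c j : ℕ) : ℤ) - (dig n c i : ℕ)).sign : R)) * ∏ i : Fin n, M (dig n c i) i := by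
    intro c
    rw [Finset.prod_range, Finset.prod_range (fun i => M (dig n c i) i)]
    congr 1
    exact Finset.prod_congr rfl fun j _ => h0 _ j
  simp only [h2]
  rw [h1, Matrix.det_apply', ← Finset.sum_subset (Finset.filter_subset Function.Bijective _)]
  · refine Finset.sum_bij (fun (π : Equiv.Perm (Fin n)) _ => (π : Fin n → Fin n))
      (fun π _ => Finset.mem_filter.2 ⟨Finset.mem_univ _, π.bijective⟩)
      (fun _ _ _ _ h => DFunLike.coe_injective h)
      (fun f hf => ⟨Equiv.ofBijective f (Finset.mem_filter.1 hf).2, Finset.mem_univ _, rfl⟩)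
      (fun π _ => ?_)
    congr 1
    rw [π.sign_eq_prod_prod_Iio]
    push_cast
    refine Finset.prod_congr rfl fun j _ => Finset.prod_congr rfl fun i hi => ?_
    have hij : π i ≠ π j := fun h => (Finset.mem_Iio.1 hi).ne (π.injective h)
    split_ifs with h
    · rw [Int.sign_eq_one_of_pos (by have := Fin.lt_def.1 h; omega)]
      simp
    · have h' : π j < π i := lt_of_le_of_ne (not_lt.1 h) hij.symm
      rw [Int.sign_eq_neg_one_of_neg (by have := Fin.lt_def.1 h'; omega)]
      simp
  · intro f _ hf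
    simp only [Finset.mem_filter, Finset.mem_univ, true_and] at hf
    rw [← Finite.injective_iff_bijective, Function.Injective] at hf
    push Not at hf
    obtain ⟨i, j, hij, hne⟩ := hf
    refine mul_eq_zero_of_left ?_ _
    rcases lt_or_gt_of_ne hne with h | h
    · refine Finset.prod_eq_zero (Finset.mem_univ j) (Finset.prod_eq_zero (Finset.mem_Iio.2 h) ?_)
      simp [hij]
    · refine Finset.prod_eq_zero (Finset.mem_univ i) (Finset.prod_eq_zero (Finset.mem_Iio.2 h) ?_)
      simp [hij]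

theorem cls_cfn {P : α → MvPolynomial (σ ⊕ ℕ) ℤ} (hP : Cls P) {n : α → ℕ} (hn : CF n)
    (hb : PB n) {μ : α → ℕ → ℕ} (hμ : CF fun q : α × ℕ => μ q.1 q.2) :
    Cls fun a => cfn (n a) (μ a) (P a) := by
  obtain ⟨b, hb1, hdeg, hnrm, hev⟩ := hP
  refine ⟨fun a => b a + 1, by fun_prop, fun a => ?_, fun a => ?_, ?_⟩
  · exact (totalDegree_cfn_le _ _ _).trans ((hdeg a).trans
      (Nat.pow_le_pow_right two_pos (Nat.le_succ _)))
  · exact (nrm_cfn_le _ _ _).trans ((hnrm a).trans (Nat.pow_le_pow_right two_pos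
      (Nat.pow_le_pow_right two_pos (Nat.le_succ _))))
  intro β _ f p x hf hp hx hpr
  have hlt : ∀ e, 2 ^ b (f e) + 1 < p e := fun e => by
    have h1 := (hpr e).2
    have h2 : 0 < 2 ^ b (f e) := Nat.two_pow_pos _
    simp only [pow_succ] at h1
    omega
  have hnf : CF fun e => n (f e) := hn.comp hf
  have hbf : PB fun e => n (f e) := PB_compCF hb hf
  have hμf : CF fun q : β × ℕ => μ (f q.1) q.2 :=
    hμ.comp_eq (fun q : β × ℕ => (f q.1, q.2)) (by fun_prop)
  have htest : CF fun e => ∀ i < n (f e), μ (f e) i + 1 < p e :=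
    CF.ball_lt hnf (by fun_prop)
  have hx' : CF fun q : (β × ℕ) × (σ ⊕ ℕ) =>
      Sum.elim (x q.1.1) (fun j => if j < n (f q.1.1) then dig (p q.1.1) q.1.2 j else 0) q.2 := by
    refine CF.sum_elim (f := fun q : (β × ℕ) × (σ ⊕ ℕ) => x q.1.1)
      (g := fun q : (β × ℕ) × (σ ⊕ ℕ) => fun j =>
        if j < n (f q.1.1) then dig (p q.1.1) q.1.2 j else 0) CF.id.snd ?_ ?_
    · exact hx.comp_eq (fun q : ((β × ℕ) × (σ ⊕ ℕ)) × σ => (q.1.1.1, q.2)) (by fun_prop)
    · fun_prop
  have hev' : CF fun q : β × ℕ => ev (p q.1)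
      (Sum.elim (x q.1) fun j => if j < n (f q.1) then dig (p q.1) q.2 j else 0) (P (f q.1)) :=
    hev (β × ℕ) (fun q => f q.1) (fun q => p q.1)
      (fun q => Sum.elim (x q.1) fun j => if j < n (f q.1) then dig (p q.1) q.2 j else 0)
      (by fun_prop) (by fun_prop) hx' fun q => ⟨(hpr q.1).1, by have := hlt q.1; omega⟩
  have hprod : CF fun q : β × ℕ => ∏ i ∈ Finset.range (n (f q.1)),
      (dig (p q.1) q.2 i ^ (p q.1 - 1 - μ (f q.1) i) % p q.1) := by
    refine CF.prod_range_pb (n := fun q : β × ℕ => n (f q.1))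
      (f := fun q i => dig (p q.1) q.2 i ^ (p q.1 - 1 - μ (f q.1) i) % p q.1)
      (hnf.comp CF.id.fst) (PB_compCF hb (hf.comp CF.id.fst)) ?_
    have h1 : CF fun r : (β × ℕ) × ℕ => μ (f r.1.1) r.2 :=
      hμf.comp_eq (fun r : (β × ℕ) × ℕ => (r.1.1, r.2)) (by fun_prop)
    exact CF.nat_powMod (by fun_prop) (by fun_prop) (by fun_prop) fun r => (hpr r.1.1).1.pos
  have hsum : CF fun e => ∑ c ∈ Finset.range (p e ^ n (f e)),
      ev (p e) (Sum.elim (x e) fun j => if j < n (f e) then dig (p e) c j else 0) (P (f e)) *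
        ∏ i ∈ Finset.range (n (f e)), (dig (p e) c i ^ (p e - 1 - μ (f e) i) % p e) :=
    CF.sum_range (CF.nat_pow hp hnf hbf) (hev'.nat_mul hprod)
  have hpow : CF fun e => (p e - 1) ^ n (f e) := CF.nat_pow (by fun_prop) hnf hbf
  refine (CF.ite htest ((hpow.nat_mul hsum).nat_mod hp) (CF.const 0)).of_eq fun e => ?_
  rw [ev_cfn (hpr e).1 _ _ _ _ (by have := hlt e; have := hdeg (f e); omega)]

end Cls2

namespace Cls

@[fun_prop] theorem cf1 {P : α → MvPolynomial (Option σ) ℤ} (hP : Cls P) {k : α → ℕ}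
    (hk : CF k) : Cls fun a => cf1 (k a) (P a) := by
  have hr : CF (Cls2.toSum : Option σ → σ ⊕ ℕ) :=
    CF.option_elim (o := fun o : Option σ => o) (f := fun _ => (Sum.inr 0 : σ ⊕ ℕ))
      (g := fun _ i => Sum.inl i) CF.id (CF.const _) CF.id.snd.inl
  exact (Cls2.cls_cfn (hP.rename hr) (n := fun _ => 1) (CF.const 1) (by fun_prop)
    (μ := fun a _ => k a) (hk.comp CF.id.fst)).of_eq fun a => (Cls2.cf1_eq_cfn _ _).symm

theorem cfn {P : α → MvPolynomial (σ ⊕ ℕ) ℤ} (hP : Cls P) {n : α → ℕ} (hn : CF n) (hb : PB n)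
    {μ : α → ℕ → ℕ} (hμ : CF fun q : α × ℕ => μ q.1 q.2) :
    Cls fun a => cfn (n a) (μ a) (P a) := by
  exact Cls2.cls_cfn hP hn hb hμ

theorem pderiv {P : α → MvPolynomial σ ℤ} (hP : Cls P) {i : α → σ} (hi : CF i) :
    Cls fun a => pderiv (i a) (P a) := by
  classical
  have hr : CF fun q : α × σ => (if q.2 = i q.1 then none else some (some q.2) :
      Option (Option σ)) :=
    CF.ite (CF.id.snd.eq (hi.comp CF.id.fst)) (CF.const _) CF.id.snd.some.some
  have hR := hP.rename' (r := fun a j => if j = i a then none else some (some j)) hr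
  have hQ : Cls fun a => (MvPolynomial.X (some (i a)) + MvPolynomial.X none :
      MvPolynomial (Option σ) ℤ) := (X hi.some).add (X (CF.const _))
  exact ((hR.subst1 hQ).cf1 (CF.const 1)).of_eq fun a => Cls2.pderiv_eq_cf1 _ _

theorem det {n : α → ℕ} (hn : CF n) (hb : PB n) {M : α → ℕ → ℕ → MvPolynomial σ ℤ}
    (hM : Cls fun x : α × ℕ × ℕ => M x.1 x.2.1 x.2.2) :
    Cls fun a => (Matrix.of fun i j : Fin (n a) => M a i j).det := by
  refine Cls.of_eq ?_ fun a => (Cls2.det_eq_sum (n a) (M a)).symm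
  refine sum (CF.nat_pow hn hn hb) (mul ?_ ?_)
  · refine prod (by fun_prop) (prod (by fun_prop) (intCast ?_))
    fun_prop
  · refine prod (by fun_prop) ?_
    exact hM.comp_eq (fun x : (α × ℕ) × ℕ => (x.1.1, dig (n x.1.1) x.1.2 x.2, x.2)) (by fun_prop)

end Cls

end Crest.Agent.R316
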