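import Crest.Agent.R316.Arith

/-!
# Uniform families of integer polynomials, specialisation maps, grids, good families of sets

Definitions only (plus the naturality lemmas of the specialisation maps).
-/

namespace Crest.Agent.R316

open Crest.Agent.Lib.PT MvPolynomial Filter Topology

/-! ### The class `Cls` -/

/-- The `ℓ¹` norm of the coefficients. -/
noncomputable def nrm {σ : Type} (P : MvPolynomial σ ℤ) : ℕ :=
  ∑ m ∈ P.support, (P.coeff m).natAbs

/-- The value modulo `p` at a point with natural coordinates. -/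
noncomputable def ev {σ : Type} (p : ℕ) (x : σ → ℕ) (P : MvPolynomial σ ℤ) : ℕ :=
  (aeval (fun i => (x i : ZMod p)) P).val

/-- Families of integer polynomials of exponential degree and doubly exponential norm whose values
modulo large primes at `CF` points are `CF`. -/
def Cls {α σ : Type} [Enc α] [Enc σ] (P : α → MvPolynomial σ ℤ) : Prop :=
  ∃ b : α → ℕ, PB b ∧ (∀ a, (P a).totalDegree ≤ 2 ^ b a) ∧ (∀ a, nrm (P a) ≤ 2 ^ 2 ^ b a) ∧
    ∀ (β : Type) [Enc β] (f : β → α) (p : β → ℕ) (x : β → σ → ℕ), CF f → CF p →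
      (CF fun q : β × σ => x q.1 q.2) → (∀ e, (p e).Prime ∧ 2 ^ b (f e) < p e) →
      CF fun e => ev (p e) (x e) (P (f e))

/-! ### Specialisation -/

section spec

variable {σ : Type} {K L : Type} [CommRing K] [CommRing L]

/-- Extend a finite tuple by zeros. -/
def extn {n : ℕ} (y : Fin n → K) (j : ℕ) : K := if h : j < n then y ⟨j, h⟩ else 0

/-- Specialise the variables `some i`; the variable `none` becomes `X`. -/
noncomputable def up (z : σ → K) : MvPolynomial (Option σ) ℤ →ₐ[ℤ] Polynomial K :=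
  aeval fun o => o.elim Polynomial.X fun i => Polynomial.C (z i)

/-- Specialise the variables `inl i`; the variables `inr j` become `X j` (`j < n`) or `0`. -/
noncomputable def upn (n : ℕ) (z : σ → K) :
    MvPolynomial (σ ⊕ ℕ) ℤ →ₐ[ℤ] MvPolynomial (Fin n) K :=
  aeval (Sum.elim (fun i => C (z i)) (extn fun j : Fin n => X j))

/-- The coefficient of the `k`-th power of the variable `none`. -/
noncomputable def cf1 (k : ℕ) (P : MvPolynomial (Option σ) ℤ) : MvPolynomial σ ℤ :=
  (up (fun i => (X i : MvPolynomial σ ℤ)) P).coeff k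

/-- The exponent vector `(μ 0, …, μ (n-1))`. -/
noncomputable def expo (n : ℕ) (μ : ℕ → ℕ) : Fin n →₀ ℕ :=
  Finsupp.equivFunOnFinite.symm fun j : Fin n => μ j

/-- The coefficient of the monomial `∏_{j<n} (inr j)^(μ j)` after killing `inr j`, `j ≥ n`. -/
noncomputable def cfn (n : ℕ) (μ : ℕ → ℕ) (P : MvPolynomial (σ ⊕ ℕ) ℤ) : MvPolynomial σ ℤ :=
  (upn n (fun i => (X i : MvPolynomial σ ℤ)) P).coeff (expo n μ)

@[simp] theorem extn_val {n : ℕ} (y : Fin n → K) (j : Fin n) : extn y j = y j := by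
  simp [extn]

theorem extn_of_le {n : ℕ} (y : Fin n → K) {j : ℕ} (h : n ≤ j) : extn y j = 0 := by
  simp [extn, not_lt.2 h]

theorem map_extn {n : ℕ} (φ : K →+* L) (y : Fin n → K) (j : ℕ) :
    φ (extn y j) = extn (fun i => φ (y i)) j := by
  unfold extn; split_ifs <;> simp

@[simp] theorem expo_apply (n : ℕ) (μ : ℕ → ℕ) (j : Fin n) : expo n μ j = μ j := rfl

@[simp] theorem up_X_none (z : σ → K) : up z (X none) = Polynomial.X := by simp [up]

@[simp] theorem up_X_some (z : σ → K) (i : σ) : up z (X (some i)) = Polynomial.C (z i) := by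
  simp [up]

@[simp] theorem upn_X_inl (n : ℕ) (z : σ → K) (i : σ) : upn n z (X (Sum.inl i)) = C (z i) := by
  simp [upn]

@[simp] theorem upn_X_inr (n : ℕ) (z : σ → K) (j : Fin n) :
    upn n z (X (Sum.inr (j : ℕ))) = X j := by
  simp [upn]

/-- Ring maps commute with evaluation of integer polynomials. -/
theorem map_aeval_int (φ : K →+* L) (z : σ → K) (P : MvPolynomial σ ℤ) :
    φ (aeval z P) = aeval (fun i => φ (z i)) P := by
  induction P using MvPolynomial.induction_on with
  | C a => simp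
  | add p q hp hq => simp [hp, hq]
  | mul_X p i hp => simp [hp]

theorem ofReal_aeval (z : σ → ℝ) (P : MvPolynomial σ ℤ) :
    ((aeval z P : ℝ) : ℂ) = aeval (fun i => (z i : ℂ)) P :=
  map_aeval_int Complex.ofRealHom z P

theorem map_up (φ : K →+* L) (z : σ → K) (P : MvPolynomial (Option σ) ℤ) :
    (up z P).map φ = up (fun i => φ (z i)) P := by
  have := map_aeval_int (Polynomial.mapRingHom φ)
    (fun o : Option σ => o.elim Polynomial.X fun i => Polynomial.C (z i)) P
  refine this.trans ?_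
  unfold up
  congr 2
  funext o
  cases o <;> simp

theorem map_upn (φ : K →+* L) (n : ℕ) (z : σ → K) (P : MvPolynomial (σ ⊕ ℕ) ℤ) :
    MvPolynomial.map φ (upn n z P) = upn n (fun i => φ (z i)) P := by
  have := map_aeval_int (MvPolynomial.map φ : MvPolynomial (Fin n) K →+* _)
    (Sum.elim (fun i => C (z i)) (extn fun j : Fin n => X j)) P
  refine this.trans ?_
  unfold upn
  congr 2
  funext o
  cases o with
  | inl i => simp
  | inr j => simp [map_extn]

theorem eval_up (z : σ → K) (t : K) (P : MvPolynomial (Option σ) ℤ) :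
    (up z P).eval t = aeval (fun o : Option σ => o.elim t z) P := by
  have := map_aeval_int (Polynomial.evalRingHom t)
    (fun o : Option σ => o.elim Polynomial.X fun i => Polynomial.C (z i)) P
  refine this.trans ?_
  congr 2
  funext o
  cases o <;> simp

theorem eval_upn (n : ℕ) (z : σ → K) (y : Fin n → K) (P : MvPolynomial (σ ⊕ ℕ) ℤ) :
    eval y (upn n z P) = aeval (Sum.elim z (extn y)) P := by
  have := map_aeval_int (eval y : MvPolynomial (Fin n) K →+* K)
    (Sum.elim (fun i => C (z i)) (extn fun j : Fin n => X j)) P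
  refine this.trans ?_
  congr 2
  funext o
  cases o with
  | inl i => simp
  | inr j => simp [map_extn]

theorem aeval_cf1 (z : σ → K) (k : ℕ) (P : MvPolynomial (Option σ) ℤ) :
    aeval z (cf1 k P) = (up z P).coeff k := by
  have := map_up (aeval z : MvPolynomial σ ℤ →ₐ[ℤ] K).toRingHom (fun i => X i) P
  simp only [AlgHom.toRingHom_eq_coe, RingHom.coe_coe, aeval_X] at this
  rw [← this, Polynomial.coeff_map]; rfl

theorem aeval_cfn (n : ℕ) (z : σ → K) (μ : ℕ → ℕ) (P : MvPolynomial (σ ⊕ ℕ) ℤ) :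
    aeval z (cfn n μ P) = (upn n z P).coeff (expo n μ) := by
  have := map_upn (aeval z : MvPolynomial σ ℤ →ₐ[ℤ] K).toRingHom n (fun i => X i) P
  simp only [AlgHom.toRingHom_eq_coe, RingHom.coe_coe, aeval_X] at this
  rw [← this, MvPolynomial.coeff_map]; rfl

@[simp] theorem up_rename_some (z : σ → K) (P : MvPolynomial σ ℤ) :
    up z (rename some P) = Polynomial.C (aeval z P) := by
  rw [map_aeval_int Polynomial.C, up, aeval_rename]; rfl

@[simp] theorem upn_rename_inl (n : ℕ) (z : σ → K) (P : MvPolynomial σ ℤ) :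
    upn n z (rename Sum.inl P) = C (aeval z P) := by
  rw [map_aeval_int (C : K →+* MvPolynomial (Fin n) K), upn, aeval_rename]; rfl

end spec

/-! ### Grids of roots -/

section grid

variable {σ : Type}

/-- Enumerations of the complex roots of `n` polynomials of degrees `D i`. -/
abbrev Roots (n : ℕ) (D : ℕ → ℕ) : Type := (i : Fin n) → Fin (D i) → ℂ

/-- Indices of grid points. -/
abbrev GIdx (n : ℕ) (D : ℕ → ℕ) : Type := (i : Fin n) → Fin (D i)

/-- At the real point `z`, the polynomial `h i` has degree exactly `D i` and roots `ρ i`. -/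
def IsRoots (n : ℕ) (D : ℕ → ℕ) (h : ℕ → MvPolynomial (Option σ) ℤ) (z : σ → ℝ)
    (ρ : Roots n D) : Prop :=
  ∀ i : Fin n, aeval z (cf1 (D i) (h i)) ≠ 0 ∧
    up (fun j => (z j : ℂ)) (h i) = Polynomial.C ((aeval z (cf1 (D i) (h i)) : ℝ) : ℂ) *
      ∏ r, (Polynomial.X - Polynomial.C (ρ i r))

/-- The value of `u` at the parameter `z` and the grid point `I`. -/
noncomputable def gval {n : ℕ} {D : ℕ → ℕ} (z : σ → ℝ) (ρ : Roots n D) (I : GIdx n D)
    (u : MvPolynomial (σ ⊕ ℕ) ℤ) : ℂ :=
  aeval (Sum.elim (fun j => (z j : ℂ)) (extn fun i => ρ i (I i))) u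

/-- The parameters at which all leading coefficients are nonzero and some tuple of simple real
roots lies in `T`. -/
def gridSet (n : ℕ) (D : ℕ → ℕ) (h : ℕ → MvPolynomial (Option σ) ℤ) (T : Set (σ ⊕ ℕ → ℝ)) :
    Set (σ → ℝ) :=
  {z | (∀ i < n, aeval z (cf1 (D i) (h i)) ≠ 0) ∧ ∃ y : Fin n → ℝ,
    (∀ i : Fin n, (up z (h i)).eval (y i) = 0 ∧
      (Polynomial.derivative (up z (h i))).eval (y i) ≠ 0) ∧ Sum.elim z (extn y) ∈ T}

end grid

/-! ### Good families of sets -/

/-- `T` is locally constant on the strata given by the zero patterns of `S`. -/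
def Inv {σ : Type} (S : Set (MvPolynomial σ ℤ)) (T : Set (σ → ℝ)) : Prop :=
  ∀ x : σ → ℝ, ∀ᶠ x' in 𝓝 x, (∀ B ∈ S, aeval x' B = 0 ↔ aeval x B = 0) → (x' ∈ T ↔ x ∈ T)

/-- Sets of polynomials covered by an exponentially long uniform list. -/
def Fam {α σ : Type} [Enc α] [Enc σ] (S : α → Set (MvPolynomial σ ℤ)) : Prop :=
  ∃ (N : α → ℕ) (B : α × ℕ → MvPolynomial σ ℤ), CF N ∧ Cls B ∧
    ∀ a, ∀ P ∈ S a, ∃ l < N a, B (a, l) = P

/-- Families of real points of bounded size at which nonzero values of uniform polynomials are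
bounded below and have `CF` signs. -/
structure Alg {β σ : Type} [Enc β] [Enc σ] (ξ : β → σ → ℝ) : Prop where
  size : ∃ c : β → ℕ, PB c ∧ ∀ b i, |ξ b i| ≤ 2 ^ 2 ^ c b
  gap : ∀ (γ : Type) [Enc γ] (g : γ → β) (P : γ → MvPolynomial σ ℤ), CF g → Cls P →
    ∃ c : γ → ℕ, PB c ∧ ∀ e, aeval (ξ (g e)) (P e) ≠ 0 → 1 ≤ 2 ^ 2 ^ c e * |aeval (ξ (g e)) (P e)|
  sign : ∀ (γ : Type) [Enc γ] (g : γ → β) (P : γ → MvPolynomial σ ℤ), CF g → Cls P →
    CF fun e => 0 < aeval (ξ (g e)) (P e)

/-- Locally constant on the strata of a uniform family of polynomials. -/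
def Strat {α σ : Type} [Enc α] [Enc σ] (T : α → Set (σ → ℝ)) : Prop :=
  ∃ S : α → Set (MvPolynomial σ ℤ), Fam S ∧ ∀ a, Inv (S a) (T a)

/-- Membership of algebraic points is `CF`. -/
def Decid {α σ : Type} [Enc α] [Enc σ] (T : α → Set (σ → ℝ)) : Prop :=
  ∀ (β : Type) [Enc β] (f : β → α) (ξ : β → σ → ℝ), CF f → Alg ξ → CF fun e => ξ e ∈ T (f e)

/-- Good families of sets. -/
structure Good {α σ : Type} [Enc α] [Enc σ] (T : α → Set (σ → ℝ)) : Prop where
  strat : Strat T
  dec : Decid T

end Crest.Agent.R316
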