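import Crest.Agent.R316.Cls2

/-!
# Elementary closure properties of `Fam`, `Alg`, `Good`
-/

namespace Crest.Agent.R316

open Crest.Agent.Lib.PT MvPolynomial Filter Topology

variable {α β γ σ τ : Type} [Enc α] [Enc β] [Enc γ] [Enc σ] [Enc τ]

theorem Inv.mono {σ : Type} {S S' : Set (MvPolynomial σ ℤ)} {T : Set (σ → ℝ)} (h : Inv S T)
    (hS : S ⊆ S') : Inv S' T :=
  fun x => (h x).mono fun _ hx hB => hx fun B hB' => hB B (hS hB')

namespace Fam

variable {S S' : α → Set (MvPolynomial σ ℤ)}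

theorem finite (h : Fam S) (a : α) : (S a).Finite := by
  obtain ⟨N, B, -, -, hS⟩ := h
  exact ((Set.finite_lt_nat (N a)).image fun l => B (a, l)).subset fun P hP => hS a P hP

theorem mono (h : Fam S) (hS : ∀ a, S' a ⊆ S a) : Fam S' := by
  obtain ⟨N, B, hN, hB, h⟩ := h
  exact ⟨N, B, hN, hB, fun a P hP => h a P (hS a hP)⟩

theorem comp (h : Fam S) {g : β → α} (hg : CF g) : Fam fun b => S (g b) := by
  obtain ⟨N, B, hN, hB, h⟩ := h
  exact ⟨fun b => N (g b), fun x => B (g x.1, x.2), hN.comp hg,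
    hB.comp ((hg.comp CF.id.fst).pair CF.id.snd), fun b P hP => h (g b) P hP⟩

theorem single {P : α → MvPolynomial σ ℤ} (hP : Cls P) : Fam fun a => {P a} :=
  ⟨fun _ => 1, fun x => P x.1, CF.const 1, hP.comp CF.id.fst,
    fun _ _ hQ => ⟨0, Nat.one_pos, (Set.mem_singleton_iff.1 hQ).symm⟩⟩

theorem union (h : Fam S) (h' : Fam S') : Fam fun a => S a ∪ S' a := by
  obtain ⟨N, B, hN, hB, h⟩ := h
  obtain ⟨N', B', hN', hB', h'⟩ := h'
  refine ⟨fun a => N a + N' a, fun x => if x.2 < N x.1 then B x else B' (x.1, x.2 - N x.1),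
    hN.nat_add hN', Cls.ite' (CF.id.snd.nat_lt (hN.comp CF.id.fst)) hB
      (hB'.comp (CF.id.fst.pair (CF.id.snd.nat_sub (hN.comp CF.id.fst)))), ?_⟩
  rintro a P (hP | hP)
  · obtain ⟨l, hl, rfl⟩ := h a P hP
    exact ⟨l, by simp only; omega, if_pos hl⟩
  · obtain ⟨l, hl, rfl⟩ := h' a P hP
    exact ⟨N a + l, by simp only; omega, by simp⟩

/-- Exponentially long unions. -/
theorem biUnion {N : α → ℕ} (hN : CF N) {S : α → ℕ → Set (MvPolynomial σ ℤ)}
    (h : Fam fun x : α × ℕ => S x.1 x.2) : Fam fun a => {P | ∃ l < N a, P ∈ S a l} := by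
  obtain ⟨M, B, hM, hB, h⟩ := h
  obtain ⟨b, -, hb, hMb⟩ := hM.lt_two_pow
  obtain ⟨c, hc, hc', hbc⟩ := PB_sup hN hb
  have hK : CF fun a => 2 ^ c a := (CF.const 2).nat_pow (PT_cf hc) hc'
  have hK' : CF fun x : α × ℕ => 2 ^ c x.1 := hK.comp CF.id.fst
  refine ⟨fun a => N a * 2 ^ c a, fun x => B ((x.1, x.2 / 2 ^ c x.1), x.2 % 2 ^ c x.1),
    hN.nat_mul hK, hB.comp ((CF.id.fst.pair (CF.id.snd.nat_div hK')).pair
      (CF.id.snd.nat_mod hK')), ?_⟩
  rintro a P ⟨l, hl, hP⟩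
  obtain ⟨k, hk, rfl⟩ := h (a, l) P hP
  have hk' : k < 2 ^ c a :=
    (hk.trans (hMb _)).trans_le (Nat.pow_le_pow_right two_pos (hbc a l hl))
  refine ⟨k + 2 ^ c a * l, ?_, ?_⟩
  · calc k + 2 ^ c a * l < 2 ^ c a * (l + 1) := by rw [mul_add, mul_one]; omega
      _ ≤ N a * 2 ^ c a := by rw [mul_comm]; exact Nat.mul_le_mul_right _ hl
  · simp only
    rw [Nat.add_mul_div_left _ _ (by positivity), Nat.add_mul_mod_self_left, Nat.div_eq_of_lt hk',
      Nat.mod_eq_of_lt hk', zero_add]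

theorem range {N : α → ℕ} (hN : CF N) {B : α → ℕ → MvPolynomial σ ℤ}
    (hB : Cls fun x : α × ℕ => B x.1 x.2) : Fam fun a => {P | ∃ l < N a, P = B a l} :=
  biUnion (S := fun a l => {B a l}) hN (single hB)

end Fam

namespace Alg

variable {ξ : β → σ → ℝ}

theorem comp (h : Alg ξ) {g : γ → β} (hg : CF g) : Alg fun c => ξ (g c) := by
  obtain ⟨c, hc, hξ⟩ := h.size
  exact ⟨⟨fun e => c (g e), PB_compCF hc hg, fun e i => hξ (g e) i⟩,
    fun δ _ g' P hg' hP => h.gap δ (fun e => g (g' e)) P (hg.comp hg') hP,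
    fun δ _ g' P hg' hP => h.sign δ (fun e => g (g' e)) P (hg.comp hg') hP⟩

theorem of_eq {ξ' : β → σ → ℝ} (h : Alg ξ) (e : ∀ b, ξ b = ξ' b) : Alg ξ' := by
  rw [← funext e]; exact h

/-- Forgetting, repeating and renaming coordinates. -/
theorem comap (h : Alg ξ) {r : τ → σ} (hr : CF r) : Alg fun b i => ξ b (r i) := by
  obtain ⟨c, hc, hξ⟩ := h.size
  have e : ∀ (z : σ → ℝ) (P : MvPolynomial τ ℤ),
      aeval z (rename r P) = aeval (fun i => z (r i)) P := fun z P => aeval_rename r z P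
  refine ⟨⟨c, hc, fun b i => hξ b (r i)⟩, fun δ _ g P hg hP => ?_, fun δ _ g P hg hP => ?_⟩
  · simpa only [e] using h.gap δ g _ hg (hP.rename hr)
  · simpa only [e] using h.sign δ g _ hg (hP.rename hr)

private theorem abs_le_aux (h : Alg ξ) {g : γ → β} {P : γ → MvPolynomial σ ℤ} (hg : CF g)
    (hP : Cls P) : ∃ c : γ → ℕ, PB c ∧ ∀ e, |aeval (ξ (g e)) (P e)| ≤ 2 ^ 2 ^ c e := by
  obtain ⟨c, hc, hξ⟩ := h.size
  obtain ⟨b, hb, H⟩ := hP.bound (PB_compCF hc hg)
  exact ⟨b, hb, fun e => H ℝ e (ξ (g e)) fun i => hξ (g e) i⟩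

/-- A new coordinate that is a uniform polynomial in the old ones. -/
theorem option (h : Alg ξ) {Q : β → MvPolynomial σ ℤ} (hQ : Cls Q) :
    Alg fun b (o : Option σ) => o.elim (aeval (ξ b) (Q b)) (ξ b) := by
  obtain ⟨c, hc, hξ⟩ := h.size
  obtain ⟨c', hc', hQ'⟩ := abs_le_aux h (g := fun b => b) CF.id hQ
  have e : ∀ (z : σ → ℝ) (Q : MvPolynomial σ ℤ) (R : MvPolynomial (Option σ) ℤ),
      aeval z (aeval (fun o : Option σ => o.elim Q X) R) =
        aeval (fun o : Option σ => o.elim (aeval z Q) z) R := fun z Q R => by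
    refine (map_aeval_int (aeval z : MvPolynomial σ ℤ →ₐ[ℤ] ℝ).toRingHom _ R).trans ?_
    congr 2
    funext o
    cases o <;> simp
  have hm : ∀ {m n : ℕ}, m ≤ n → (2 : ℝ) ^ 2 ^ m ≤ 2 ^ 2 ^ n := fun hmn =>
    pow_le_pow_right₀ one_le_two (Nat.pow_le_pow_right two_pos hmn)
  refine ⟨⟨fun b => c b + c' b, hc.add hc', fun b o => ?_⟩, fun δ _ g P hg hP => ?_,
    fun δ _ g P hg hP => ?_⟩
  · cases o with
    | none => exact (hQ' b).trans (hm (Nat.le_add_left _ _))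
    | some i => exact (hξ b i).trans (hm (Nat.le_add_right _ _))
  · simpa only [e] using h.gap δ g _ hg (hP.subst1 (hQ.comp hg))
  · simpa only [e] using h.sign δ g _ hg (hP.subst1 (hQ.comp hg))

theorem pos (h : Alg ξ) {g : γ → β} {P : γ → MvPolynomial σ ℤ} (hg : CF g) (hP : Cls P) :
    CF fun e => 0 < aeval (ξ (g e)) (P e) := h.sign γ g P hg hP

theorem neg (h : Alg ξ) {g : γ → β} {P : γ → MvPolynomial σ ℤ} (hg : CF g) (hP : Cls P) :
    CF fun e => aeval (ξ (g e)) (P e) < 0 :=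
  (h.pos hg hP.neg).of_iff fun e => by simp

theorem eq_zero (h : Alg ξ) {g : γ → β} {P : γ → MvPolynomial σ ℤ} (hg : CF g) (hP : Cls P) :
    CF fun e => aeval (ξ (g e)) (P e) = 0 :=
  ((h.pos hg hP).or (h.neg hg hP)).not.of_iff fun e => by
    constructor
    · intro h
      rcases lt_trichotomy (aeval (ξ (g e)) (P e)) 0 with h1 | h1 | h1
      · exact absurd (Or.inr h1) h
      · exact h1
      · exact absurd (Or.inl h1) h
    · intro h; simp [h]

/-- Values of uniform polynomials are bounded above. -/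
theorem abs_le (h : Alg ξ) {g : γ → β} {P : γ → MvPolynomial σ ℤ} (hg : CF g) (hP : Cls P) :
    ∃ c : γ → ℕ, PB c ∧ ∀ e, |aeval (ξ (g e)) (P e)| ≤ 2 ^ 2 ^ c e :=
  abs_le_aux h hg hP

end Alg

namespace Good

variable {T : α → Set (σ → ℝ)}

theorem of_eq {T' : α → Set (σ → ℝ)} (h : Good T) (e : ∀ a, T a = T' a) : Good T' := by
  rw [← funext e]; exact h

theorem comp (h : Good T) {g : β → α} (hg : CF g) : Good fun b => T (g b) := by
  obtain ⟨S, hS, hI⟩ := h.strat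
  exact ⟨⟨fun b => S (g b), hS.comp hg, fun b => hI (g b)⟩,
    fun δ _ f ξ hf hξ => h.dec δ (fun e => g (f e)) ξ (hg.comp hf) hξ⟩

theorem compl (h : Good T) : Good fun a => (T a)ᶜ := by
  obtain ⟨S, hS, hI⟩ := h.strat
  exact ⟨⟨S, hS, fun a x => (hI a x).mono fun _ hx hB => not_congr (hx hB)⟩,
    fun δ _ f ξ hf hξ => (h.dec δ f ξ hf hξ).not⟩

/-- Exponentially long unions. -/
theorem bex {N : α → ℕ} (hN : CF N) {T : α → ℕ → Set (σ → ℝ)}
    (h : Good fun x : α × ℕ => T x.1 x.2) : Good fun a => {z | ∃ c < N a, z ∈ T a c} := by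
  obtain ⟨S, hS, hI⟩ := h.strat
  refine ⟨⟨fun a => {P | ∃ l < N a, P ∈ S (a, l)}, Fam.biUnion (S := fun a l => S (a, l)) hN hS,
    fun a x => ?_⟩, fun δ _ f ξ hf hξ => ?_⟩
  · filter_upwards [(eventually_all_finset (Finset.range (N a))).2 fun l _ => hI (a, l) x]
      with x' hx' hB
    exact exists_congr fun l => and_congr_right fun hl =>
      hx' l (Finset.mem_range.2 hl) fun B hB' => hB B ⟨l, hl, hB'⟩
  · exact CF.bex_lt (q := fun e c => ξ e ∈ T (f e) c) (hN.comp hf)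
      (h.dec (δ × ℕ) (fun x => (f x.1, x.2)) (fun x => ξ x.1)
        ((hf.comp CF.id.fst).pair CF.id.snd) (hξ.comp CF.id.fst))

/-- Adding dummy coordinates. -/
theorem comap (h : Good T) {r : σ → τ} (hr : CF r) :
    Good fun a => {x : τ → ℝ | (fun i => x (r i)) ∈ T a} := by
  obtain ⟨S, ⟨N, B, hN, hB, hS⟩, hI⟩ := h.strat
  have e : ∀ (z : τ → ℝ) (P : MvPolynomial σ ℤ),
      aeval z (rename r P) = aeval (fun i => z (r i)) P := fun z P => aeval_rename r z P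
  refine ⟨⟨fun a => rename r '' S a, ⟨N, fun x => rename r (B x), hN, hB.rename hr, ?_⟩,
    fun a x => ?_⟩, fun δ _ f ξ hf hξ => h.dec δ f _ hf (hξ.comap hr)⟩
  · rintro a _ ⟨P, hP, rfl⟩
    obtain ⟨l, hl, rfl⟩ := hS a P hP
    exact ⟨l, hl, rfl⟩
  · have hc : Continuous fun (x : τ → ℝ) i => x (r i) := by fun_prop
    filter_upwards [(hc.tendsto x).eventually (hI a fun i => x (r i))] with x' hx' hB
    exact hx' fun P hP => by simpa only [e] using hB _ ⟨P, hP, rfl⟩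

end Good

end Crest.Agent.R316
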