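import Crest.Agent.R316.Grid
import Crest.Agent.R316.GoodBasic

/-!
# Delineability: grid projections are locally constant on strata
-/

namespace Crest.Agent.R316

open Crest.Agent.Lib.PT MvPolynomial Filter Topology

namespace Del

theorem continuous_aeval' {σ K : Type} [CommRing K] [TopologicalSpace K] [IsTopologicalRing K]
    (P : MvPolynomial σ ℤ) : Continuous fun z : σ → K => aeval z P := by
  induction P using MvPolynomial.induction_on with
  | C a => simpa using continuous_const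
  | add p q hp hq => simp only [map_add]; exact hp.add hq
  | mul_X p i hp => simp only [map_mul, aeval_X]; exact hp.mul (continuous_apply i)

/-- the number of zero roots only depends on the vanishing pattern of the coefficients -/
theorem card_zero_eq {ι : Type} [Fintype ι] (v w : ι → ℂ)
    (h : ∀ j ≤ Fintype.card ι, (∏ i, (Polynomial.X - Polynomial.C (v i))).coeff j = 0 ↔
      (∏ i, (Polynomial.X - Polynomial.C (w i))).coeff j = 0) :
    (Finset.univ.filter fun i => v i = 0).card = (Finset.univ.filter fun i => w i = 0).card := by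
  classical
  have h1 : ∀ v : ι → ℂ, (Finset.univ.filter fun i => v i = 0).card =
      (∏ i, (Polynomial.X - Polynomial.C (v i))).natTrailingDegree := by
    intro v
    rw [← Polynomial.rootMultiplicity_eq_natTrailingDegree', ← Polynomial.count_roots]
    have : ∏ i, (Polynomial.X - Polynomial.C (v i)) =
        ((Finset.univ.val.map v).map fun a => Polynomial.X - Polynomial.C a).prod := by
      rw [Multiset.map_map]; rfl
    rw [this, Polynomial.roots_multiset_prod_X_sub_C, Multiset.count_map]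
    simp only [eq_comm (a := (0 : ℂ))]
    rfl
  have h2 : (∏ i, (Polynomial.X - Polynomial.C (v i))).support =
      (∏ i, (Polynomial.X - Polynomial.C (w i))).support := by
    ext j
    simp only [Polynomial.mem_support_iff, ne_eq]
    rcases le_or_gt j (Fintype.card ι) with hj | hj
    · rw [h j hj]
    · rw [Polynomial.coeff_eq_zero_of_natDegree_lt (by simpa using hj),
        Polynomial.coeff_eq_zero_of_natDegree_lt (by simpa using hj)]
  rw [h1, h1, Polynomial.natTrailingDegree, Polynomial.natTrailingDegree,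
    Polynomial.trailingDegree, Polynomial.trailingDegree, h2]

theorem root_bound {p : Polynomial ℂ} {d : ℕ} (hd : p.natDegree = d) (h0 : p.coeff d ≠ 0) {t : ℂ}
    (ht : p.eval t = 0) : ‖t‖ ≤ (∑ k ∈ Finset.range d, ‖p.coeff k‖) / ‖p.coeff d‖ + 1 := by
  have hp : p ≠ 0 := by rintro rfl; simp at h0
  have h1 := Polynomial.IsRoot.norm_lt_cauchyBound hp ht
  have h2 : p.cauchyBound ≤ (∑ k ∈ Finset.range d, ‖p.coeff k‖₊) / ‖p.coeff d‖₊ + 1 := by
    rw [Polynomial.cauchyBound, Polynomial.leadingCoeff, hd]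
    gcongr
    exact Finset.sup_le fun k hk => Finset.single_le_sum (f := fun k => ‖p.coeff k‖₊)
      (fun _ _ => zero_le) hk
  have h3 := NNReal.coe_le_coe.2 (h1.le.trans h2)
  simpa using h3

variable {σ : Type}

/-- the derivative of `P`, with the variable `none` renamed to `inr i` -/
noncomputable def dh (i : ℕ) (P : MvPolynomial (Option σ) ℤ) : MvPolynomial (σ ⊕ ℕ) ℤ :=
  rename (fun o : Option σ => o.elim (Sum.inr i) Sum.inl) (pderiv none P)

theorem eval_up_ofReal (z : σ → ℝ) (y : ℝ) (P : MvPolynomial (Option σ) ℤ) :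
    (up (fun j => (z j : ℂ)) P).eval (y : ℂ) = ((up z P).eval y : ℝ) := by
  rw [eval_up, eval_up, ofReal_aeval]
  congr 2
  funext o
  cases o <;> rfl

theorem eval_up_conj (z : σ → ℝ) (t : ℂ) (P : MvPolynomial (Option σ) ℤ) :
    (up (fun j => (z j : ℂ)) P).eval (starRingEnd ℂ t) =
      starRingEnd ℂ ((up (fun j => (z j : ℂ)) P).eval t) := by
  rw [eval_up, eval_up, map_aeval_int]
  congr 2
  funext o
  cases o <;> simp

variable {n : ℕ} {D : ℕ → ℕ} {h : ℕ → MvPolynomial (Option σ) ℤ}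

theorem gval_dh (z : σ → ℝ) (ρ : Roots n D) (I : GIdx n D) (i : Fin n)
    (P : MvPolynomial (Option σ) ℤ) :
    gval z ρ I (dh i P) =
      (Polynomial.derivative (up (fun j => (z j : ℂ)) P)).eval (ρ i (I i)) := by
  rw [← up_pderiv, eval_up, gval, dh, aeval_rename]
  congr 2
  funext o
  cases o with
  | none => simp
  | some j => simp

theorem root_iff {z : σ → ℝ} {ρ : Roots n D} (hρ : IsRoots n D h z ρ) (i : Fin n) (t : ℂ) :
    (up (fun j => (z j : ℂ)) (h i)).eval t = 0 ↔ ∃ r, ρ i r = t := by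
  rw [(hρ i).2]
  simp only [Polynomial.eval_mul, Polynomial.eval_C, Polynomial.eval_prod, Polynomial.eval_sub,
    Polynomial.eval_X, mul_eq_zero, Complex.ofReal_eq_zero, (hρ i).1, false_or,
    Finset.prod_eq_zero_iff, Finset.mem_univ, true_and, sub_eq_zero]
  exact exists_congr fun r => eq_comm

theorem simple {z : σ → ℝ} {ρ : Roots n D} (hρ : IsRoots n D h z ρ) (i : Fin n) {r r' : Fin (D i)}
    (hs : (Polynomial.derivative (up (fun j => (z j : ℂ)) (h i))).eval (ρ i r) ≠ 0)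
    (e : ρ i r' = ρ i r) : r' = r := by
  by_contra hne
  apply hs
  rw [(hρ i).2, ← Finset.mul_prod_erase _ _ (Finset.mem_univ r),
    ← Finset.mul_prod_erase _ _ (Finset.mem_erase.2 ⟨hne, Finset.mem_univ r'⟩), e]
  simp

/-- the real point below a grid point -/
noncomputable def pt (z : σ → ℝ) (ρ : Roots n D) (I : GIdx n D) : σ ⊕ ℕ → ℝ :=
  Sum.elim z (extn fun i => (ρ i (I i)).re)

theorem ofReal_pt (z : σ → ℝ) (ρ : Roots n D) (I : GIdx n D) (hI : ∀ i, (ρ i (I i)).im = 0)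
    (B : MvPolynomial (σ ⊕ ℕ) ℤ) : ((aeval (pt z ρ I) B : ℝ) : ℂ) = gval z ρ I B := by
  rw [ofReal_aeval, gval]
  congr 2
  funext o
  cases o with
  | inl j => rfl
  | inr j =>
    have := map_extn Complex.ofRealHom (fun i => (ρ i (I i)).re) j
    simp only [pt, Sum.elim_inr]
    refine this.trans ?_
    congr 1
    funext i
    exact Complex.ext (by simp) (by simp [hI i])

theorem mem_gridSet {z : σ → ℝ} {ρ : Roots n D} (hρ : IsRoots n D h z ρ) (T : Set (σ ⊕ ℕ → ℝ)) :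
    z ∈ gridSet n D h T ↔ ∃ I : GIdx n D,
      (∀ i, (ρ i (I i)).im = 0 ∧ gval z ρ I (dh i (h i)) ≠ 0) ∧ pt z ρ I ∈ T := by
  constructor
  · rintro ⟨-, y, hy, hT⟩
    have h1 : ∀ i, ∃ r, ρ i r = y i := fun i =>
      (root_iff hρ i _).1 (by rw [eval_up_ofReal, (hy i).1, Complex.ofReal_zero])
    choose I hI using h1
    refine ⟨I, fun i => ⟨by rw [hI]; simp, ?_⟩, ?_⟩
    · rw [gval_dh, hI, ← up_pderiv, eval_up_ofReal, up_pderiv]
      exact_mod_cast (hy i).2
    · simpa only [pt, hI, Complex.ofReal_re] using hT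
  · rintro ⟨I, hI, hT⟩
    refine ⟨fun i hi => (hρ ⟨i, hi⟩).1, fun i => (ρ i (I i)).re, fun i => ?_, hT⟩
    have e : (((ρ i (I i)).re : ℝ) : ℂ) = ρ i (I i) :=
      Complex.ext (by simp) (by simp [(hI i).1])
    constructor
    · have := (root_iff hρ i (ρ i (I i))).2 ⟨_, rfl⟩
      rw [← e, eval_up_ofReal] at this
      exact_mod_cast this
    · have := (hI i).2
      rw [gval_dh, ← e, ← up_pderiv, eval_up_ofReal, up_pderiv] at this
      exact_mod_cast this

theorem tendsto_extn {K X : Type} [CommRing K] [TopologicalSpace K] {l : Filter X}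
    {y : X → Fin n → K} {y₀ : Fin n → K} (hy : ∀ i, Tendsto (fun x => y x i) l (𝓝 (y₀ i)))
    (j : ℕ) : Tendsto (fun x => extn (y x) j) l (𝓝 (extn y₀ j)) := by
  unfold extn
  split_ifs with hj
  · exact hy _
  · exact tendsto_const_nhds

/-- limits of the roots along an ultrafilter -/
theorem exists_lim {z₀ : σ → ℝ} (hz : ∀ i < n, aeval z₀ (cf1 (D i) (h i)) ≠ 0)
    {U : Ultrafilter (σ → ℝ)} (hU : ↑U ≤ 𝓝 z₀) {ρ : (σ → ℝ) → Roots n D}
    (hρ : ∀ᶠ x in U, IsRoots n D h x (ρ x)) :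
    ∃ ρ₀ : Roots n D, IsRoots n D h z₀ ρ₀ ∧ ∀ i r, Tendsto (fun x => ρ x i r) U (𝓝 (ρ₀ i r)) := by
  have hc : ∀ P : MvPolynomial σ ℤ, Tendsto (fun x : σ → ℝ => aeval x P) U (𝓝 (aeval z₀ P)) :=
    fun P => ((continuous_aeval' P).tendsto z₀).mono_left hU
  have h1 : ∀ (i : Fin n) (r : Fin (D i)), ∃ c : ℂ, Tendsto (fun x => ρ x i r) U (𝓝 c) := by
    intro i r
    have h2 : Tendsto (fun x : σ → ℝ => (∑ k ∈ Finset.range (D i), ‖aeval x (cf1 k (h i))‖) /
        ‖aeval x (cf1 (D i) (h i))‖ + 1) U (𝓝 ((∑ k ∈ Finset.range (D i),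
          ‖aeval z₀ (cf1 k (h i))‖) / ‖aeval z₀ (cf1 (D i) (h i))‖ + 1)) :=
      ((tendsto_finsetSum _ fun k _ => (hc _).norm).div (hc _).norm
        (norm_ne_zero_iff.2 (hz i i.2))).add tendsto_const_nhds
    set M := (∑ k ∈ Finset.range (D i), ‖aeval z₀ (cf1 k (h i))‖) /
      ‖aeval z₀ (cf1 (D i) (h i))‖ + 1
    have h3 : ∀ᶠ x in U, ρ x i r ∈ Metric.closedBall (0 : ℂ) (M + 1) := by
      filter_upwards [hρ, h2.eventually (gt_mem_nhds (lt_add_one M))] with x hx hx'
      have hco : ∀ k, (up (fun j => (x j : ℂ)) (h i)).coeff k =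
          ((aeval x (cf1 k (h i)) : ℝ) : ℂ) := fun k => by rw [ofReal_aeval, aeval_cf1]
      have hd : (up (fun j => (x j : ℂ)) (h i)).natDegree = D i := by
        rw [(hx i).2, Polynomial.natDegree_C_mul (by exact_mod_cast (hx i).1)]
        simp
      have := root_bound hd (by rw [hco]; exact_mod_cast (hx i).1) ((root_iff hx i _).2 ⟨r, rfl⟩)
      simp only [hco, Complex.norm_real] at this
      rw [mem_closedBall_zero_iff]
      linarith
    obtain ⟨c, -, hc⟩ := (isCompact_closedBall (0 : ℂ) (M + 1)).ultrafilter_le_nhds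
      (U.map fun x => ρ x i r) (by rw [le_principal_iff]; exact h3)
    exact ⟨c, hc⟩
  choose ρ₀ hρ₀ using h1
  refine ⟨ρ₀, fun i => ⟨hz i i.2, Polynomial.funext fun t => ?_⟩, hρ₀⟩
  have h2 : Tendsto (fun x : σ → ℝ => (up (fun j => (x j : ℂ)) (h i)).eval t) U
      (𝓝 ((up (fun j => (z₀ j : ℂ)) (h i)).eval t)) := by
    simp only [eval_up]
    refine ((continuous_aeval' (h i)).tendsto _).comp (tendsto_pi_nhds.2 fun o => ?_)
    cases o with
    | none => exact tendsto_const_nhds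
    | some j =>
      exact (Complex.continuous_ofReal.tendsto _).comp
        (((continuous_apply j).tendsto z₀).mono_left hU)
  have h3 : Tendsto (fun x : σ → ℝ => ((aeval x (cf1 (D i) (h i)) : ℝ) : ℂ) * ∏ r, (t - ρ x i r)) U
      (𝓝 (((aeval z₀ (cf1 (D i) (h i)) : ℝ) : ℂ) * ∏ r, (t - ρ₀ i r))) :=
    ((Complex.continuous_ofReal.tendsto _).comp (hc _)).mul
      (tendsto_finsetProd _ fun r _ => tendsto_const_nhds.sub (hρ₀ i r))
  have h4 := tendsto_nhds_unique_of_eventuallyEq h2 h3 (by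
    filter_upwards [hρ] with x hx
    rw [(hx i).2]
    simp [Polynomial.eval_prod])
  rw [h4]
  simp [Polynomial.eval_prod]

theorem inv_core (hdeg : ∀ i < n, ∀ l, D i < l → cf1 l (h i) = 0) {T : Set (σ ⊕ ℕ → ℝ)}
    {S : Set (MvPolynomial (σ ⊕ ℕ) ℤ)} (hS : S.Finite) (hT : Inv S T)
    {S' : Set (MvPolynomial σ ℤ)} (hlead : ∀ i < n, cf1 (D i) (h i) ∈ S')
    (hN : ∀ u, (u ∈ S ∨ ∃ i < n, u = dh i (h i)) → ∃ N : ℕ → MvPolynomial σ ℤ,
      (∀ j ≤ ∏ i ∈ Finset.range n, D i, N j ∈ S') ∧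
      ∀ (z : σ → ℝ) (ρ : Roots n D), IsRoots n D h z ρ → ∃ c : ℝ, 0 < c ∧
        ∀ j, ((aeval z (N j) : ℝ) : ℂ) =
          c * (∏ I : GIdx n D, (Polynomial.X - Polynomial.C (gval z ρ I u))).coeff j) :
    Inv S' (gridSet n D h T) := by
  classical
  intro z₀
  refine Filter.mem_iff_ultrafilter.2 fun U hU => ?_
  change ∀ᶠ x in (U : Filter (σ → ℝ)), (∀ B ∈ S', aeval x B = 0 ↔ aeval z₀ B = 0) →
    (x ∈ gridSet n D h T ↔ z₀ ∈ gridSet n D h T)
  rcases U.em (fun x => ∀ B ∈ S', aeval x B = 0 ↔ aeval z₀ B = 0) with hpat | hpat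
  swap
  · exact hpat.mono fun x hx hx' => absurd hx' hx
  suffices H : ∀ᶠ x in U, x ∈ gridSet n D h T ↔ z₀ ∈ gridSet n D h T from
    H.mono fun x hx _ => hx
  by_cases hz : ∀ i < n, aeval z₀ (cf1 (D i) (h i)) ≠ 0
  swap
  · push Not at hz
    obtain ⟨i, hi, hz⟩ := hz
    filter_upwards [hpat] with x hx
    exact iff_of_false (fun hx' => hx'.1 i hi ((hx _ (hlead i hi)).2 hz))
      (fun hx' => hx'.1 i hi hz)
  have hex : ∀ x : σ → ℝ, ∃ ρ : Roots n D,
      (∀ i < n, aeval x (cf1 (D i) (h i)) ≠ 0) → IsRoots n D h x ρ := by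
    intro x
    by_cases hx : ∀ i < n, aeval x (cf1 (D i) (h i)) ≠ 0
    · obtain ⟨ρ, hρ⟩ := exists_isRoots n D h hdeg x hx
      exact ⟨ρ, fun _ => hρ⟩
    · exact ⟨fun _ _ => 0, fun h => absurd h hx⟩
  choose ρ hρ' using hex
  have hρ : ∀ᶠ x in U, IsRoots n D h x (ρ x) :=
    hpat.mono fun x hx => hρ' x fun i hi h0 => hz i hi ((hx _ (hlead i hi)).1 h0)
  obtain ⟨ρ₀, hρ₀, hlim⟩ := exists_lim hz hU hρ
  have hco : ∀ j, Tendsto (fun x : σ → ℝ => x j) U (𝓝 (z₀ j)) := fun j =>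
    ((continuous_apply j).tendsto z₀).mono_left hU
  have hg : ∀ I u, Tendsto (fun x => gval x (ρ x) I u) U (𝓝 (gval z₀ ρ₀ I u)) := by
    intro I u
    refine ((continuous_aeval' u).tendsto _).comp (tendsto_pi_nhds.2 fun o => ?_)
    cases o with
    | inl j => exact (Complex.continuous_ofReal.tendsto _).comp (hco j)
    | inr j => exact tendsto_extn (fun i => hlim i (I i)) j
  have hzero : ∀ u, (u ∈ S ∨ ∃ i < n, u = dh i (h i)) →
      ∀ᶠ x in U, ∀ I, gval x (ρ x) I u = 0 ↔ gval z₀ ρ₀ I u = 0 := by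
    intro u hu
    obtain ⟨N, hN1, hN2⟩ := hN u hu
    have h1 : ∀ᶠ x in U, ∀ I, gval x (ρ x) I u = 0 → gval z₀ ρ₀ I u = 0 := by
      refine eventually_all.2 fun I => ?_
      by_cases h0 : gval z₀ ρ₀ I u = 0
      · exact Eventually.of_forall fun _ _ => h0
      · exact ((hg I u).eventually_ne h0).mono fun x hx hx' => absurd hx' hx
    filter_upwards [h1, hρ, hpat] with x hx1 hx2 hx3
    obtain ⟨c, hc, hc'⟩ := hN2 x _ hx2
    obtain ⟨c₀, hc₀, hc₀'⟩ := hN2 z₀ _ hρ₀
    have hcard := card_zero_eq (fun I => gval x (ρ x) I u) (fun I => gval z₀ ρ₀ I u) (by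
      intro j hj
      have hj' : j ≤ ∏ i ∈ Finset.range n, D i := by
        simpa [Fin.prod_univ_eq_prod_range] using hj
      have e := hx3 _ (hN1 j hj')
      rw [← Complex.ofReal_eq_zero, ← Complex.ofReal_eq_zero (z := aeval z₀ _), hc', hc₀',
        mul_eq_zero, mul_eq_zero] at e
      simpa only [Complex.ofReal_eq_zero, hc.ne', hc₀.ne', false_or] using e)
    have heq := Finset.eq_of_subset_of_card_le (s := Finset.univ.filter fun I =>
      gval x (ρ x) I u = 0) (fun I hI => Finset.mem_filter.2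
        ⟨Finset.mem_univ _, hx1 I (Finset.mem_filter.1 hI).2⟩) hcard.ge
    intro I
    simpa using Finset.ext_iff.1 heq I
  have hdh : ∀ᶠ x in U, ∀ i : Fin n, ∀ I,
      gval x (ρ x) I (dh i (h i)) = 0 ↔ gval z₀ ρ₀ I (dh i (h i)) = 0 :=
    eventually_all.2 fun i => hzero _ (Or.inr ⟨i, i.2, rfl⟩)
  have hSz : ∀ᶠ x in U, ∀ B ∈ S, ∀ I, gval x (ρ x) I B = 0 ↔ gval z₀ ρ₀ I B = 0 :=
    (eventually_all_finite hS).2 fun B hB => hzero _ (Or.inl hB)
  have hmain : ∀ I : GIdx n D, ∀ᶠ x in U,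
      ((∀ i, (ρ x i (I i)).im = 0 ∧ gval x (ρ x) I (dh i (h i)) ≠ 0) ∧ pt x (ρ x) I ∈ T) ↔
      ((∀ i, (ρ₀ i (I i)).im = 0 ∧ gval z₀ ρ₀ I (dh i (h i)) ≠ 0) ∧ pt z₀ ρ₀ I ∈ T) := by
    intro I
    by_cases hI : ∀ i, (ρ₀ i (I i)).im = 0 ∧ gval z₀ ρ₀ I (dh i (h i)) ≠ 0
    · have hreal : ∀ᶠ x in U, ∀ i, (ρ x i (I i)).im = 0 := by
        refine eventually_all.2 fun i => ?_
        have h1 : ∀ᶠ x in U, ∃ r, ρ x i r = starRingEnd ℂ (ρ x i (I i)) :=
          hρ.mono fun x hx => (root_iff hx i _).1 (by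
            rw [eval_up_conj, (root_iff hx i _).2 ⟨_, rfl⟩, map_zero])
        obtain ⟨r, hr⟩ := Ultrafilter.eventually_exists_iff.1 h1
        have h2 : ρ₀ i r = starRingEnd ℂ (ρ₀ i (I i)) :=
          tendsto_nhds_unique_of_eventuallyEq (hlim i r)
            ((Complex.continuous_conj.tendsto _).comp (hlim i (I i))) hr
        rw [Complex.conj_eq_iff_im.2 (hI i).1] at h2
        have h3 : r = I i := simple hρ₀ i (by rw [← gval_dh]; exact (hI i).2) h2
        subst h3
        exact hr.mono fun x hx => Complex.conj_eq_iff_im.1 hx.symm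
      have hpt : Tendsto (fun x => pt x (ρ x) I) U (𝓝 (pt z₀ ρ₀ I)) := by
        refine tendsto_pi_nhds.2 fun o => ?_
        cases o with
        | inl j => exact hco j
        | inr j =>
          exact tendsto_extn (fun i => (Complex.continuous_re.tendsto _).comp (hlim i (I i))) j
      filter_upwards [hreal, hdh, hSz, hpt.eventually (hT _)] with x h1 h2 h3 h4
      rw [h4 fun B hB => by
        rw [← Complex.ofReal_eq_zero, ofReal_pt x _ I h1, h3 B hB I,
          ← ofReal_pt z₀ _ I fun i => (hI i).1, Complex.ofReal_eq_zero]]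
      exact and_congr_left' (iff_of_true (fun i => ⟨h1 i, fun e => (hI i).2 ((h2 i I).1 e)⟩) hI)
    · have hI' := hI
      push Not at hI'
      obtain ⟨i, hi⟩ := hI'
      by_cases him : (ρ₀ i (I i)).im = 0
      · filter_upwards [hdh] with x hx
        exact iff_of_false (fun h' => (h'.1 i).2 ((hx i I).2 (hi him))) fun h' => hI h'.1
      · filter_upwards [((Complex.continuous_im.tendsto _).comp (hlim i (I i))).eventually_ne him]
          with x hx
        exact iff_of_false (fun h' => hx (h'.1 i).1) fun h' => hI h'.1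
  filter_upwards [eventually_all.2 hmain, hρ] with x hx hx'
  rw [mem_gridSet hx', mem_gridSet hρ₀]
  exact exists_congr hx

end Del

variable {α σ : Type} [Enc α] [Enc σ]

theorem grid_strat {T : α → Set (σ ⊕ ℕ → ℝ)} (hT : Strat T) {n : α → ℕ} (hn : CF n) (hb : PB n)
    {D : α → ℕ → ℕ} (hD : CF fun x : α × ℕ => D x.1 x.2)
    {h : α → ℕ → MvPolynomial (Option σ) ℤ} (hh : Cls fun x : α × ℕ => h x.1 x.2)
    (hdeg : ∀ a, ∀ i < n a, ∀ l, D a i < l → cf1 l (h a i) = 0) :
    Strat fun a => gridSet (n a) (D a) (h a) (T a) := by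
  obtain ⟨S, hS, hinv⟩ := hT
  obtain ⟨L, B, hL, hB, hcov⟩ := id hS
  have hdh : Cls fun x : α × ℕ => Del.dh x.2 (h x.1 x.2) := by
    refine Cls.rename' (r := fun x : α × ℕ => fun o : Option σ => o.elim (Sum.inr x.2) Sum.inl)
      (hh.pderiv (CF.const none)) ?_
    exact CF.option_elim CF.id.snd CF.id.fst.snd.inr CF.id.snd.inl
  let u : α × ℕ → MvPolynomial (σ ⊕ ℕ) ℤ := fun x =>
    if x.2 < L x.1 then B x else Del.dh (x.2 - L x.1) (h x.1 (x.2 - L x.1))
  have hu : Cls u := by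
    refine Cls.ite (CF.id.snd.nat_lt (hL.comp CF.id.fst)) hB ?_
    exact hdh.comp (g := fun x : α × ℕ => (x.1, x.2 - L x.1))
      (CF.id.fst.pair (CF.id.snd.nat_sub (hL.comp CF.id.fst)))
  obtain ⟨N, hN, hN'⟩ := exists_gridNorm (α := α × ℕ) (n := fun x => n x.1)
    (hn.comp CF.id.fst) (PB_compCF hb CF.id.fst) (D := fun x => D x.1)
    (hD.comp (f := fun x : (α × ℕ) × ℕ => (x.1.1, x.2)) (CF.id.fst.fst.pair CF.id.snd))
    (h := fun x => h x.1)
    (hh.comp (g := fun x : (α × ℕ) × ℕ => (x.1.1, x.2)) (CF.id.fst.fst.pair CF.id.snd)) hu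
  have hP : CF fun a => ∏ i ∈ Finset.range (n a), D a i := CF.prod_range_pb hn hb hD
  have F1 : Fam fun a => {P | ∃ i < n a, P = cf1 (D a i) (h a i)} :=
    Fam.range (B := fun a i => cf1 (D a i) (h a i)) hn (hh.cf1 hD)
  have F2 : Fam fun a => {P | ∃ l < L a + n a,
      P ∈ {P | ∃ j < (∏ i ∈ Finset.range (n a), D a i) + 1, P = N ((a, l), j)}} :=
    Fam.biUnion (S := fun a l =>
        {P | ∃ j < (∏ i ∈ Finset.range (n a), D a i) + 1, P = N ((a, l), j)})
      (hL.nat_add hn) (Fam.range (B := fun x j => N (x, j))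
        ((hP.comp CF.id.fst).nat_add (CF.const 1)) hN)
  refine ⟨_, F1.union F2, fun a => ?_⟩
  refine Del.inv_core (hdeg a) (hS.finite a) (hinv a) (fun i hi => Or.inl ⟨i, hi, rfl⟩) ?_
  intro v hv
  obtain ⟨l, hl, rfl⟩ : ∃ l < L a + n a, u (a, l) = v := by
    rcases hv with hv | ⟨i, hi, rfl⟩
    · obtain ⟨l, hl, rfl⟩ := hcov a v hv
      exact ⟨l, by omega, if_pos hl⟩
    · refine ⟨L a + i, by omega, ?_⟩
      simp only [u]
      rw [if_neg (by omega), Nat.add_sub_cancel_left]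
  exact ⟨fun j => N ((a, l), j), fun j hj => Or.inr ⟨l, hl, j, Nat.lt_succ_of_le hj, rfl⟩,
    fun z ρ hρ => hN' (a, l) z ρ hρ⟩

end Crest.Agent.R316
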