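import Crest.Agent.R316.Trace.Aux2

/-!
# The global residue formula for traces on `ℂ[y] / (y_i ^ d - g_i)`
-/

namespace Crest.Agent.R316

open MvPolynomial

/-- For a system `y_i ^ d = g_i (y)` with `deg g_i < d`, the global residues of `u ^ k` times the
Jacobian are the power sums of a multiset containing the values of `u` at all solutions. -/
theorem trace_formula (n d : ℕ) (hd : 2 ≤ d) (g : Fin n → MvPolynomial (Fin n) ℂ)
    (hg : ∀ i, (g i).totalDegree < d) (u : MvPolynomial (Fin n) ℂ) :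
    ∃ Λ : Multiset ℂ, Λ.card = (n * d + 1) ^ n ∧
      (∀ y : Fin n → ℂ, (∀ i, y i ^ d = eval y (g i)) → eval y u ∈ Λ) ∧
      ∀ k e K : ℕ, 1 ≤ k → u.totalDegree ≤ e → k * e < K →
        (Λ.map (· ^ k)).sum = ∑ κ ∈ Fintype.piFinset (fun _ : Fin n => Finset.range K),
          if ∑ i, κ i ≤ k * e then
            coeff (Finsupp.equivFunOnFinite.symm fun i => d * (κ i + 1) - 1)
              (u ^ k * (Matrix.of fun i j : Fin n => pderiv j (X i ^ d - g i)).det *
                ∏ i, g i ^ κ i)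
          else 0 := by
  classical
  obtain ⟨e, rfl⟩ : ∃ e, d = e + 1 := ⟨d - 1, by omega⟩
  have hg' : ∀ i, g i ∈ TraceAux.Lt ℂ (e + 1) := fun i =>
    TraceAux.mem_Lt_succ.mpr (Nat.lt_succ_iff.mp (hg i))
  obtain ⟨τ, hτ1, hτ2, hτ3, hτ4⟩ := TraceAux.exists_tau e g hg'
  obtain ⟨Δ, hΔ1, hΔ2, hΔ3⟩ := TraceAux.exists_repro e g hg' τ hτ1 hτ2 hτ3
  set J := (Matrix.of fun i j : Fin n => pderiv j (X i ^ (e + 1) - g i)).det with hJ
  let x : (Fin n → Fin (n * (e + 1) + 1)) → (Fin n →₀ ℕ) :=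
    fun a => Finsupp.equivFunOnFinite.symm fun i => (a i : ℕ)
  have hx : Function.Injective x := fun a b h => funext fun i => Fin.ext (by
    simpa [x] using DFunLike.congr_fun h i)
  have hsub : Δ.support ⊆ Finset.univ.image x := by
    intro m hm
    have h1 := TraceAux.mem_Lt.mp hΔ2 m hm
    refine Finset.mem_image.mpr ⟨fun i => ⟨m i, ?_⟩, Finset.mem_univ _, ?_⟩
    · have := Finsupp.le_degree i m
      nlinarith
    · ext i; simp [x]
  have hrep : ∀ ψ : MvPolynomial (Fin n) ℂ →ₗ[ℂ] ℂ,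
      (∀ i r, ψ ((X i ^ (e + 1) - g i) * r) = 0) →
      ∀ h, ψ h = ∑ a, τ (h * monomial (x a) 1) * ψ (coeff (x a) Δ) := by
    intro ψ hψ h
    rw [hΔ3 ψ hψ h, Finset.sum_subset hsub, Finset.sum_image fun a _ b _ h => hx h]
    intro m _ hm
    rw [notMem_support_iff.mp hm, map_zero, mul_zero]
  have hJ' : J = ∑ a, coeff (x a) Δ * monomial (x a) 1 := by
    rw [← hΔ1, eval_eq, Finset.sum_subset hsub, Finset.sum_image fun a _ b _ h => hx h]
    · simp only [monomial_eq, C_1, one_mul, Finsupp.prod]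
    · intro m _ hm
      rw [notMem_support_iff.mp hm, zero_mul]
  let M : MvPolynomial (Fin n) ℂ → Matrix _ _ ℂ :=
    fun h => Matrix.of fun a b => τ (h * coeff (x a) Δ * monomial (x b) 1)
  have hmul : ∀ h h', M h * M h' = M (h * h') := by
    intro h h'
    ext a c
    have := hrep (τ ∘ₗ LinearMap.mulRight ℂ (h' * monomial (x c) 1))
      (fun i r => by simpa [mul_assoc] using hτ1 i _) (h * coeff (x a) Δ)
    simp only [LinearMap.comp_apply, LinearMap.mulRight_apply] at this
    simp only [M, Matrix.mul_apply, Matrix.of_apply]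
    rw [show h * h' * coeff (x a) Δ * monomial (x c) 1 =
      h * coeff (x a) Δ * (h' * monomial (x c) 1) by ring, this]
    refine Finset.sum_congr rfl fun b _ => ?_
    congr 2; ring
  have hpow : ∀ k, M u ^ (k + 1) = M (u ^ (k + 1)) := by
    intro k
    induction k with
    | zero => simp
    | succ k ih => rw [pow_succ, ih, hmul, ← pow_succ]
  obtain ⟨Λ, h1, h2, h3⟩ := TraceAux.exists_powsum (M u)
  refine ⟨Λ, by simpa using h1, fun y hy => ?_, fun k e' K hk hu hK => ?_⟩
  · have h4 := hrep (aeval y : MvPolynomial (Fin n) ℂ →ₐ[ℂ] ℂ).toLinearMap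
      (fun i r => by simp [hy i])
    simp only [AlgHom.toLinearMap_apply, aeval_eq_eval] at h4
    refine h2 _ (fun a => eval y (coeff (x a) Δ)) (fun h0 => ?_) (funext fun a => ?_)
    · have h5 := h4 1
      have h6 : ∀ a, eval y (coeff (x a) Δ) = 0 := fun a => congrFun h0 a
      simp [h6] at h5
    · have h5 := h4 (u * coeff (x a) Δ)
      rw [map_mul] at h5
      simp only [M, Matrix.mulVec, dotProduct, Matrix.of_apply, Pi.smul_apply, smul_eq_mul, h5]
  · obtain ⟨k, rfl⟩ : ∃ k', k = k' + 1 := ⟨k - 1, by omega⟩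
    have hJ2 : J ∈ TraceAux.Lt ℂ (n * e + 1) := by
      simpa only [Fintype.card_fin] using TraceAux.det_mem_Lt (e := e)
        (M := Matrix.of fun i j : Fin n => pderiv j (X i ^ (e + 1) - g i)) fun i j =>
        TraceAux.pderiv_mem_Lt (Submodule.sub_mem _ (TraceAux.X_pow_mem_Lt (by omega) i)
          (TraceAux.Lt_mono (by omega) (hg' i))) j
    have h4 := hτ4 (u ^ (k + 1) * J) ((k + 1) * e') K (TraceAux.Lt_mono (by omega)
      (TraceAux.Lt_mul (TraceAux.pow_mem_Lt (TraceAux.mem_Lt_succ.mpr hu) (k + 1)) hJ2)) hK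
    rw [h3, hpow]
    refine Eq.trans ?_ h4
    rw [hJ', Finset.mul_sum, map_sum]
    simp only [M, Matrix.trace, Matrix.diag_apply, Matrix.of_apply, mul_assoc]

end Crest.Agent.R316
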