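import Crest.Agent.R316.Exp
import Crest.Agent.R316.Trace

/-!
# Eliminants of systems `A * y_i ^ d = g_i`
-/

namespace Crest.Agent.R316

open Crest.Agent.Lib.PT MvPolynomial

variable {α σ : Type} [Enc α] [Enc σ]

namespace Elim

/-- The Jacobian of the system `A * y_i ^ d - g_i`. -/
noncomputable def jac {σ : Type} (n d : ℕ) (A : MvPolynomial σ ℤ)
    (g : ℕ → MvPolynomial (σ ⊕ ℕ) ℤ) : MvPolynomial (σ ⊕ ℕ) ℤ :=
  (Matrix.of fun i j : Fin n =>
    pderiv (Sum.inr (j : ℕ)) (rename Sum.inl A * X (Sum.inr (i : ℕ)) ^ d - g i)).det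

/-- One term of the scaled power sum. -/
noncomputable def term {σ : Type} (n d D k : ℕ) (A : MvPolynomial σ ℤ)
    (g : ℕ → MvPolynomial (σ ⊕ ℕ) ℤ) (u : MvPolynomial (σ ⊕ ℕ) ℤ) (κ : ℕ → ℕ) :
    MvPolynomial σ ℤ :=
  if ∑ i ∈ Finset.range n, κ i ≤ k * D then
    A ^ ((n + D) * k - n - ∑ i ∈ Finset.range n, κ i) *
      cfn n (fun i => d * (κ i + 1) - 1) (u ^ k * jac n d A g * ∏ i ∈ Finset.range n, g i ^ κ i)
  else 0

/-- The scaled power sum. -/
noncomputable def psum {σ : Type} (n d D k : ℕ) (A : MvPolynomial σ ℤ)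
    (g : ℕ → MvPolynomial (σ ⊕ ℕ) ℤ) (u : MvPolynomial (σ ⊕ ℕ) ℤ) : MvPolynomial σ ℤ :=
  ∑ c ∈ Finset.range ((k * D + 1) ^ n), term n d D k A g u (dig (k * D + 1) c)

theorem cls_jac {n d : α → ℕ} (hn : CF n) (hb : PB n) (hd : CF d)
    {A : α → MvPolynomial σ ℤ} (hA : Cls A) {g : α → ℕ → MvPolynomial (σ ⊕ ℕ) ℤ}
    (hg : Cls fun x : α × ℕ => g x.1 x.2) : Cls fun a => jac (n a) (d a) (A a) (g a) := by
  have h1 : CF (Sum.inl : σ → σ ⊕ ℕ) := CF.id.inl
  have h2 : Cls fun x : α × ℕ × ℕ => g x.1 x.2.1 :=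
    hg.comp_eq (fun x : α × ℕ × ℕ => (x.1, x.2.1)) (by fun_prop)
  have h3 : Cls fun x : α × ℕ × ℕ =>
      rename Sum.inl (A x.1) * X (Sum.inr x.2.1) ^ d x.1 - g x.1 x.2.1 := by
    have h4 : Cls fun x : α × ℕ × ℕ => A x.1 := hA.comp CF.id.fst
    have h5 : CF fun x : α × ℕ × ℕ => (Sum.inr x.2.1 : σ ⊕ ℕ) := CF.id.snd.fst.inr
    exact ((h4.rename h1).mul ((Cls.X h5).pow (hd.comp CF.id.fst))).sub h2
  exact Cls.det (M := fun a i j => pderiv (Sum.inr j)
    (rename Sum.inl (A a) * X (Sum.inr i) ^ d a - g a i)) hn hb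
    (h3.pderiv (i := fun x : α × ℕ × ℕ => (Sum.inr x.2.2 : σ ⊕ ℕ)) CF.id.snd.snd.inr)

theorem cls_term {n d D k : α → ℕ} (hn : CF n) (hb : PB n) (hd : CF d) (hD : CF D) (hk : CF k)
    {A : α → MvPolynomial σ ℤ} (hA : Cls A) {g : α → ℕ → MvPolynomial (σ ⊕ ℕ) ℤ}
    (hg : Cls fun x : α × ℕ => g x.1 x.2) {u : α → MvPolynomial (σ ⊕ ℕ) ℤ} (hu : Cls u)
    {κ : α → ℕ → ℕ} (hκ : CF fun x : α × ℕ => κ x.1 x.2) :
    Cls fun a => term (n a) (d a) (D a) (k a) (A a) (g a) (u a) (κ a) := by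
  have hs : CF fun a => ∑ i ∈ Finset.range (n a), κ a i := CF.sum_range hn hκ
  have hp : Cls fun a => ∏ i ∈ Finset.range (n a), g a i ^ κ a i :=
    Cls.prod (F := fun a i => g a i ^ κ a i) hn (hg.pow hκ)
  have hP : Cls fun a => u a ^ k a * jac (n a) (d a) (A a) (g a) *
      ∏ i ∈ Finset.range (n a), g a i ^ κ a i :=
    ((hu.pow hk).mul (cls_jac hn hb hd hA hg)).mul hp
  have hμ : CF fun x : α × ℕ => d x.1 * (κ x.1 x.2 + 1) - 1 :=
    ((hd.comp CF.id.fst).nat_mul (hκ.nat_add (CF.const 1))).nat_sub (CF.const 1)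
  have hc := hP.cfn hn hb (μ := fun a i => d a * (κ a i + 1) - 1) hμ
  unfold term
  exact Cls.ite' (hs.nat_le (hk.nat_mul hD))
    ((hA.pow ((((hn.nat_add hD).nat_mul hk).nat_sub hn).nat_sub hs)).mul hc) (Cls.const 0)

theorem cls_psum {n d D k : α → ℕ} (hn : CF n) (hb : PB n) (hd : CF d) (hD : CF D) (hk : CF k)
    {A : α → MvPolynomial σ ℤ} (hA : Cls A) {g : α → ℕ → MvPolynomial (σ ⊕ ℕ) ℤ}
    (hg : Cls fun x : α × ℕ => g x.1 x.2) {u : α → MvPolynomial (σ ⊕ ℕ) ℤ} (hu : Cls u) :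
    Cls fun a => psum (n a) (d a) (D a) (k a) (A a) (g a) (u a) := by
  have hK : CF fun a => k a * D a + 1 := (hk.nat_mul hD).nat_add (CF.const 1)
  have hf : CF fun x : α × ℕ => x.1 := CF.id.fst
  have hg' : Cls fun x : (α × ℕ) × ℕ => g x.1.1 x.2 :=
    hg.comp_eq (fun x : (α × ℕ) × ℕ => (x.1.1, x.2)) (CF.id.fst.fst.pair CF.id.snd)
  have hκ : CF fun x : (α × ℕ) × ℕ => dig (k x.1.1 * D x.1.1 + 1) x.1.2 x.2 :=
    CF.dig (hK.comp CF.id.fst.fst) CF.id.fst.snd CF.id.snd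
  have ht := cls_term (α := α × ℕ) (n := fun x => n x.1) (d := fun x => d x.1)
    (D := fun x => D x.1) (k := fun x => k x.1) (hn.comp hf) (PB_compCF hb hf) (hd.comp hf)
    (hD.comp hf) (hk.comp hf) (A := fun x => A x.1) (hA.comp hf) (g := fun x => g x.1) hg'
    (u := fun x => u x.1) (hu.comp hf)
    (κ := fun x => dig (k x.1 * D x.1 + 1) x.2) hκ
  unfold psum
  exact Cls.sum (F := fun a c => term (n a) (d a) (D a) (k a) (A a) (g a) (u a)
    (dig (k a * D a + 1) c)) (hK.nat_pow hn hb) ht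

section spec

variable {σ : Type} (n d : ℕ) (A : MvPolynomial σ ℤ) (g : ℕ → MvPolynomial (σ ⊕ ℕ) ℤ)
  (z : σ → ℂ)

/-- The normalised right-hand sides. -/
noncomputable def gt (i : Fin n) : MvPolynomial (Fin n) ℂ := C (aeval z A)⁻¹ * upn n z (g i)

theorem det_gt (hA : aeval z A ≠ 0) :
    (Matrix.of fun i j : Fin n => pderiv j (X i ^ d - gt n A g z i)).det =
      C ((aeval z A)⁻¹ ^ n) * upn n z (jac n d A g) := by
  have h1 : (Matrix.of fun i j : Fin n => pderiv j (X i ^ d - gt n A g z i)) =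
      (C (aeval z A)⁻¹ : MvPolynomial (Fin n) ℂ) • (upn n z).toRingHom.mapMatrix
        (Matrix.of fun i j : Fin n =>
          pderiv (Sum.inr (j : ℕ)) (rename Sum.inl A * X (Sum.inr (i : ℕ)) ^ d - g i)) := by
    ext1 i j
    simp only [Matrix.of_apply, Matrix.smul_apply, RingHom.mapMatrix_apply, Matrix.map_apply,
      AlgHom.toRingHom_eq_coe, RingHom.coe_coe, smul_eq_mul]
    rw [upn_pderiv, ← pderiv_C_mul]
    congr 1
    simp only [map_sub, map_mul, map_pow, upn_rename_inl, upn_X_inr, gt]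
    rw [mul_sub, ← mul_assoc, ← C_mul, inv_mul_cancel₀ hA, C_1, one_mul]
  rw [h1, Matrix.det_smul, ← RingHom.map_det, Fintype.card_fin, map_pow]
  rfl

theorem aeval_term (hA : aeval z A ≠ 0) (D k : ℕ) (hk : 1 ≤ k) (u : MvPolynomial (σ ⊕ ℕ) ℤ)
    (κ : ℕ → ℕ) :
    aeval z (term n d D k A g u κ) = (aeval z A ^ (n + D)) ^ k *
      if ∑ i : Fin n, κ i ≤ k * D then
        coeff (Finsupp.equivFunOnFinite.symm fun i : Fin n => d * (κ i + 1) - 1)
          (upn n z u ^ k * (Matrix.of fun i j : Fin n => pderiv j (X i ^ d - gt n A g z i)).det *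
            ∏ i : Fin n, gt n A g z i ^ κ i)
      else 0 := by
  unfold term
  rw [Finset.sum_range]
  split_ifs with h
  · rw [map_mul, map_pow, aeval_cfn, det_gt n d A g z hA, Finset.prod_range]
    have h1 : upn n z u ^ k * (C ((aeval z A)⁻¹ ^ n) * upn n z (jac n d A g)) *
        ∏ i : Fin n, gt n A g z i ^ κ i =
        C ((aeval z A)⁻¹ ^ (n + ∑ i : Fin n, κ i)) *
          upn n z (u ^ k * jac n d A g * ∏ i : Fin n, g i ^ κ i) := by
      simp only [gt, mul_pow, Finset.prod_mul_distrib, Finset.prod_pow_eq_pow_sum, map_mul,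
        map_pow, map_prod, pow_add]
      ring
    rw [h1, coeff_C_mul, ← mul_assoc]
    congr 1
    have h2 : n + ∑ i : Fin n, κ i ≤ (n + D) * k := by nlinarith
    rw [← pow_mul, Nat.sub_sub, inv_pow, pow_sub₀ _ hA h2]
  · simp

theorem aeval_psum (hA : aeval z A ≠ 0) (D k : ℕ) (hk : 1 ≤ k) (u : MvPolynomial (σ ⊕ ℕ) ℤ) :
    aeval z (psum n d D k A g u) = (aeval z A ^ (n + D)) ^ k *
      ∑ κ ∈ Fintype.piFinset (fun _ : Fin n => Finset.range (k * D + 1)),
        if ∑ i, κ i ≤ k * D then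
          coeff (Finsupp.equivFunOnFinite.symm fun i : Fin n => d * (κ i + 1) - 1)
            (upn n z u ^ k * (Matrix.of fun i j : Fin n => pderiv j (X i ^ d - gt n A g z i)).det *
              ∏ i : Fin n, gt n A g z i ^ κ i)
        else 0 := by
  rw [sum_box, psum, map_sum, Finset.mul_sum]
  exact Finset.sum_congr rfl fun c _ => aeval_term n d A g z hA D k hk u _

theorem exists_multiset (hd : 2 ≤ d) (hA : aeval z A ≠ 0) (hg : ∀ i < n, (g i).totalDegree < d)
    (D : ℕ) (u : MvPolynomial (σ ⊕ ℕ) ℤ) (hu : u.totalDegree ≤ D) :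
    ∃ Λ : Multiset ℂ, Λ.card = (n * d + 1) ^ n ∧
      (∀ k, 1 ≤ k → aeval z (psum n d D k A g u) = (Λ.map (· ^ k)).sum) ∧
      ∀ y : Fin n → ℂ, (∀ i : Fin n, aeval z A * y i ^ d = aeval (Sum.elim z (extn y)) (g i)) →
        aeval z A ^ (n + D) * aeval (Sum.elim z (extn y)) u ∈ Λ := by
  have hgt : ∀ i, (gt n A g z i).totalDegree < d := fun i => by
    refine lt_of_le_of_lt ?_ (hg i i.2)
    refine (totalDegree_mul _ _).trans ?_
    rw [totalDegree_C, zero_add]
    exact totalDegree_upn_le n z _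
  obtain ⟨Λ, h1, h2, h3⟩ := trace_formula n d hd (gt n A g z) hgt (upn n z u)
  refine ⟨Λ.map (aeval z A ^ (n + D) * ·), by rw [Multiset.card_map, h1], fun k hk => ?_,
    fun y hy => ?_⟩
  · rw [aeval_psum n d A g z hA D k hk,
      ← h3 k D (k * D + 1) hk ((totalDegree_upn_le n z u).trans hu) (Nat.lt_succ_self _),
      Multiset.map_map, ← Multiset.sum_map_mul_left]
    simp only [Function.comp_def, mul_pow]
  · refine Multiset.mem_map_of_mem _ ?_
    rw [← eval_upn]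
    refine h2 y fun i => ?_
    rw [gt, map_mul, eval_C, eval_upn, ← hy i, ← mul_assoc, inv_mul_cancel₀ hA, one_mul]

end spec

end Elim

/-- A nonzero univariate polynomial vanishing at the values of `u` at all solutions. -/
theorem exists_elim {n d : α → ℕ} (hn : CF n) (hb : PB n) (hd : CF d)
    {A : α → MvPolynomial σ ℤ} (hA : Cls A) {g : α → ℕ → MvPolynomial (σ ⊕ ℕ) ℤ}
    (hg : Cls fun x : α × ℕ => g x.1 x.2) {u : α → MvPolynomial (σ ⊕ ℕ) ℤ} (hu : Cls u) :
    ∃ N : α → MvPolynomial (Option σ) ℤ, Cls N ∧ ∀ a (z : σ → ℂ), 2 ≤ d a →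
      aeval z (A a) ≠ 0 → (∀ i < n a, (g a i).totalDegree < d a) →
      up z (N a) ≠ 0 ∧ ∀ y : Fin (n a) → ℂ,
        (∀ i : Fin (n a), aeval z (A a) * y i ^ d a = aeval (Sum.elim z (extn y)) (g a i)) →
        (up z (N a)).eval (aeval (Sum.elim z (extn y)) (u a)) = 0 := by
  obtain ⟨D, hD, hDu⟩ := hu.deg_bound
  have hf : CF fun x : α × ℕ => x.1 := CF.id.fst
  have hg' : Cls fun x : (α × ℕ) × ℕ => g x.1.1 x.2 :=
    hg.comp_eq (fun x : (α × ℕ) × ℕ => (x.1.1, x.2)) (CF.id.fst.fst.pair CF.id.snd)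
  have hp := Elim.cls_psum (α := α × ℕ) (n := fun x => n x.1) (d := fun x => d x.1)
    (D := fun x => D x.1) (k := fun x => x.2) (hn.comp hf) (PB_compCF hb hf) (hd.comp hf)
    (hD.comp hf) CF.id.snd (A := fun x => A x.1) (hA.comp hf) (g := fun x => g x.1) hg'
    (u := fun x => u x.1) (hu.comp hf)
  have hM : CF fun a => (n a * d a + 1) ^ n a :=
    ((hn.nat_mul hd).nat_add (CF.const 1)).nat_pow hn hb
  obtain ⟨E, hE, hE'⟩ := exists_charpoly hp hM
  refine ⟨fun a => ∑ j ∈ Finset.range ((n a * d a + 1) ^ n a + 1),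
    rename some (E (a, j) * (A a ^ (n a + D a)) ^ j) * X none ^ j, ?_, fun a z h2 hz hdeg => ?_⟩
  · refine Cls.sum (F := fun a j => rename some (E (a, j) * (A a ^ (n a + D a)) ^ j) * X none ^ j)
      (hM.nat_add (CF.const 1)) ?_
    exact ((hE.mul (((hA.pow (hn.nat_add hD)).comp hf).pow CF.id.snd)).rename CF.id.some).mul
      ((Cls.const (X none)).pow CF.id.snd)
  · obtain ⟨c, hc, hc'⟩ := hE' a
    obtain ⟨Λ, h1, h3, h4⟩ := Elim.exists_multiset (n a) (d a) (A a) (g a) z h2 hz hdeg (D a)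
      (u a) (hDu a)
    have h5 := hc' z Λ h1 fun k hk _ => h3 k hk
    set Q := (Λ.map fun l => Polynomial.X - Polynomial.C l).prod with hQ
    have hQm : Q.Monic := Polynomial.monic_multiset_prod_of_monic _ _ fun l _ =>
      Polynomial.monic_X_sub_C l
    have hQd : Q.natDegree = (n a * d a + 1) ^ n a := by
      rw [hQ, Polynomial.natDegree_multiset_prod_X_sub_C_eq_card, h1]
    have h6 : up z (∑ j ∈ Finset.range ((n a * d a + 1) ^ n a + 1),
        rename some (E (a, j) * (A a ^ (n a + D a)) ^ j) * X none ^ j) =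
        ∑ j ∈ Finset.range ((n a * d a + 1) ^ n a + 1),
          Polynomial.C (c * Q.coeff j * (aeval z (A a) ^ (n a + D a)) ^ j) * Polynomial.X ^ j := by
      rw [map_sum]
      refine Finset.sum_congr rfl fun j _ => ?_
      rw [map_mul, up_rename_some, map_pow, up_X_none, map_mul, h5, map_pow, map_pow]
    simp only []
    rw [h6]
    constructor
    · intro h0
      have h7 := congrArg (fun P => Polynomial.coeff P ((n a * d a + 1) ^ n a)) h0
      simp only [Polynomial.finsetSum_coeff, Polynomial.coeff_C_mul_X_pow, Finset.sum_ite_eq,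
        Finset.mem_range, Nat.lt_succ_self, if_true, Polynomial.coeff_zero] at h7
      have h8 : Q.coeff ((n a * d a + 1) ^ n a) = 1 := by rw [← hQd]; exact hQm.coeff_natDegree
      rw [h8, mul_one] at h7
      exact mul_ne_zero (Nat.cast_ne_zero.2 hc.ne') (pow_ne_zero _ (pow_ne_zero _ hz)) h7
    · intro y hy
      have h7 : Q.eval (aeval z (A a) ^ (n a + D a) * aeval (Sum.elim z (extn y)) (u a)) = 0 := by
        rw [hQ, Polynomial.eval_multiset_prod, Multiset.map_map]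
        refine Multiset.prod_eq_zero (Multiset.mem_map.2 ⟨_, h4 y hy, ?_⟩)
        simp only [Function.comp_apply, Polynomial.eval_sub, Polynomial.eval_X, Polynomial.eval_C,
          sub_self]
      rw [Polynomial.eval_eq_sum_range, hQd] at h7
      rw [Polynomial.eval_finsetSum]
      simp only [Polynomial.eval_mul, Polynomial.eval_C, Polynomial.eval_pow, Polynomial.eval_X]
      calc _ = (c : ℂ) * ∑ j ∈ Finset.range ((n a * d a + 1) ^ n a + 1), Q.coeff j *
            (aeval z (A a) ^ (n a + D a) * aeval (Sum.elim z (extn y)) (u a)) ^ j := by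
            rw [Finset.mul_sum]
            refine Finset.sum_congr rfl fun j _ => ?_
            rw [mul_pow]; ring
        _ = 0 := by rw [h7, mul_zero]

end Crest.Agent.R316
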