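import Crest.Agent.R316.GoodBasic

/-!
# The quantifier "for all large `C`"
-/

namespace Crest.Agent.R316

open Crest.Agent.Lib.PT MvPolynomial Filter Topology

variable {α σ : Type} [Enc α] [Enc σ]

namespace Inf

/-- Cauchy's bound for the roots. -/
theorem eval_ne_zero {p : Polynomial ℝ} (hp : p ≠ 0) {M : ℝ} (hM : 0 ≤ M)
    (h : ∀ k < p.natDegree, |p.coeff k| ≤ M * |p.leadingCoeff|) {C : ℝ} (hC : M + 1 ≤ C) :
    p.eval C ≠ 0 := by
  intro h0
  have h1 := Polynomial.IsRoot.norm_lt_cauchyBound hp h0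
  have hl : 0 < ‖p.leadingCoeff‖₊ := nnnorm_pos.2 (Polynomial.leadingCoeff_ne_zero.2 hp)
  lift M to NNReal using hM
  have h2 : Polynomial.cauchyBound p ≤ M + 1 := by
    unfold Polynomial.cauchyBound
    gcongr
    rw [div_le_iff₀ hl]
    exact Finset.sup_le fun k hk => h k (Finset.mem_range.1 hk)
  have h3 : ‖C‖ < M + 1 := h1.trans_le h2
  exact absurd ((le_abs_self C).trans_lt h3) (not_lt.2 hC)

omit [Enc σ] in
theorem continuous_aeval (P : MvPolynomial σ ℤ) : Continuous fun z : σ → ℝ => aeval z P := by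
  induction P using MvPolynomial.induction_on with
  | C a => simpa using continuous_const
  | add p q hp hq => simp only [map_add]; exact hp.add hq
  | mul_X p i hp => simp only [map_mul, aeval_X]; exact hp.mul (continuous_apply i)

omit [Enc σ] in
theorem continuous_pt :
    Continuous fun x : ℝ × (σ → ℝ) => fun o : Option σ => o.elim x.1 x.2 := by
  refine continuous_pi fun o => ?_
  cases o with
  | none => exact continuous_fst
  | some i => exact (continuous_apply i).comp continuous_snd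

omit [Enc σ] in
/-- Beyond all roots, membership does not depend on `C`. -/
theorem eventually_iff {S : Set (MvPolynomial (Option σ) ℤ)} {T : Set (Option σ → ℝ)}
    (hI : Inv S T) (z : σ → ℝ) (C₁ : ℝ)
    (h : ∀ B ∈ S, up z B ≠ 0 → ∀ C, C₁ ≤ C → (up z B).eval C ≠ 0) :
    (∀ᶠ C in atTop, (fun o : Option σ => o.elim C z) ∈ T) ↔
      (fun o : Option σ => o.elim C₁ z) ∈ T := by
  have key : ∀ C, C₁ ≤ C → ∀ B ∈ S,
      (aeval (fun o : Option σ => o.elim C z) B = 0 ↔ up z B = 0) := fun C hC B hB => by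
    rw [← eval_up]
    exact ⟨fun h0 => by_contra fun h1 => h B hB h1 C hC h0, fun h0 => by simp [h0]⟩
  have hc : ∀ C, C₁ ≤ C → ((fun o : Option σ => o.elim C z) ∈ T ↔
      (fun o : Option σ => o.elim C₁ z) ∈ T) := fun C hC => by
    refine isPreconnected_Ici.induction₂' (s := Set.Ici C₁)
      (fun x y => (fun o : Option σ => o.elim x z) ∈ T ↔ (fun o : Option σ => o.elim y z) ∈ T)
      (fun x hx => ?_) (fun _ _ _ _ _ _ h1 h2 => h1.trans h2) hC Set.self_mem_Ici
    have ht : Tendsto (fun y : ℝ => fun o : Option σ => o.elim y z) (𝓝 x)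
        (𝓝 fun o : Option σ => o.elim x z) :=
      (continuous_pt.comp (continuous_id.prodMk continuous_const)).tendsto x
    filter_upwards [nhdsWithin_le_nhds (ht.eventually (hI _)), self_mem_nhdsWithin] with y hy hy'
    have := hy fun B hB => (key y hy' B hB).trans (key x hx B hB).symm
    exact ⟨this.symm, this⟩
  refine ⟨fun h1 => ?_, fun h1 => (eventually_ge_atTop C₁).mono fun C hC => (hc C hC).2 h1⟩
  obtain ⟨C, h2, h3⟩ := (h1.and (eventually_ge_atTop C₁)).exists
  exact (hc C h3).1 h2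

omit [Enc σ] in
/-- A locally uniform bound for the roots on a stratum of the coefficients. -/
theorem eventually_roots (B : MvPolynomial (Option σ) ℤ) (z₀ : σ → ℝ) :
    ∀ᶠ C₁ in atTop, ∀ᶠ z in 𝓝 z₀, (∀ k, (up z B).coeff k = 0 ↔ (up z₀ B).coeff k = 0) →
      up z B ≠ 0 → ∀ C : ℝ, C₁ ≤ C → (up z B).eval C ≠ 0 := by
  by_cases h0 : up z₀ B = 0
  · refine Eventually.of_forall fun _ => Eventually.of_forall fun z hz h1 => absurd ?_ h1
    ext k
    simpa [h0] using hz k
  have hl : 0 < |(up z₀ B).coeff (up z₀ B).natDegree| :=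
    abs_pos.2 (Polynomial.leadingCoeff_ne_zero.2 h0)
  have h1 : ∀ᶠ C₁ : ℝ in atTop, ∀ k ∈ Finset.range (up z₀ B).natDegree,
      |(up z₀ B).coeff k| < (C₁ - 1) * |(up z₀ B).coeff (up z₀ B).natDegree| :=
    (eventually_all_finset _).2 fun k _ =>
      ((tendsto_atTop_add_const_right _ (-1) tendsto_id).atTop_mul_const hl).eventually_gt_atTop _
  filter_upwards [h1, eventually_ge_atTop 1] with C₁ h2 h3
  have hc : ∀ k, Continuous fun z : σ → ℝ => |(up z B).coeff k| := fun k => by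
    simpa only [aeval_cf1] using (continuous_aeval (cf1 k B)).abs
  have h4 : ∀ᶠ z in 𝓝 z₀, ∀ k ∈ Finset.range (up z₀ B).natDegree,
      |(up z B).coeff k| < (C₁ - 1) * |(up z B).coeff (up z₀ B).natDegree| :=
    (eventually_all_finset _).2 fun k hk =>
      (hc k).continuousAt.eventually_lt (continuous_const.mul (hc _)).continuousAt (h2 k hk)
  filter_upwards [h4] with z hz hz' hne C hC
  have hd : (up z B).natDegree = (up z₀ B).natDegree := by
    have : (up z B).support = (up z₀ B).support := by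
      ext k
      simp only [Polynomial.mem_support_iff, ne_eq, hz' k]
    rw [Polynomial.natDegree, Polynomial.natDegree, Polynomial.degree, Polynomial.degree, this]
  refine eval_ne_zero hne (M := C₁ - 1) (by linarith) (fun k hk => ?_) (by linarith)
  rw [Polynomial.leadingCoeff, hd]
  exact (hz k (Finset.mem_range.2 (hd ▸ hk))).le

end Inf

theorem Good.eventually {T : α → Set (Option σ → ℝ)} (h : Good T) :
    Good fun a => {z : σ → ℝ | ∀ᶠ C in atTop, (fun o : Option σ => o.elim C z) ∈ T a} := by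
  obtain ⟨S, ⟨N, B, hN, hB, hS⟩, hI⟩ := h.strat
  obtain ⟨D, hD, hBD⟩ := hB.deg_bound
  have hD1 : CF fun x => D x + 1 := hD.nat_add (CF.const 1)
  have hcf : Cls fun x : (α × ℕ) × ℕ => cf1 x.2 (B x.1) := (hB.comp CF.id.fst).cf1 CF.id.snd
  refine ⟨⟨fun a => {P | ∃ l < N a, P ∈ {P | ∃ k < D (a, l) + 1, P = cf1 k (B (a, l))}},
    Fam.biUnion (S := fun a l => {P | ∃ k < D (a, l) + 1, P = cf1 k (B (a, l))}) hN
      (Fam.range (B := fun x k => cf1 k (B x)) hD1 hcf), fun a z₀ => ?_⟩,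
    fun β _ f ξ hf hξ => ?_⟩
  · obtain ⟨C₁, hC₁⟩ := ((eventually_all_finset (Finset.range (N a))).2 fun l _ =>
      Inf.eventually_roots (B (a, l)) z₀).exists
    have h1 := (eventually_all_finset (Finset.range (N a))).2 hC₁
    have h2 : ∀ P ∈ S a, up z₀ P ≠ 0 → ∀ C, C₁ ≤ C → (up z₀ P).eval C ≠ 0 := fun P hP => by
      obtain ⟨l, hl, rfl⟩ := hS a P hP
      exact h1.self_of_nhds l (Finset.mem_range.2 hl) fun _ => Iff.rfl
    have ht : Tendsto (fun z : σ → ℝ => fun o : Option σ => o.elim C₁ z) (𝓝 z₀)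
        (𝓝 fun o : Option σ => o.elim C₁ z₀) :=
      (Inf.continuous_pt.comp (continuous_const.prodMk continuous_id)).tendsto z₀
    filter_upwards [h1, ht.eventually (hI a _)] with z hz hz' hpat
    have h3 : ∀ l < N a, ∀ k, (up z (B (a, l))).coeff k = 0 ↔ (up z₀ (B (a, l))).coeff k = 0 := by
      intro l hl k
      rw [← aeval_cf1, ← aeval_cf1]
      by_cases hk : k < D (a, l) + 1
      · exact hpat _ ⟨l, hl, k, hk, rfl⟩
      · rw [cf1_eq_zero ((hBD (a, l)).trans_lt (by omega))]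
        simp
    have h4 : ∀ P ∈ S a, up z P ≠ 0 → ∀ C, C₁ ≤ C → (up z P).eval C ≠ 0 := fun P hP => by
      obtain ⟨l, hl, rfl⟩ := hS a P hP
      exact hz l (Finset.mem_range.2 hl) (h3 l hl)
    refine ((Inf.eventually_iff (hI a) z C₁ h4).trans (hz' fun P hP => ?_)).trans
      (Inf.eventually_iff (hI a) z₀ C₁ h2).symm
    have h5 : up z P = 0 ↔ up z₀ P = 0 := by
      obtain ⟨l, hl, rfl⟩ := hS a P hP
      simp only [Polynomial.ext_iff, Polynomial.coeff_zero, h3 l hl]
    rw [← eval_up, ← eval_up]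
    by_cases h6 : up z P = 0
    · simp [h6, h5.1 h6]
    · exact iff_of_false (h4 P hP h6 C₁ le_rfl) (h2 P hP (mt h5.2 h6) C₁ le_rfl)
  · have hg : CF fun x : (β × ℕ) × ℕ => x.1.1 := CF.id.fst.fst
    have hfl : CF fun x : β × ℕ => (f x.1, x.2) := (hf.comp CF.id.fst).pair CF.id.snd
    have hP : Cls fun x : (β × ℕ) × ℕ => cf1 x.2 (B (f x.1.1, x.1.2)) :=
      (hB.comp (g := fun x : (β × ℕ) × ℕ => (f x.1.1, x.1.2))
        ((hf.comp hg).pair CF.id.fst.snd)).cf1 CF.id.snd
    obtain ⟨c₁, hc₁, hgap⟩ := hξ.gap _ _ _ hg hP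
    obtain ⟨c₂, hc₂, habs⟩ := hξ.abs_le hg hP
    obtain ⟨b₁, -, hb₁, hcb⟩ := PB_sup (hD1.comp hfl) (hc₁.add hc₂)
    obtain ⟨b, hb, hb', hbb⟩ := PB_sup (hN.comp hf) hb₁
    have hQ : Cls fun e => (2 : MvPolynomial σ ℤ) ^ 2 ^ (b e + 1) + 1 :=
      ((Cls.const 2).pow ((CF.const 2).nat_pow ((PT_cf hb).nat_add (CF.const 1))
        (hb'.add (PB.const 1)))).add (Cls.const 1)
    refine (h.dec β f _ hf (hξ.option hQ)).of_iff fun e => ?_
    refine (Inf.eventually_iff (hI (f e)) (ξ e) _ fun P hP hne C hC => ?_).symm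
    obtain ⟨l, hl, rfl⟩ := hS _ P hP
    have hm : ∀ {m n : ℕ}, m ≤ n → (2 : ℝ) ^ 2 ^ m ≤ 2 ^ 2 ^ n := fun hmn =>
      pow_le_pow_right₀ one_le_two (Nat.pow_le_pow_right two_pos hmn)
    have hd : (up (ξ e) (B (f e, l))).natDegree < D (f e, l) + 1 :=
      Nat.lt_succ_of_le ((natDegree_up_le _ _).trans (hBD _))
    have h1 : ∀ k < D (f e, l) + 1, c₁ ((e, l), k) + c₂ ((e, l), k) ≤ b e := fun k hk =>
      (hcb (e, l) k hk).trans (hbb e l hl)
    refine Inf.eval_ne_zero hne (M := 2 ^ 2 ^ (b e + 1)) (by positivity) (fun k hk => ?_)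
      (by simpa using hC)
    have h2 := habs ((e, l), k)
    have h3 := hgap ((e, l), (up (ξ e) (B (f e, l))).natDegree)
    simp only [aeval_cf1] at h2 h3
    have h4 := h3 (Polynomial.leadingCoeff_ne_zero.2 hne)
    have h5 := hm ((Nat.le_add_left _ _).trans (h1 k (hk.trans hd)))
    have h6 := hm ((Nat.le_add_right _ _).trans (h1 _ hd))
    rw [pow_succ, pow_mul, sq, mul_assoc]
    calc _ ≤ (2 : ℝ) ^ 2 ^ b e * 1 := by rw [mul_one]; exact h2.trans h5
      _ ≤ _ := by
        gcongr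
        exact h4.trans (mul_le_mul_of_nonneg_right h6 (abs_nonneg _))

end Crest.Agent.R316
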