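import Crest.Agent.R316.Cls2

/-!
# Sample points: limits of local minima of one penalty function; limits of roots
-/

namespace Crest.Agent.R316

open MvPolynomial Filter Topology

/-- The penalty function. -/
def penalty {K : Type} [CommRing K] (n L d : ℕ) (b y : ℕ → K) (C ε : K) : K :=
  (∏ l ∈ Finset.range L, (ε + b l ^ 4)) * (∑ i ∈ Finset.range n, y i ^ 2 - C) +
    ∑ l ∈ Finset.range L, b l ^ 2 * ∏ l' ∈ Finset.range L, (if l' = l then 1 else ε + b l' ^ 4) +
    ε ^ (L + 1) * ∑ i ∈ Finset.range n, y i ^ (2 * d)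

namespace Sample

theorem penalty_eq (n L d : ℕ) (b y : ℕ → ℝ) (C ε : ℝ) (hε : 0 < ε) :
    penalty n L d b y C ε = (∏ l ∈ Finset.range L, (ε + b l ^ 4)) *
      (∑ i ∈ Finset.range n, y i ^ 2 + ∑ l ∈ Finset.range L, b l ^ 2 / (ε + b l ^ 4) - C) +
      ε ^ (L + 1) * ∑ i ∈ Finset.range n, y i ^ (2 * d) := by
  unfold penalty
  have : ∑ l ∈ Finset.range L, b l ^ 2 *
      ∏ l' ∈ Finset.range L, (if l' = l then 1 else ε + b l' ^ 4)
      = (∏ l ∈ Finset.range L, (ε + b l ^ 4)) *
        ∑ l ∈ Finset.range L, b l ^ 2 / (ε + b l ^ 4) := by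
    rw [Finset.mul_sum]
    refine Finset.sum_congr rfl fun l hl => ?_
    rw [← Finset.mul_prod_erase _ _ hl, ← Finset.mul_prod_erase _ (fun l => ε + b l ^ 4) hl,
      if_pos rfl, Finset.prod_congr rfl fun l' hl' => if_neg (Finset.ne_of_mem_erase hl')]
    have : ε + b l ^ 4 ≠ 0 := by positivity
    field_simp
  rw [this]; ring

theorem continuous_extn (n i : ℕ) : Continuous fun x : Fin n → ℝ => extn x i := by
  unfold extn
  split_ifs
  · exact continuous_apply _
  · exact continuous_const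

theorem continuous_penalty (n L d : ℕ) (b : ℕ → (Fin n → ℝ) → ℝ) (hb : ∀ l, Continuous (b l))
    (C ε : ℝ) : Continuous fun x => penalty n L d (fun l => b l x) (extn x) C ε := by
  have := continuous_extn n
  unfold penalty
  refine Continuous.add (Continuous.add (by fun_prop) (continuous_finsetSum _ fun l _ =>
    Continuous.mul (by fun_prop) (continuous_finsetProd _ fun l' _ => ?_))) (by fun_prop)
  split_ifs <;> fun_prop

theorem even_sum_nonneg (n d : ℕ) (y : ℕ → ℝ) : 0 ≤ ∑ i ∈ Finset.range n, y i ^ (2 * d) :=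
  Finset.sum_nonneg fun i _ => by rw [pow_mul]; positivity

theorem penalty_neg (n L d : ℕ) (b y : ℕ → ℝ) (C ε : ℝ) (hε : 0 < ε)
    (hC : ∑ i ∈ Finset.range n, y i ^ 2 + ∑ l ∈ Finset.range L, 1 / b l ^ 2 + 1 ≤ C)
    (h : ε * ∑ i ∈ Finset.range n, y i ^ (2 * d) < 1) : penalty n L d b y C ε < 0 := by
  rw [penalty_eq _ _ _ _ _ _ _ hε]
  have h1 : ∑ l ∈ Finset.range L, b l ^ 2 / (ε + b l ^ 4) ≤ ∑ l ∈ Finset.range L, 1 / b l ^ 2 := by
    refine Finset.sum_le_sum fun l _ => ?_
    by_cases h0 : b l = 0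
    · simp [h0]
    · rw [div_le_div_iff₀ (by positivity) (by positivity)]
      nlinarith
  have h2 : ε ^ L ≤ ∏ l ∈ Finset.range L, (ε + b l ^ 4) := by
    have : ε ^ L = ∏ _l ∈ Finset.range L, ε := by simp
    rw [this]
    exact Finset.prod_le_prod (fun _ _ => hε.le) fun l _ => le_add_of_nonneg_right (by positivity)
  have h3 : 0 < ε ^ L := by positivity
  have h4 := mul_lt_mul_of_pos_left h h3
  have h5 : (∏ l ∈ Finset.range L, (ε + b l ^ 4)) *
      (∑ i ∈ Finset.range n, y i ^ 2 + ∑ l ∈ Finset.range L, b l ^ 2 / (ε + b l ^ 4) - C)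
      ≤ (∏ l ∈ Finset.range L, (ε + b l ^ 4)) * (-1) :=
    mul_le_mul_of_nonneg_left (by linarith) (by linarith)
  rw [pow_succ, mul_assoc]
  linarith

theorem of_penalty_neg (n L d : ℕ) (b y : ℕ → ℝ) (C ε : ℝ) (hε : 0 < ε)
    (h : penalty n L d b y C ε < 0) : ∑ i ∈ Finset.range n, y i ^ 2 ≤ C ∧
      ∀ l < L, b l ^ 2 ≤ C * (ε + b l ^ 4) := by
  rw [penalty_eq _ _ _ _ _ _ _ hε] at h
  have h1 : 0 < ∏ l ∈ Finset.range L, (ε + b l ^ 4) := Finset.prod_pos fun l _ => by positivity
  have h2 := mul_nonneg (pow_pos hε (L + 1)).le (even_sum_nonneg n d y)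
  have h3 : ∑ i ∈ Finset.range n, y i ^ 2 + ∑ l ∈ Finset.range L, b l ^ 2 / (ε + b l ^ 4) - C < 0 :=
    (neg_of_mul_neg_left (by linarith) h1.le)
  have h4 : 0 ≤ ∑ i ∈ Finset.range n, y i ^ 2 := Finset.sum_nonneg fun _ _ => by positivity
  have h5 : 0 ≤ ∑ l ∈ Finset.range L, b l ^ 2 / (ε + b l ^ 4) :=
    Finset.sum_nonneg fun _ _ => by positivity
  refine ⟨by linarith, fun l hl => ?_⟩
  have h6 : b l ^ 2 / (ε + b l ^ 4) ≤ ∑ l ∈ Finset.range L, b l ^ 2 / (ε + b l ^ 4) :=
    Finset.single_le_sum (f := fun l => b l ^ 2 / (ε + b l ^ 4)) (fun _ _ => by positivity)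
      (Finset.mem_range.2 hl)
  rw [← div_le_iff₀ (by positivity)]
  linarith

theorem small {u C ε : ℝ} (hC : 0 < C) (hu : 0 ≤ u) (h : u ≤ C * (ε + u ^ 2))
    (h2 : u < 1 / (2 * C)) : u ≤ 2 * C * ε := by
  rw [lt_div_iff₀ (by positivity)] at h2
  nlinarith

end Sample

open Sample in
/-- A nonempty set that is locally constant on the strata of `b` contains, for all large `C`, a
limit of local minima of the penalty function as `ε → 0`. -/
theorem exists_localMin (n L d : ℕ) (b : ℕ → (Fin n → ℝ) → ℝ) (hb : ∀ l, Continuous (b l))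
    (T : Set (Fin n → ℝ))
    (hT : ∀ y, ∀ᶠ y' in 𝓝 y, (∀ l < L, b l y' = 0 ↔ b l y = 0) → (y' ∈ T ↔ y ∈ T))
    (hne : T.Nonempty) :
    ∀ᶠ C in atTop, ∃ ys ∈ T, ∃ (ε : ℕ → ℝ) (y : ℕ → Fin n → ℝ), (∀ k, 0 < ε k) ∧
      Tendsto ε atTop (𝓝 0) ∧ Tendsto y atTop (𝓝 ys) ∧
      ∀ k, IsLocalMin (fun x => penalty n L d (fun l => b l x) (extn x) C (ε k)) (y k) := by
  obtain ⟨y0, hy0⟩ := hne
  filter_upwards [eventually_ge_atTop
    (∑ i ∈ Finset.range n, extn y0 i ^ 2 + ∑ l ∈ Finset.range L, 1 / b l y0 ^ 2 + 1)] with C hC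
  have p1 : 0 ≤ ∑ i ∈ Finset.range n, extn y0 i ^ 2 := Finset.sum_nonneg fun _ _ => by positivity
  have p2 : 0 ≤ ∑ l ∈ Finset.range L, 1 / b l y0 ^ 2 := Finset.sum_nonneg fun _ _ => by positivity
  have hC1 : 1 ≤ C := by linarith
  have hC0 : 0 < C := by linarith
  have hx := continuous_extn n
  set K : Set (Fin n → ℝ) := {y | ∑ i ∈ Finset.range n, extn y i ^ 2 ≤ C ∧
    ∀ l < L, (b l y0 = 0 → b l y = 0) ∧ (b l y0 ≠ 0 → 1 / (2 * C) ≤ b l y ^ 2)} with hK
  have Kcl : IsClosed K := by
    simp only [hK, Set.ofPred_and, Set.ofPred_forall]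
    exact (isClosed_le (by fun_prop) continuous_const).inter (isClosed_iInter fun l =>
      isClosed_iInter fun _ => (isClosed_iInter fun _ => isClosed_eq (hb l) continuous_const).inter
        (isClosed_iInter fun _ => isClosed_le continuous_const (by fun_prop)))
  have Kc : IsCompact K := by
    refine Metric.isCompact_of_isClosed_isBounded Kcl
      ((Metric.isBounded_closedBall (x := 0) (r := C)).subset fun y hy => ?_)
    rw [mem_closedBall_zero_iff, pi_norm_le_iff_of_nonneg hC0.le]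
    intro j
    have h1 : extn y j ^ 2 ≤ ∑ i ∈ Finset.range n, extn y i ^ 2 :=
      Finset.single_le_sum (f := fun i => extn y i ^ 2) (fun _ _ => by positivity)
        (Finset.mem_range.2 j.2)
    rw [extn_val] at h1
    have h2 := hy.1
    rw [Real.norm_eq_abs]
    exact abs_le_of_sq_le_sq (by nlinarith) hC0.le
  have hy0K : y0 ∈ K := by
    refine ⟨by linarith, fun l hl => ⟨id, fun h0 => ?_⟩⟩
    have h1 : 1 / b l y0 ^ 2 ≤ ∑ l ∈ Finset.range L, 1 / b l y0 ^ 2 :=
      Finset.single_le_sum (f := fun l => 1 / b l y0 ^ 2) (fun _ _ => by positivity)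
        (Finset.mem_range.2 hl)
    rw [one_div_le (by positivity) (by positivity)]
    linarith
  have hpat : ∀ y ∈ K, ∀ l < L, (b l y = 0 ↔ b l y0 = 0) := by
    intro y hy l hl
    refine ⟨fun h => ?_, (hy.2 l hl).1⟩
    by_contra h0
    have := (hy.2 l hl).2 h0
    rw [h] at this
    have : 0 < 1 / (2 * C) := by positivity
    linarith
  have hloc : ∀ y ∈ K, ∀ᶠ y' in 𝓝 y, y' ∈ K → (y' ∈ T ↔ y ∈ T) := fun y hy =>
    (hT y).mono fun y' h hy' => h fun l hl => (hpat y' hy' l hl).trans (hpat y hy l hl).symm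
  have K1 : IsClosed (K ∩ T) := isClosed_iff_frequently.2 fun y hy => by
    have h1 : y ∈ K := isClosed_iff_frequently.1 Kcl y (hy.mono fun _ h => h.1)
    obtain ⟨y', h2, h3⟩ := (hy.and_eventually (hloc y h1)).exists
    exact ⟨h1, (h3 h2.1).1 h2.2⟩
  have K2 : IsClosed (K \ T) := isClosed_iff_frequently.2 fun y hy => by
    have h1 : y ∈ K := isClosed_iff_frequently.1 Kcl y (hy.mono fun _ h => h.1)
    obtain ⟨y', h2, h3⟩ := (hy.and_eventually (hloc y h1)).exists
    exact ⟨h1, fun h => h2.2 ((h3 h2.1).2 h)⟩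
  have K1c : IsCompact (K ∩ T) := Kc.of_isClosed_subset K1 Set.inter_subset_left
  set O : Set (Fin n → ℝ) := (K \ T)ᶜ ∩ ⋂ l ∈ Finset.range L,
    {y | if b l y0 = 0 then b l y ^ 2 < 1 / (2 * C) else 1 / (4 * C) < b l y ^ 2} with hO
  have Oop : IsOpen O := by
    refine K2.isOpen_compl.inter (isOpen_biInter_finset fun l _ => ?_)
    split_ifs
    · exact isOpen_lt (by fun_prop) continuous_const
    · exact isOpen_lt continuous_const (by fun_prop)
  have hKO : K ∩ T ⊆ O := by
    refine fun y hy => ⟨fun h => h.2 hy.2, Set.mem_iInter₂.2 fun l hl => ?_⟩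
    have h1 := hy.1.2 l (Finset.mem_range.1 hl)
    simp only [Set.mem_ofPred_eq]
    split_ifs with h0
    · rw [h1.1 h0]; simpa using hC0
    · refine lt_of_lt_of_le ?_ (h1.2 h0)
      exact one_div_lt_one_div_of_lt (by positivity) (by linarith)
  obtain ⟨δ, hδ, hδO⟩ := K1c.exists_cthickening_subset_open Oop hKO
  set A := Metric.cthickening δ (K ∩ T)
  have Ac : IsCompact A := K1c.cthickening
  have hy0A : y0 ∈ A := Metric.self_subset_cthickening _ ⟨hy0K, hy0⟩
  set G0 := ∑ i ∈ Finset.range n, extn y0 i ^ (2 * d)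
  have hG0 : 0 ≤ G0 := even_sum_nonneg n d _
  set ε0 : ℝ := 1 / (G0 + 8 * C ^ 2 + 1) with hε0
  have hε0pos : 0 < ε0 := by positivity
  have hε01 : ε0 * (G0 + 8 * C ^ 2 + 1) = 1 := by rw [hε0]; field_simp
  clear_value ε0
  set ε : ℕ → ℝ := fun k => ε0 * (1 / ((k : ℝ) + 1)) with hε
  have εpos : ∀ k, 0 < ε k := fun k => by simp only [hε]; positivity
  have εle : ∀ k, ε k ≤ ε0 := fun k => mul_le_of_le_one_right hε0pos.le (by
    rw [div_le_one (by positivity)]; linarith [Nat.cast_nonneg (α := ℝ) k])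
  have εlim : Tendsto ε atTop (𝓝 0) := by
    simpa only [mul_zero] using (tendsto_one_div_add_atTop_nhds_zero_nat (𝕜 := ℝ)).const_mul ε0
  clear_value ε
  have hex : ∀ k, ∃ y ∈ A, IsMinOn (fun x => penalty n L d (fun l => b l x) (extn x) C (ε k)) A y :=
    fun k => Ac.exists_isMinOn ⟨y0, hy0A⟩ (continuous_penalty n L d b hb C (ε k)).continuousOn
  choose y hyA hymin using hex
  have hneg : ∀ k, penalty n L d (fun l => b l (y k)) (extn (y k)) C (ε k) < 0 := fun k =>
    lt_of_le_of_lt (hymin k hy0A) (penalty_neg n L d _ _ C _ (εpos k) hC (by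
      have := mul_le_mul_of_nonneg_right (εle k) hG0
      nlinarith [mul_pos hε0pos (show 0 < 8 * C ^ 2 + 1 by positivity)]))
  have hprop := fun k => of_penalty_neg n L d _ _ C _ (εpos k) (hneg k)
  have hsm : ∀ k, ∀ l < L, b l (y k) ^ 2 < 1 / (2 * C) → b l (y k) ^ 2 ≤ 2 * C * ε k :=
    fun k l hl => small hC0 (sq_nonneg _) (by rw [← pow_mul]; exact (hprop k).2 l hl)
  have hOl : ∀ k, ∀ l < L, if b l y0 = 0 then b l (y k) ^ 2 < 1 / (2 * C)
      else 1 / (4 * C) < b l (y k) ^ 2 := fun k l hl =>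
    Set.mem_iInter₂.1 (hδO (hyA k)).2 l (Finset.mem_range.2 hl)
  obtain ⟨ys, hysA, φ, hφ, hlim⟩ := Ac.tendsto_subseq hyA
  have εφ := εlim.comp hφ.tendsto_atTop
  have hysK : ys ∈ K := by
    refine ⟨le_of_tendsto' ((show Continuous fun y : Fin n → ℝ =>
      ∑ i ∈ Finset.range n, extn y i ^ 2 by fun_prop).continuousAt.tendsto.comp hlim)
      fun k => (hprop (φ k)).1, fun l hl => ?_⟩
    have h1 := (show Continuous fun y => b l y ^ 2 by fun_prop).continuousAt.tendsto.comp hlim
    constructor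
    · intro h0
      have h2 : b l ys ^ 2 ≤ 2 * C * 0 := le_of_tendsto_of_tendsto' h1 (εφ.const_mul (2 * C))
        fun k => hsm _ l hl (by simpa only [if_pos h0] using hOl (φ k) l hl)
      exact pow_eq_zero_iff (two_ne_zero) |>.1 (le_antisymm (by linarith) (sq_nonneg _))
    · intro h0
      refine ge_of_tendsto' h1 fun k => ?_
      by_contra h2
      have h3 := hsm _ l hl (not_le.1 h2)
      have h4 := hOl (φ k) l hl
      rw [if_neg h0, div_lt_iff₀ (by positivity)] at h4
      have h5 := mul_le_mul_of_nonneg_right h3 (show 0 ≤ 4 * C by positivity)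
      have h6 := mul_le_mul_of_nonneg_right (εle (φ k)) (show 0 ≤ 8 * C ^ 2 by positivity)
      nlinarith [mul_nonneg hε0pos.le hG0]
  have hysT : ys ∈ T := by
    by_contra h
    exact (hδO hysA).1 ⟨hysK, h⟩
  have hV : Metric.thickening δ (K ∩ T) ∈ 𝓝 ys :=
    Metric.isOpen_thickening.mem_nhds (Metric.self_subset_thickening hδ _ ⟨hysK, hysT⟩)
  obtain ⟨k0, hk0⟩ := eventually_atTop.1 (hlim.eventually hV)
  refine ⟨ys, hysT, fun k => ε (φ (k + k0)), fun k => y (φ (k + k0)), fun k => εpos _,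
    εφ.comp (tendsto_add_atTop_nat k0), hlim.comp (tendsto_add_atTop_nat k0), fun k => ?_⟩
  exact (hymin _).isLocalMin (mem_of_superset
    (Metric.isOpen_thickening.mem_nhds (hk0 (k + k0) (by omega)))
    (Metric.thickening_subset_cthickening _ _))

/-- At a local minimum of a polynomial the partial derivatives vanish. -/
theorem eval_pderiv_eq_zero {n : ℕ} (P : MvPolynomial (Fin n) ℝ) {y : Fin n → ℝ}
    (h : IsLocalMin (fun x => eval x P) y) (i : Fin n) : eval y (pderiv i P) = 0 := by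
  have hd : ∀ Q : MvPolynomial (Fin n) ℝ, HasDerivAt (fun t => eval (Function.update y i t) Q)
      (eval y (pderiv i Q)) (y i) := by
    intro Q
    induction Q using MvPolynomial.induction_on with
    | C a => simpa using hasDerivAt_const (y i) a
    | add p q hp hq => simpa only [map_add] using hp.fun_add hq
    | mul_X p j hp =>
      by_cases e : j = i
      · subst e
        have := hp.mul (hasDerivAt_id (y j))
        simp only [map_mul, eval_X, Function.update_self]
        refine this.congr_deriv ?_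
        simp; ring
      · have := hp.mul_const (y j)
        simp only [map_mul, eval_X, Function.update_of_ne e]
        refine this.congr_deriv ?_
        simp [pderiv_X, e]; ring
  have h1 : IsLocalMin (fun x => eval x P) (Function.update y i (y i)) := by simpa using h
  have h2 := h1.comp_continuous (g := fun t => Function.update y i t) (b := y i)
    (by fun_prop)
  exact h2.hasDerivAt_eq_zero (hd P)

/-- The coefficient of `ε ^ j` of `N (t, ε)`, differentiated `m` times in `t` and truncated at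
degree `D` (outer `none` = `t`, inner `none` = `ε`). -/
noncomputable def hpoly {σ : Type} (j m D : ℕ) (N : MvPolynomial (Option (Option σ)) ℤ) :
    MvPolynomial (Option σ) ℤ :=
  ∑ l ∈ Finset.range (D + 1), (∏ r ∈ Finset.range m, ((l + m - r : ℕ) : MvPolynomial (Option σ) ℤ)) *
    rename some (cf1 j (cf1 (l + m) N)) * X none ^ l

theorem Sample.up_hpoly {σ K : Type} [CommRing K] (z : σ → K) (j m D : ℕ)
    (N : MvPolynomial (Option (Option σ)) ℤ) (l : ℕ) :
    (up z (hpoly j m D N)).coeff l = if l ≤ D then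
      ((l + m).descFactorial m : K) * aeval z (cf1 j (cf1 (l + m) N)) else 0 := by
  have : up z (hpoly j m D N) = ∑ l ∈ Finset.range (D + 1), Polynomial.monomial l
      (((l + m).descFactorial m : K) * aeval z (cf1 j (cf1 (l + m) N))) := by
    unfold hpoly
    rw [map_sum]
    refine Finset.sum_congr rfl fun l _ => ?_
    rw [← Nat.cast_prod, ← Nat.descFactorial_eq_prod_range, map_mul, map_mul, map_pow, map_natCast,
      up_rename_some, up_X_none, ← Polynomial.C_mul_X_pow_eq_monomial, map_mul, map_natCast]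
  rw [this, Polynomial.finsetSum_coeff]
  simp only [Polynomial.coeff_monomial, Finset.sum_ite_eq', Finset.mem_range, Nat.lt_succ_iff]

theorem cf1_hpoly_eq_zero {σ : Type} (j m D : ℕ) (N : MvPolynomial (Option (Option σ)) ℤ)
    {l : ℕ} (hl : D < l) : cf1 l (hpoly j m D N) = 0 := by
  rw [cf1, Sample.up_hpoly, if_neg (not_le.2 hl)]

/-- A limit of roots of `N (·, ε k)` is a simple root of some `hpoly j m D N` of exact degree `D`. -/
theorem exists_hpoly {σ : Type} (N : MvPolynomial (Option (Option σ)) ℤ) (z : σ → ℝ)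
    (ε t : ℕ → ℝ) (ts : ℝ) (hε : ∀ k, ε k ≠ 0) (hε0 : Tendsto ε atTop (𝓝 0))
    (ht : Tendsto t atTop (𝓝 ts))
    (hN : ∀ k, up (fun o : Option σ => o.elim (ε k) z) N ≠ 0)
    (hr : ∀ k, (up (fun o : Option σ => o.elim (ε k) z) N).eval (t k) = 0) :
    ∃ j m D, j ≤ N.totalDegree ∧ m ≤ N.totalDegree ∧ D ≤ N.totalDegree ∧
      aeval z (cf1 D (hpoly j m D N)) ≠ 0 ∧ (up z (hpoly j m D N)).eval ts = 0 ∧
      (Polynomial.derivative (up z (hpoly j m D N))).eval ts ≠ 0 := by
  classical
  set d := N.totalDegree with hd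
  set c : ℕ → ℕ → ℝ := fun l j => aeval z (cf1 j (cf1 l N)) with hc
  set h : ℕ → Polynomial ℝ := fun j => ∑ l ∈ Finset.range (d + 1), Polynomial.monomial l (c l j)
    with hh
  have hcoef : ∀ j l, (h j).coeff l = c l j := by
    intro j l
    simp only [hh, Polynomial.finsetSum_coeff, Polynomial.coeff_monomial, Finset.sum_ite_eq',
      Finset.mem_range]
    split_ifs with hl
    · rfl
    · simp only [hc]
      rw [cf1_eq_zero (P := N) (by omega)]
      simp [cf1]
  have hdeg : ∀ j, (h j).natDegree ≤ d := fun j =>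
    Polynomial.natDegree_sum_le_of_forall_le _ _ fun l hl =>
      (Polynomial.natDegree_monomial_le _).trans (Nat.lt_succ_iff.1 (Finset.mem_range.1 hl))
  have hN' : ∀ e : ℝ, up (fun o : Option σ => o.elim e z) N
      = ∑ j ∈ Finset.range (d + 1), Polynomial.C (e ^ j) * h j := by
    intro e
    ext l
    rw [← aeval_cf1, ← eval_up, Polynomial.eval_eq_sum_range' (n := d + 1)
      (Nat.lt_succ_of_le ((natDegree_up_le _ _).trans (totalDegree_cf1_le _ _))),
      Polynomial.finsetSum_coeff]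
    refine Finset.sum_congr rfl fun j _ => ?_
    rw [Polynomial.coeff_C_mul, hcoef, ← aeval_cf1, mul_comm]
  have hex : ∃ j, j ≤ d ∧ h j ≠ 0 := by
    by_contra h0
    push Not at h0
    refine hN 0 ?_
    rw [hN']
    exact Finset.sum_eq_zero fun j hj => by
      rw [h0 j (Nat.lt_succ_iff.1 (Finset.mem_range.1 hj)), mul_zero]
  set j0 := Nat.find hex
  obtain ⟨hj0, hne⟩ : j0 ≤ d ∧ h j0 ≠ 0 := Nat.find_spec hex
  have hlt : ∀ j < j0, h j = 0 := fun j hj => by
    by_contra h0
    exact Nat.find_min hex hj ⟨by omega, h0⟩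
  clear_value j0
  have hroot : (h j0).IsRoot ts := by
    set F : ℝ × ℝ → ℝ := fun p => ∑ j ∈ Finset.range (d + 1), p.1 ^ (j - j0) * (h j).eval p.2
      with hF
    have Fc : Continuous F := by simp only [hF]; fun_prop
    have F0 : ∀ k, F (ε k, t k) = 0 := by
      intro k
      have h1 := hr k
      rw [hN', Polynomial.eval_finsetSum] at h1
      refine (mul_eq_zero.1 (show ε k ^ j0 * F (ε k, t k) = 0 from ?_)).resolve_left
        (pow_ne_zero _ (hε k))
      rw [← h1, hF, Finset.mul_sum]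
      refine Finset.sum_congr rfl fun j _ => ?_
      by_cases hj : j < j0
      · simp [hlt j hj]
      · rw [Polynomial.eval_mul, Polynomial.eval_C, ← mul_assoc, ← pow_add]
        congr 2; omega
    have h1 := Fc.continuousAt.tendsto.comp (hε0.prodMk_nhds ht)
    have h2 : F (0, ts) = 0 :=
      tendsto_nhds_unique h1 (tendsto_const_nhds.congr fun k => (F0 k).symm)
    rw [Polynomial.IsRoot, ← h2, hF]
    symm
    refine (Finset.sum_eq_single j0 (fun j _ hj => ?_) (fun hj => ?_)).trans (by simp)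
    · by_cases hj' : j < j0
      · simp [hlt j hj']
      · rw [zero_pow (by omega), zero_mul]
    · exact absurd (Finset.mem_range.2 (by omega)) hj
  have hpos := (Polynomial.rootMultiplicity_pos hne).2 hroot
  obtain ⟨m, hm⟩ : ∃ m, (h j0).rootMultiplicity ts = m + 1 := ⟨_, (Nat.succ_pred_eq_of_pos hpos).symm⟩
  set g := Polynomial.derivative^[m] (h j0) with hg
  have hg1 : g.eval ts = 0 :=
    Polynomial.isRoot_iterate_derivative_of_lt_rootMultiplicity (by omega)
  have hg2 : (Polynomial.derivative g).eval ts ≠ 0 := by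
    have h1 := Polynomial.eval_iterate_derivative_rootMultiplicity (p := h j0) (t := ts)
    have h2 := Polynomial.eval_divByMonic_pow_rootMultiplicity_ne_zero ts hne
    rw [hm] at h1 h2
    rw [Function.iterate_succ_apply'] at h1
    rw [hg, h1, nsmul_eq_mul]
    exact mul_ne_zero (by exact_mod_cast Nat.factorial_ne_zero _) h2
  have hg0 : g ≠ 0 := fun h0 => hg2 (by simp [h0])
  have hgd : g.natDegree ≤ (h j0).natDegree - m := Polynomial.natDegree_iterate_derivative _ _
  have hmd : m ≤ d := by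
    by_contra h0
    exact hg0 (Polynomial.iterate_derivative_eq_zero (by have := hdeg j0; omega))
  have e : up z (hpoly j0 m g.natDegree N) = g := by
    ext l
    rw [Sample.up_hpoly]
    split_ifs with hl
    · rw [hg, Polynomial.coeff_iterate_derivative, hcoef, nsmul_eq_mul]
    · exact (Polynomial.coeff_eq_zero_of_natDegree_lt (not_le.1 hl)).symm
  refine ⟨j0, m, g.natDegree, hj0, hmd, by have := hdeg j0; omega, ?_, ?_, ?_⟩
  · rw [aeval_cf1, e]
    exact Polynomial.leadingCoeff_ne_zero.2 hg0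
  · rw [e, hg1]
  · rwa [e]

end Crest.Agent.R316
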