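import Crest.Agent.R316.GridDec
import Crest.Agent.R316.Inf
import Crest.Agent.R316.Sample
import Crest.Agent.R316.Elim

/-!
# `Good` is closed under existential quantification over a block of real variables
-/

namespace Crest.Agent.R316

open Crest.Agent.Lib.PT MvPolynomial Filter Topology

variable {α σ : Type} [Enc α] [Enc σ]

namespace ExBlock

/-- The penalty function without its last term. -/
def pen0 {K : Type} [CommRing K] (n L : ℕ) (b y : ℕ → K) (C ε : K) : K :=
  (∏ l ∈ Finset.range L, (ε + b l ^ 4)) * (∑ i ∈ Finset.range n, y i ^ 2 - C) +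
    ∑ l ∈ Finset.range L, b l ^ 2 * ∏ l' ∈ Finset.range L, (if l' = l then 1 else ε + b l' ^ 4)

theorem penalty_eq {K : Type} [CommRing K] (n L d : ℕ) (b y : ℕ → K) (C ε : K) :
    penalty n L d b y C ε = pen0 n L b y C ε + ε ^ (L + 1) * ∑ i ∈ Finset.range n, y i ^ (2 * d) :=
  rfl

theorem map_pen0 {K K' : Type} [CommRing K] [CommRing K'] (φ : K →+* K') (n L : ℕ) (b y : ℕ → K)
    (C ε : K) : φ (pen0 n L b y C ε) =
      pen0 n L (fun l => φ (b l)) (fun i => φ (y i)) (φ C) (φ ε) := by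
  simp only [pen0, map_add, map_mul, map_prod, map_sum, map_sub, map_pow, apply_ite φ, map_one]

/-- The embedding of the variables. -/
def rn (σ : Type) : σ ⊕ ℕ → Option (Option σ) ⊕ ℕ :=
  Sum.elim (fun i => Sum.inl (some (some i))) Sum.inr

/-- The embedding of the variables after the elimination of `ε`. -/
def rn1 (σ : Type) : σ ⊕ ℕ → Option σ ⊕ ℕ :=
  Sum.elim (fun i => Sum.inl (some i)) Sum.inr

theorem cf_rn : CF (rn σ) := by
  have h : CF fun a : σ ⊕ ℕ => Sum.elim (fun i : σ => (Sum.inl (some (some i)) :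
      Option (Option σ) ⊕ ℕ)) (fun j : ℕ => Sum.inr j) a :=
    CF.sum_elim (f := fun _ i => Sum.inl (some (some i))) (g := fun _ j => Sum.inr j) CF.id
      CF.id.snd.some.some.inl CF.id.snd.inr
  exact h

theorem cf_rn1 : CF (rn1 σ) := by
  have h : CF fun a : σ ⊕ ℕ => Sum.elim (fun i : σ => (Sum.inl (some i) :
      Option σ ⊕ ℕ)) (fun j : ℕ => Sum.inr j) a :=
    CF.sum_elim (f := fun _ i => Sum.inl (some i)) (g := fun _ j => Sum.inr j) CF.id
      CF.id.snd.some.inl CF.id.snd.inr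
  exact h

/-- The penalty polynomial without its last term. -/
noncomputable def Fp {σ : Type} (n L : ℕ) (B : ℕ → MvPolynomial (σ ⊕ ℕ) ℤ) :
    MvPolynomial (Option (Option σ) ⊕ ℕ) ℤ :=
  pen0 n L (fun l => rename (rn σ) (B l)) (fun i => X (Sum.inr i)) (X (Sum.inl (some none)))
    (X (Sum.inl none))

theorem cls_Fp {n L : α → ℕ} (hn : CF n) (hL : CF L) {B : α × ℕ → MvPolynomial (σ ⊕ ℕ) ℤ}
    (hB : Cls B) : Cls fun a => Fp (n a) (L a) fun l => B (a, l) := by
  have h1 : Cls fun x : α × ℕ => rename (rn σ) (B x) := hB.rename cf_rn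
  unfold Fp pen0
  refine Cls.add (Cls.mul (Cls.prod hL ?_) (Cls.sub (Cls.sum hn ?_) (Cls.const _)))
    (Cls.sum hL (Cls.mul ?_ (Cls.prod (hL.comp CF.id.fst) ?_)))
  · exact (Cls.const _).add (h1.pow (CF.const 4))
  · exact (Cls.X CF.id.snd.inr).pow (CF.const 2)
  · exact h1.pow (CF.const 2)
  · refine Cls.ite' (CF.id.snd.eq CF.id.fst.snd) (Cls.const _) ((Cls.const _).add ?_)
    exact (h1.comp (CF.id.fst.fst.pair CF.id.snd)).pow (CF.const 4)

theorem aeval_Fp {σ : Type} (n L : ℕ) (B : ℕ → MvPolynomial (σ ⊕ ℕ) ℤ) (z : σ → ℝ) (C ε : ℝ)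
    (y : ℕ → ℝ) :
    aeval (Sum.elim (fun o : Option (Option σ) => o.elim ε fun o' => o'.elim C z) y) (Fp n L B) =
      pen0 n L (fun l => aeval (Sum.elim z y) (B l)) y C ε := by
  have h := map_pen0 (aeval (Sum.elim (fun o : Option (Option σ) => o.elim ε
    fun o' => o'.elim C z) y) : MvPolynomial (Option (Option σ) ⊕ ℕ) ℤ →ₐ[ℤ] ℝ).toRingHom n L
    (fun l => rename (rn σ) (B l)) (fun i => X (Sum.inr i)) (X (Sum.inl (some none)))
    (X (Sum.inl none))
  refine h.trans ?_
  congr 1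
  · funext l
    simp only [AlgHom.toRingHom_eq_coe, RingHom.coe_coe, aeval_rename]
    congr 2
    funext o
    cases o <;> rfl
  · funext i
    simp
  · simp
  · simp

theorem pderiv_sum_pow {τ : Type} (n e : ℕ) (i : Fin n) :
    pderiv (Sum.inr (i : ℕ)) (∑ j ∈ Finset.range n, (X (Sum.inr j) : MvPolynomial (τ ⊕ ℕ) ℤ) ^ e) =
      (e : MvPolynomial (τ ⊕ ℕ) ℤ) * X (Sum.inr (i : ℕ)) ^ (e - 1) := by
  rw [map_sum, Finset.sum_eq_single (i : ℕ)]
  · rw [pderiv_pow, pderiv_X_self, mul_one]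
  · intro j _ hj
    rw [pderiv_pow, pderiv_X_of_ne (by simpa using hj), mul_zero]
  · intro h
    exact absurd (Finset.mem_range.2 i.2) h

/-- The critical point equations. -/
theorem crit {σ : Type} (n L d : ℕ) (B : ℕ → MvPolynomial (σ ⊕ ℕ) ℤ) (z : σ → ℝ) (C ε : ℝ)
    (y : Fin n → ℝ)
    (h : IsLocalMin (fun x : Fin n → ℝ => penalty n L d
      (fun l => aeval (Sum.elim z (extn x)) (B l)) (extn x) C ε) y) (i : Fin n) :
    ((2 * d : ℕ) : ℝ) * ε ^ (L + 1) * y i ^ (2 * d - 1) =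
      aeval (Sum.elim (fun o : Option (Option σ) => o.elim ε fun o' => o'.elim C z) (extn y))
        (-pderiv (Sum.inr (i : ℕ)) (Fp n L B)) := by
  set w : Option (Option σ) → ℝ := fun o => o.elim ε fun o' => o'.elim C z with hw
  set G : MvPolynomial (Option (Option σ) ⊕ ℕ) ℤ := Fp n L B + X (Sum.inl none) ^ (L + 1) *
    ∑ j ∈ Finset.range n, X (Sum.inr j) ^ (2 * d) with hG
  have h1 : ∀ x : Fin n → ℝ, eval x (upn n w G) = penalty n L d
      (fun l => aeval (Sum.elim z (extn x)) (B l)) (extn x) C ε := by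
    intro x
    rw [eval_upn, penalty_eq, hG, map_add, aeval_Fp]
    simp [hw]
  have h2 : IsLocalMin (fun x => eval x (upn n w G)) y := by
    simpa only [h1] using h
  have h3 := eval_pderiv_eq_zero _ h2 i
  rw [← upn_pderiv, eval_upn, hG, map_add, pderiv_mul, pderiv_sum_pow, pderiv_pow,
    pderiv_X_of_ne (by simp)] at h3
  simp only [map_add, map_mul, map_pow, aeval_X, Sum.elim_inl, Sum.elim_inr, extn_val, mul_zero,
    zero_mul, zero_add, map_natCast] at h3
  rw [map_neg]
  have h4 : w none = ε := rfl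
  rw [h4] at h3
  linear_combination h3

theorem continuous_elim {σ : Type} (n : ℕ) (z : σ → ℝ) :
    Continuous fun y : Fin n → ℝ => (Sum.elim z (extn y) : σ ⊕ ℕ → ℝ) := by
  refine continuous_pi fun o => ?_
  cases o with
  | inl i => exact continuous_const
  | inr j =>
    simp only [Sum.elim_inr, extn]
    split_ifs
    · exact continuous_apply _
    · exact continuous_const

theorem cls_hpoly {β τ : Type} [Enc β] [Enc τ] {j m D : β → ℕ} (hj : CF j) (hm : CF m) (hD : CF D)
    {N : β → MvPolynomial (Option (Option τ)) ℤ} (hN : Cls N) :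
    Cls fun b => hpoly (j b) (m b) (D b) (N b) := by
  have hs : CF (some : τ → Option τ) := CF.id.some
  unfold hpoly
  refine Cls.sum (hD.nat_add (CF.const 1)) (Cls.mul (Cls.mul ?_ ?_) ?_)
  · refine Cls.prod (hm.comp CF.id.fst) (Cls.natCast ?_)
    exact (CF.id.fst.snd.nat_add (hm.comp CF.id.fst.fst)).nat_sub CF.id.snd
  · refine Cls.rename (Cls.cf1 (Cls.cf1 (hN.comp CF.id.fst) ?_) (hj.comp CF.id.fst)) hs
    exact CF.id.snd.nat_add (hm.comp CF.id.fst)
  · exact (Cls.const _).pow CF.id.snd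

end ExBlock

open _root_.Crest.Agent.R316.ExBlock

theorem Good.ex {T : α → Set (σ ⊕ ℕ → ℝ)} (hT : Good T) {n : α → ℕ} (hn : CF n) (hb : PB n) :
    Good fun a => {z : σ → ℝ | ∃ y : Fin (n a) → ℝ, Sum.elim z (extn y) ∈ T a} := by
  obtain ⟨S, ⟨L, B, hL, hB, hSB⟩, hInv⟩ := hT.strat
  have hF : Cls fun a => Fp (n a) (L a) fun l => B (a, l) := cls_Fp hn hL hB
  obtain ⟨g, hgdef⟩ : ∃ g : α → ℕ → MvPolynomial (Option (Option σ) ⊕ ℕ) ℤ,
      ∀ a i, g a i = -pderiv (Sum.inr i) (Fp (n a) (L a) fun l => B (a, l)) :=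
    ⟨_, fun _ _ => rfl⟩
  have hg : Cls fun x : α × ℕ => g x.1 x.2 := by
    simp only [hgdef]
    exact (Cls.pderiv (hF.comp CF.id.fst) CF.id.snd.inr).neg
  obtain ⟨DG, hDG, hDG'⟩ := hg.deg_bound
  obtain ⟨d, hddef⟩ : ∃ d : α → ℕ, d = fun a => ∑ i ∈ Finset.range (n a), DG (a, i) + 2 :=
    ⟨_, rfl⟩
  have hd : CF d := by
    rw [hddef]
    exact (CF.sum_range (f := fun a i => DG (a, i)) hn hDG).nat_add (CF.const 2)
  have hgd : ∀ a, ∀ i < n a, (g a i).totalDegree < 2 * d a - 1 := by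
    intro a i hi
    have h1 : (g a i).totalDegree ≤ DG (a, i) := hDG' (a, i)
    have h2 : DG (a, i) ≤ ∑ i ∈ Finset.range (n a), DG (a, i) :=
      Finset.single_le_sum (f := fun i => DG (a, i)) (fun _ _ => Nat.zero_le _)
        (Finset.mem_range.2 hi)
    simp only [hddef]
    omega
  have hd2 : ∀ a, 2 ≤ d a := fun a => by simp only [hddef]; omega
  obtain ⟨A, hAdef⟩ : ∃ A : α → MvPolynomial (Option (Option σ)) ℤ,
      A = fun a => ((2 * d a : ℕ) : MvPolynomial (Option (Option σ)) ℤ) * X none ^ (L a + 1) :=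
    ⟨_, rfl⟩
  have hA : Cls A := by
    rw [hAdef]
    exact (Cls.natCast ((CF.const 2).nat_mul hd)).mul
      ((Cls.const _).pow (hL.nat_add (CF.const 1)))
  have hn1 : CF fun x : α × ℕ => n x.1 := hn.comp CF.id.fst
  have hb1 : PB fun x : α × ℕ => n x.1 := PB_compCF hb CF.id.fst
  have hd1 : CF fun x : α × ℕ => 2 * d x.1 - 1 :=
    ((CF.const 2).nat_mul (hd.comp CF.id.fst)).nat_sub (CF.const 1)
  have hA1 : Cls fun x : α × ℕ => A x.1 := hA.comp CF.id.fst
  have hg1 : Cls fun x : (α × ℕ) × ℕ => g x.1.1 x.2 :=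
    hg.comp (g := fun x : (α × ℕ) × ℕ => (x.1.1, x.2)) (CF.id.fst.fst.pair CF.id.snd)
  have hu1 : Cls fun x : α × ℕ => (X (Sum.inr x.2) : MvPolynomial (Option (Option σ) ⊕ ℕ) ℤ) :=
    Cls.X CF.id.snd.inr
  obtain ⟨N, hN, hNe⟩ := exists_elim (α := α × ℕ) (σ := Option (Option σ))
    (n := fun x => n x.1) (d := fun x => 2 * d x.1 - 1) hn1 hb1 hd1
    (A := fun x => A x.1) hA1 (g := fun x j => g x.1 j) hg1 (u := fun x => X (Sum.inr x.2)) hu1
  obtain ⟨DN, hDN, hDN'⟩ := hN.deg_bound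
  obtain ⟨K, hKdef⟩ : ∃ K : α → ℕ, K = fun a => ∑ i ∈ Finset.range (n a), DN (a, i) + 1 :=
    ⟨_, rfl⟩
  have hK : CF K := by
    rw [hKdef]
    exact (CF.sum_range (f := fun a i => DN (a, i)) hn hDN).nat_add (CF.const 1)
  have hNK : ∀ a, ∀ i < n a, (N (a, i)).totalDegree < K a := by
    intro a i hi
    have h1 := hDN' (a, i)
    have h2 : DN (a, i) ≤ ∑ i ∈ Finset.range (n a), DN (a, i) :=
      Finset.single_le_sum (f := fun i => DN (a, i)) (fun _ _ => Nat.zero_le _)
        (Finset.mem_range.2 hi)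
    simp only [hKdef]
    omega
  obtain ⟨D, hDdef⟩ : ∃ D : α × ℕ → ℕ → ℕ, ∀ x i, D x i = dig (K x.1) x.2 (3 * i + 2) :=
    ⟨_, fun _ _ => rfl⟩
  obtain ⟨h, hhdef⟩ : ∃ h : α × ℕ → ℕ → MvPolynomial (Option (Option σ)) ℤ, ∀ x i, h x i =
      hpoly (dig (K x.1) x.2 (3 * i)) (dig (K x.1) x.2 (3 * i + 1)) (D x i) (N (x.1, i)) :=
    ⟨_, fun _ _ => rfl⟩
  have hK' : CF fun x : (α × ℕ) × ℕ => K x.1.1 := hK.comp CF.id.fst.fst
  have h3 : CF fun x : (α × ℕ) × ℕ => 3 * x.2 := (CF.const 3).nat_mul CF.id.snd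
  have hD : CF fun x : (α × ℕ) × ℕ => D x.1 x.2 := by
    simp only [hDdef]
    exact CF.dig hK' CF.id.fst.snd (h3.nat_add (CF.const 2))
  have hN1 : Cls fun x : (α × ℕ) × ℕ => N (x.1.1, x.2) :=
    hN.comp (g := fun x : (α × ℕ) × ℕ => (x.1.1, x.2)) (CF.id.fst.fst.pair CF.id.snd)
  have hh : Cls fun x : (α × ℕ) × ℕ => h x.1 x.2 := by
    simp only [hhdef]
    exact cls_hpoly (CF.dig hK' CF.id.fst.snd h3)
      (CF.dig hK' CF.id.fst.snd (h3.nat_add (CF.const 1))) hD hN1
  obtain ⟨T', hT'def⟩ : ∃ T' : α → Set (Option σ ⊕ ℕ → ℝ),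
      T' = fun a => {x : Option σ ⊕ ℕ → ℝ | (fun i => x (rn1 σ i)) ∈ T a} := ⟨_, rfl⟩
  have hT' : Good T' := by
    rw [hT'def]
    exact hT.comap (cf_rn1 (σ := σ))
  have hT1 : Good fun x : α × ℕ => T' x.1 := hT'.comp CF.id.fst
  have hdeg : ∀ x : α × ℕ, ∀ i < n x.1, ∀ l, D x i < l → cf1 l (h x i) = 0 := by
    intro x i _ l hl
    rw [hhdef]
    exact cf1_hpoly_eq_zero _ _ _ _ hl
  have hgrid : Good fun x : α × ℕ => gridSet (n x.1) (D x) (h x) (T' x.1) :=
    Good.grid (T := fun x : α × ℕ => T' x.1) hT1 (n := fun x : α × ℕ => n x.1) hn1 hb1 hD hh hdeg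
  have hb3 : PB fun a => 3 * n a := by fun_prop
  have hM : CF fun a => K a ^ (3 * n a) := hK.nat_pow ((CF.const 3).nat_mul hn) hb3
  have hbex : Good fun a => {z | ∃ c < K a ^ (3 * n a),
      z ∈ gridSet (n a) (D (a, c)) (h (a, c)) (T' a)} :=
    Good.bex (T := fun a c => gridSet (n a) (D (a, c)) (h (a, c)) (T' a)) hM hgrid
  have hcomp : ∀ (a : α) (z : σ → ℝ) (C : ℝ) (y : ℕ → ℝ),
      (Sum.elim (fun o : Option σ => o.elim C z) y : Option σ ⊕ ℕ → ℝ) ∈ T' a ↔
        Sum.elim z y ∈ T a := by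
    intro a z C y
    rw [hT'def]
    refine iff_of_eq (congrArg (· ∈ T a) ?_)
    funext o
    cases o <;> rfl
  refine hbex.eventually.of_eq fun a => Set.ext fun z => ⟨fun hz => ?_, fun hz => ?_⟩
  · obtain ⟨C, c, -, -, y, -, hy⟩ := hz.exists
    refine ⟨y, ?_⟩
    rwa [hcomp] at hy
  · have hcont : ∀ l, Continuous fun y : Fin (n a) → ℝ =>
        aeval (Sum.elim z (extn y)) (B (a, l)) := by
      intro l
      simp only [← eval_upn]
      exact MvPolynomial.continuous_eval _
    have hloc := exists_localMin (n a) (L a) (d a)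
      (fun l y => aeval (Sum.elim z (extn y)) (B (a, l))) hcont
      {y | Sum.elim z (extn y) ∈ T a} (fun y => by
        filter_upwards [((continuous_elim (n a) z).tendsto y).eventually
          (hInv a (Sum.elim z (extn y)))] with y' hy' hl
        refine hy' fun P hP => ?_
        obtain ⟨l, hl', rfl⟩ := hSB a P hP
        exact hl l hl') hz
    show ∀ᶠ C in atTop, _
    filter_upwards [hloc] with C hC
    obtain ⟨ys, hys, ε, y, hε, hε0, hy, hmin⟩ := hC
    have key : ∀ i : ℕ, ∃ j m E : ℕ, ∀ hi : i < n a, j < K a ∧ m < K a ∧ E < K a ∧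
        aeval (fun o : Option σ => o.elim C z) (cf1 E (hpoly j m E (N (a, i)))) ≠ 0 ∧
        (up (fun o : Option σ => o.elim C z) (hpoly j m E (N (a, i)))).eval (ys ⟨i, hi⟩) = 0 ∧
        (Polynomial.derivative (up (fun o : Option σ => o.elim C z)
          (hpoly j m E (N (a, i))))).eval (ys ⟨i, hi⟩) ≠ 0 := by
      intro i
      by_cases hi : i < n a
      swap
      · exact ⟨0, 0, 0, fun h => absurd h hi⟩
      have hroot : ∀ k, up (fun o : Option (Option σ) => o.elim (ε k) fun o' => o'.elim C z)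
            (N (a, i)) ≠ 0 ∧
          (up (fun o : Option (Option σ) => o.elim (ε k) fun o' => o'.elim C z)
            (N (a, i))).eval (y k ⟨i, hi⟩) = 0 := by
        intro k
        set w : Option (Option σ) → ℝ := fun o => o.elim (ε k) fun o' => o'.elim C z with hw
        have hAw : aeval w (A a) = ((2 * d a : ℕ) : ℝ) * ε k ^ (L a + 1) := by
          simp only [hAdef, map_mul, map_natCast, map_pow, aeval_X]
          rfl
        have hAc : aeval (fun o => (w o : ℂ)) (A a) ≠ 0 := by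
          rw [← ofReal_aeval, hAw, Complex.ofReal_ne_zero]
          have h1 := hd2 a
          have h2 : (0 : ℝ) < ((2 * d a : ℕ) : ℝ) := by exact_mod_cast (by omega : 0 < 2 * d a)
          exact (mul_pos h2 (pow_pos (hε k) _)).ne'
        have hE : (Sum.elim (fun o => (w o : ℂ)) (extn fun j => (y k j : ℂ)) :
            Option (Option σ) ⊕ ℕ → ℂ) =
            fun o => ((Sum.elim w (extn (y k)) o : ℝ) : ℂ) := by
          funext o
          cases o with
          | inl o => rfl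
          | inr j => exact (map_extn Complex.ofRealHom (y k) j).symm
        obtain ⟨h1, h2⟩ := hNe (a, i) (fun o => (w o : ℂ)) (by have := hd2 a; simp only; omega)
          hAc (hgd a)
        have h3 := h2 (fun j => (y k j : ℂ)) fun j => by
          have h4 := crit (n a) (L a) (d a) (fun l => B (a, l)) z C (ε k) (y k) (hmin k) j
          rw [← hgdef] at h4
          simp only
          rw [hE, ← ofReal_aeval, ← ofReal_aeval, hAw, ← Complex.ofReal_pow, ← Complex.ofReal_mul,
            h4]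
        have hup : up (fun o => (w o : ℂ)) (N (a, i)) = (up w (N (a, i))).map Complex.ofRealHom :=
          (map_up Complex.ofRealHom w _).symm
        rw [hup] at h1 h3
        refine ⟨fun h0 => h1 (by rw [h0, Polynomial.map_zero]), ?_⟩
        have h5 : aeval (Sum.elim (fun o => (w o : ℂ)) (extn fun j => (y k j : ℂ)))
            (X (Sum.inr i) : MvPolynomial (Option (Option σ) ⊕ ℕ) ℤ) =
            Complex.ofRealHom (y k ⟨i, hi⟩) := by
          rw [aeval_X]
          exact extn_val (fun j => (y k j : ℂ)) ⟨i, hi⟩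
        simp only at h3
        rw [h5, Polynomial.eval_map, Polynomial.eval₂_at_apply] at h3
        exact Complex.ofReal_eq_zero.1 h3
      obtain ⟨j, m, E, hj, hm, hE, h1, h2, h3⟩ := exists_hpoly (N (a, i))
        (fun o : Option σ => o.elim C z) ε (fun k => y k ⟨i, hi⟩) (ys ⟨i, hi⟩)
        (fun k => (hε k).ne') hε0 (((continuous_apply _).tendsto ys).comp hy)
        (fun k => (hroot k).1) fun k => (hroot k).2
      have h4 := hNK a i hi
      exact ⟨j, m, E, fun _ => ⟨by omega, by omega, by omega, h1, h2, h3⟩⟩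
    choose j m E hkey using key
    obtain ⟨c, hc, hdig⟩ := exists_dig (3 * n a) (K a)
      (fun q => if q % 3 = 0 then j (q / 3) else if q % 3 = 1 then m (q / 3) else E (q / 3))
      (fun q hq => by
        obtain ⟨h1, h2, h3, -⟩ := hkey (q / 3) (by omega)
        split_ifs <;> assumption)
    have hdj : ∀ i < n a, dig (K a) c (3 * i) = j i := fun i hi => by
      rw [hdig _ (by omega), if_pos (by omega), show 3 * i / 3 = i by omega]
    have hdm : ∀ i < n a, dig (K a) c (3 * i + 1) = m i := fun i hi => by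
      rw [hdig _ (by omega), if_neg (by omega), if_pos (by omega),
        show (3 * i + 1) / 3 = i by omega]
    have hdE : ∀ i < n a, dig (K a) c (3 * i + 2) = E i := fun i hi => by
      rw [hdig _ (by omega), if_neg (by omega), if_neg (by omega),
        show (3 * i + 2) / 3 = i by omega]
    have hhi : ∀ i < n a, h (a, c) i = hpoly (j i) (m i) (E i) (N (a, i)) := fun i hi => by
      rw [hhdef, hDdef]
      simp only
      rw [hdj i hi, hdm i hi, hdE i hi]
    refine ⟨c, hc, fun i hi => ?_, ys, fun i => ?_, ?_⟩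
    · rw [hhi i hi]
      simp only [hDdef]
      rw [hdE i hi]
      exact (hkey i hi).2.2.2.1
    · rw [hhi i i.2]
      exact (hkey i i.2).2.2.2.2
    · exact (hcomp a z C _).2 hys

end Crest.Agent.R316
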