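import Mathlib

/-!
# Newton identities in generating function form
-/

namespace Crest.Agent.R316.ExpAux

open Polynomial Finset

/-- `∏ (1 - λ T)` -/
noncomputable def H (Λ : Multiset ℂ) : ℂ[X] := (Λ.map fun l => 1 - C l * X).prod

/-- `∑_{1 ≤ k ≤ m} p_k T^k` -/
noncomputable def Pw (Λ : Multiset ℂ) (m : ℕ) : ℂ[X] :=
  ∑ k ∈ range m, C (Λ.map (· ^ (k + 1))).sum * X ^ (k + 1)

theorem geom (u : ℂ[X]) (m : ℕ) :
    (1 - u) * ∑ k ∈ range m, u ^ (k + 1) = u - u ^ (m + 1) := by
  induction m with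
  | zero => simp
  | succ m ih => rw [sum_range_succ, mul_add, ih]; ring

theorem H_cons (l : ℂ) (Λ : Multiset ℂ) : H (l ::ₘ Λ) = (1 - C l * X) * H Λ := by
  simp [H]

theorem Pw_cons (l : ℂ) (Λ : Multiset ℂ) (m : ℕ) :
    Pw (l ::ₘ Λ) m = (∑ k ∈ range m, (C l * X) ^ (k + 1)) + Pw Λ m := by
  simp only [Pw, Multiset.map_cons, Multiset.sum_cons, ← sum_add_distrib]
  refine sum_congr rfl fun k _ => ?_
  rw [C_add, C_pow, mul_pow]; ring

/-- the logarithmic derivative identity -/
theorem logDeriv_dvd (Λ : Multiset ℂ) (m : ℕ) :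
    X ^ (m + 1) ∣ X * derivative (H Λ) + H Λ * Pw Λ m := by
  induction Λ using Multiset.induction_on with
  | empty => simp [H, Pw]
  | cons l Λ ih =>
    have e : X * derivative (H (l ::ₘ Λ)) + H (l ::ₘ Λ) * Pw (l ::ₘ Λ) m =
        (1 - C l * X) * (X * derivative (H Λ) + H Λ * Pw Λ m) - H Λ * (C l * X) ^ (m + 1) := by
      rw [H_cons, Pw_cons, derivative_mul]
      have h := geom (C l * X) m
      have hd : derivative (1 - C l * X : ℂ[X]) = - C l := by simp
      rw [hd]
      linear_combination (H Λ) * h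
    rw [e]
    refine dvd_sub (ih.mul_left _) ?_
    rw [mul_pow]
    exact (Dvd.intro_left _ rfl).mul_left _

theorem coeff_zero_H (Λ : Multiset ℂ) : (H Λ).coeff 0 = 1 := by
  induction Λ using Multiset.induction_on with
  | empty => simp [H]
  | cons l Λ ih => rw [H_cons, mul_coeff_zero, ih]; simp

theorem reflect_prod (Λ : Multiset ℂ) :
    reflect Λ.card (Λ.map fun l => X - C l).prod = H Λ := by
  induction Λ using Multiset.induction_on with
  | empty => simp [H]
  | cons l Λ ih =>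
    rw [Multiset.card_cons, Multiset.map_cons, Multiset.prod_cons, add_comm,
      reflect_mul _ _ (natDegree_X_sub_C_le l) (natDegree_multiset_prod_X_sub_C_eq_card Λ).le,
      ih, H_cons, reflect_sub, reflect_one_X, reflect_C, pow_one]

theorem coeff_H (Λ : Multiset ℂ) {j : ℕ} (hj : j ≤ Λ.card) :
    (H Λ).coeff j = (Λ.map fun l => X - C l).prod.coeff (Λ.card - j) := by
  rw [← reflect_prod, coeff_reflect, revAt_le hj]

theorem natDegree_H_le (Λ : Multiset ℂ) : (H Λ).natDegree ≤ Λ.card := by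
  rw [← reflect_prod]
  refine natDegree_reflect_le.trans ?_
  rw [natDegree_multiset_prod_X_sub_C_eq_card, max_self]

theorem coeff_H_mul (A : ℂ) (Λ : Multiset ℂ) (j : ℕ) :
    (H (Λ.map (A * ·))).coeff j = (H Λ).coeff j * A ^ j := by
  rw [← comp_C_mul_X_coeff]
  congr 1
  rw [H, H, multiset_prod_comp, Multiset.map_map, Multiset.map_map]
  congr 2
  funext l
  simp only [Function.comp, sub_comp, one_comp, mul_comp, C_comp, X_comp, C_mul]
  ring

theorem X_pow_succ_dvd {δ : ℂ[X]} {n : ℕ} (h0 : δ.coeff 0 = 0) (h : X ^ n ∣ derivative δ) :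
    X ^ (n + 1) ∣ δ := by
  rw [X_pow_dvd_iff] at h ⊢
  intro d hd
  rcases d with _ | d
  · exact h0
  · have := h d (by omega)
    rw [coeff_derivative] at this
    exact (mul_eq_zero.1 this).resolve_right (by exact_mod_cast Nat.succ_ne_zero d)

/-- uniqueness for `y' = s y` modulo `X ^ D` -/
theorem ode_unique {δ s : ℂ[X]} {D : ℕ} (h0 : δ.coeff 0 = 0)
    (h : X ^ D ∣ derivative δ - s * δ) : X ^ (D + 1) ∣ δ := by
  have key : ∀ n, n ≤ D + 1 → X ^ n ∣ δ := by
    intro n
    induction n with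
    | zero => intro _; simp
    | succ n ih =>
      intro hn
      refine X_pow_succ_dvd h0 ?_
      have h1 : X ^ n ∣ derivative δ - s * δ := (pow_dvd_pow X (by omega)).trans h
      have h2 := dvd_add h1 ((ih (by omega)).mul_left s)
      rwa [sub_add_cancel] at h2
  exact key _ le_rfl

/-- truncated exponential -/
noncomputable def texp (S : ℂ[X]) (D : ℕ) : ℂ[X] :=
  ∑ j ∈ range (D + 1), C ((j.factorial : ℂ)⁻¹) * S ^ j

theorem derivative_texp (S : ℂ[X]) (D : ℕ) :
    derivative (texp S D) =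
      derivative S * (texp S D - C ((D.factorial : ℂ)⁻¹) * S ^ D) := by
  induction D with
  | zero => simp [texp]
  | succ D ih =>
    have e : texp S (D + 1) = texp S D + C (((D + 1).factorial : ℂ)⁻¹) * S ^ (D + 1) := by
      rw [texp, sum_range_succ]; rfl
    rw [e, derivative_add, ih, derivative_mul, derivative_C, derivative_pow_succ, zero_mul,
      zero_add, add_sub_cancel_right]
    have h : C (((D + 1).factorial : ℂ)⁻¹) * C ((D : ℂ) + 1) = C ((D.factorial : ℂ)⁻¹) := by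
      rw [← C_mul]
      congr 1
      have h1 : (D.factorial : ℂ) ≠ 0 := by exact_mod_cast D.factorial_ne_zero
      have h2 : ((D : ℂ) + 1) ≠ 0 := by exact_mod_cast Nat.succ_ne_zero D
      rw [Nat.factorial_succ]; push_cast; field_simp
    linear_combination (S ^ D * derivative S) * h

theorem coeff_zero_texp {S : ℂ[X]} (hS : X ∣ S) (D : ℕ) : (texp S D).coeff 0 = 1 := by
  rw [X_dvd_iff] at hS
  rw [texp, sum_range_succ', coeff_add, finsetSum_coeff, sum_eq_zero]
  · simp
  · intro j _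
    rw [coeff_C_mul, pow_succ, mul_coeff_zero, hS, mul_zero, mul_zero]

/-- `- ∑_{1 ≤ k ≤ D} p_k T^k / k` -/
noncomputable def Sl (Λ : Multiset ℂ) (D : ℕ) : ℂ[X] :=
  - ∑ k ∈ range D, C (((k : ℂ) + 1)⁻¹ * (Λ.map (· ^ (k + 1))).sum) * X ^ (k + 1)

theorem X_dvd_Sl (Λ : Multiset ℂ) (D : ℕ) : X ∣ Sl Λ D := by
  rw [Sl, dvd_neg]
  exact dvd_sum fun k _ => (dvd_pow_self X (Nat.succ_ne_zero k)).mul_left _

theorem X_mul_derivative_Sl (Λ : Multiset ℂ) (D : ℕ) :
    X * derivative (Sl Λ D) = - Pw Λ D := by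
  rw [Sl, Pw, derivative_neg, derivative_sum, mul_neg, mul_sum]
  congr 1
  refine sum_congr rfl fun k _ => ?_
  rw [derivative_mul, derivative_C, zero_mul, zero_add, derivative_X_pow_succ]
  have h : C (((k : ℂ) + 1)⁻¹ * (Λ.map (· ^ (k + 1))).sum) * C ((k : ℂ) + 1) =
      C (Λ.map (· ^ (k + 1))).sum := by
    rw [← C_mul]
    congr 1
    have h2 : ((k : ℂ) + 1) ≠ 0 := by exact_mod_cast Nat.succ_ne_zero k
    field_simp
  linear_combination (X ^ (k + 1)) * h

theorem texp_Sl (Λ : Multiset ℂ) (D : ℕ) : X ^ (D + 1) ∣ texp (Sl Λ D) D - H Λ := by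
  refine ode_unique (s := derivative (Sl Λ D)) ?_ ?_
  · rw [coeff_sub, coeff_zero_texp (X_dvd_Sl Λ D), coeff_zero_H, sub_self]
  · have h1 : X ^ D ∣ derivative (H Λ) - derivative (Sl Λ D) * H Λ := by
      have := logDeriv_dvd Λ D
      have e : X * derivative (H Λ) + H Λ * Pw Λ D =
          X * (derivative (H Λ) - derivative (Sl Λ D) * H Λ) := by
        linear_combination (H Λ) * X_mul_derivative_Sl Λ D
      rw [e, pow_succ'] at this
      exact (mul_dvd_mul_iff_left X_ne_zero).1 this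
    have h2 : X ^ D ∣ derivative (Sl Λ D) * (C ((D.factorial : ℂ)⁻¹) * Sl Λ D ^ D) :=
      ((pow_dvd_pow_of_dvd (X_dvd_Sl Λ D) D).mul_left _).mul_left _
    have e : derivative (texp (Sl Λ D) D - H Λ) - derivative (Sl Λ D) * (texp (Sl Λ D) D - H Λ) =
        -(derivative (Sl Λ D) * (C ((D.factorial : ℂ)⁻¹) * Sl Λ D ^ D)) -
          (derivative (H Λ) - derivative (Sl Λ D) * H Λ) := by
      rw [derivative_sub, derivative_texp]; ring
    rw [e]
    exact dvd_sub (dvd_neg.2 h2) h1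

theorem coeff_texp_Sl (Λ : Multiset ℂ) {D j : ℕ} (hj : j ≤ D) :
    (texp (Sl Λ D) D).coeff j = (H Λ).coeff j := by
  have := X_pow_dvd_iff.1 (texp_Sl Λ D) j (by omega)
  rwa [coeff_sub, sub_eq_zero] at this

theorem coeff_Pw (Λ : Multiset ℂ) (m : ℕ) :
    (Pw Λ (m + 1)).coeff (m + 1) = (Λ.map (· ^ (m + 1))).sum := by
  rw [Pw, finsetSum_coeff, sum_eq_single m]
  · simp
  · intro k _ hk
    rw [coeff_C_mul, coeff_X_pow, if_neg (by omega), mul_zero]
  · intro h; exact absurd (self_mem_range_succ m) h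

/-- power sums from the coefficients -/
theorem coeff_powersum (Λ : Multiset ℂ) (Γ : ℂ[X]) (hΓ : H Λ = 1 - Γ) (m : ℕ) :
    (X * derivative Γ * ∑ k ∈ range (m + 2), Γ ^ k).coeff (m + 1) =
      (Λ.map (· ^ (m + 1))).sum := by
  have hX : X ∣ Γ := by
    rw [X_dvd_iff]
    have := coeff_zero_H Λ
    rw [hΓ, coeff_sub, coeff_one_zero] at this
    linear_combination -this
  have h1 := logDeriv_dvd Λ (m + 1)
  have hg := mul_neg_geom_sum Γ (m + 2)
  have e : Pw Λ (m + 1) - X * derivative Γ * ∑ k ∈ range (m + 2), Γ ^ k =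
      (X * derivative (H Λ) + H Λ * Pw Λ (m + 1)) * (∑ k ∈ range (m + 2), Γ ^ k) +
        Pw Λ (m + 1) * Γ ^ (m + 2) := by
    rw [hΓ, derivative_sub, derivative_one]
    linear_combination (-Pw Λ (m + 1)) * hg
  have h2 : X ^ (m + 1 + 1) ∣
      Pw Λ (m + 1) - X * derivative Γ * ∑ k ∈ range (m + 2), Γ ^ k := by
    rw [e]
    exact dvd_add (h1.mul_right _) ((pow_dvd_pow_of_dvd hX _).mul_left _)
  have := X_pow_dvd_iff.1 h2 (m + 1) (by omega)
  rw [coeff_sub, coeff_Pw, sub_eq_zero] at this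
  exact this.symm

theorem factorial_mul_prod (j n : ℕ) :
    j.factorial * ∏ i ∈ range n, (j + i + 1) = (j + n).factorial := by
  induction n with
  | zero => simp
  | succ n ih => rw [prod_range_succ, ← mul_assoc, ih, ← add_assoc, Nat.factorial_succ, mul_comm]

end Crest.Agent.R316.ExpAux
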