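import Crest.Agent.R316.Cls2
import Crest.Agent.R316.ExpAux

/-!
# From power sums to characteristic polynomials and back
-/

namespace Crest.Agent.R316

open Crest.Agent.Lib.PT MvPolynomial

variable {α σ : Type} [Enc α] [Enc σ]

namespace ExpAux

/-- `(j + n)! / j!` as a constant polynomial -/
noncomputable def fac (τ : Type) (j n : ℕ) : MvPolynomial τ ℤ :=
  ∏ i ∈ Finset.range n, ((j + i + 1 : ℕ) : MvPolynomial τ ℤ)

@[fun_prop] theorem cls_fac {j n : α → ℕ} (hj : CF j) (hn : CF n) :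
    Cls fun a => fac σ (j a) (n a) := by
  unfold fac
  fun_prop

theorem up_fac {σ : Type} (z : σ → ℂ) (j n : ℕ) :
    up z (fac (Option σ) j n) =
      Polynomial.C (((j + n).factorial : ℂ) * (j.factorial : ℂ)⁻¹) := by
  have h1 : (j.factorial : ℂ) ≠ 0 := by exact_mod_cast j.factorial_ne_zero
  rw [fac, ← Nat.cast_prod, map_natCast, ← factorial_mul_prod, ← Polynomial.C_eq_natCast]
  congr 1
  rw [Nat.cast_mul]
  field_simp

/-- `D!` times the logarithm -/
noncomputable def Wl {σ : Type} (p : ℕ → MvPolynomial σ ℤ) (D : ℕ) : MvPolynomial (Option σ) ℤ :=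
  - ∑ k ∈ Finset.range D, fac (Option σ) 0 k * fac (Option σ) (k + 1) (D - (k + 1)) *
    rename some (p (k + 1)) * X none ^ (k + 1)

/-- `D! (D!)^D` times the truncated exponential -/
noncomputable def We {σ : Type} (p : ℕ → MvPolynomial σ ℤ) (D : ℕ) : MvPolynomial (Option σ) ℤ :=
  ∑ j ∈ Finset.range (D + 1), fac (Option σ) j (D - j) * fac (Option σ) 0 D ^ (D - j) * Wl p D ^ j

theorem up_Wl {σ : Type} (p : ℕ → MvPolynomial σ ℤ) (D : ℕ) (z : σ → ℂ) (Λ : Multiset ℂ)
    (h : ∀ k, 1 ≤ k → k ≤ D → aeval z (p k) = (Λ.map (· ^ k)).sum) :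
    up z (Wl p D) = Polynomial.C (D.factorial : ℂ) * Sl Λ D := by
  rw [Wl, Sl, map_neg, map_sum, mul_neg, Finset.mul_sum]
  congr 1
  refine Finset.sum_congr rfl fun k hk => ?_
  rw [Finset.mem_range] at hk
  rw [map_mul, map_mul, map_mul, map_pow, up_X_none, up_rename_some, up_fac, up_fac,
    h (k + 1) (by omega) (by omega), ← mul_assoc, ← Polynomial.C_mul, ← Polynomial.C_mul,
    ← Polynomial.C_mul, show k + 1 + (D - (k + 1)) = D by omega]
  congr 2
  have h1 : (k.factorial : ℂ) ≠ 0 := by exact_mod_cast k.factorial_ne_zero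
  have h2 : ((k : ℂ) + 1) ≠ 0 := by exact_mod_cast Nat.succ_ne_zero k
  rw [Nat.factorial_succ, zero_add, Nat.factorial_zero]
  push_cast
  field_simp

theorem up_We {σ : Type} (p : ℕ → MvPolynomial σ ℤ) (D : ℕ) (z : σ → ℂ) (Λ : Multiset ℂ)
    (h : ∀ k, 1 ≤ k → k ≤ D → aeval z (p k) = (Λ.map (· ^ k)).sum) :
    up z (We p D) =
      Polynomial.C ((D.factorial * D.factorial ^ D : ℕ) : ℂ) * texp (Sl Λ D) D := by
  rw [We, texp, map_sum, Finset.mul_sum]
  refine Finset.sum_congr rfl fun j hj => ?_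
  rw [Finset.mem_range] at hj
  rw [map_mul, map_mul, map_pow, map_pow, up_Wl p D z Λ h, up_fac, up_fac, mul_pow,
    ← Polynomial.C_pow, ← Polynomial.C_pow, ← mul_assoc, ← mul_assoc, ← Polynomial.C_mul,
    ← Polynomial.C_mul, ← Polynomial.C_mul, show j + (D - j) = D by omega]
  congr 2
  rw [zero_add, Nat.factorial_zero, Nat.cast_one, inv_one, mul_one, mul_assoc, ← pow_add,
    show D - j + j = D by omega]
  push_cast
  ring

/-- `1 - ∏ (1 - A λ T)` in terms of the coefficients -/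
noncomputable def Gm {σ : Type} (h : MvPolynomial (Option σ) ℤ) (D : ℕ) :
    MvPolynomial (Option σ) ℤ :=
  - ∑ j ∈ Finset.range D, rename some (cf1 (D - (j + 1)) h * cf1 D h ^ j) * X none ^ (j + 1)

theorem up_Gm {σ : Type} (h : MvPolynomial (Option σ) ℤ) (z : σ → ℂ) (A : ℂ) (Λ : Multiset ℂ)
    (hh : up z h = Polynomial.C A * (Λ.map fun l => Polynomial.X - Polynomial.C l).prod) :
    H (Λ.map (A * ·)) = 1 - up z (Gm h Λ.card) := by
  have hc : ∀ j, j ≤ Λ.card → aeval z (cf1 (Λ.card - j) h) = A * (H Λ).coeff j := by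
    intro j hj
    rw [aeval_cf1, hh, Polynomial.coeff_C_mul, coeff_H Λ hj]
  have hA : aeval z (cf1 Λ.card h) = A := by
    have := hc 0 (Nat.zero_le _)
    rwa [Nat.sub_zero, coeff_zero_H, mul_one] at this
  have hd : (H (Λ.map (A * ·))).natDegree < Λ.card + 1 := by
    have := natDegree_H_le (Λ.map (A * ·))
    rw [Multiset.card_map] at this
    omega
  rw [(H (Λ.map (A * ·))).as_sum_range_C_mul_X_pow' hd, Finset.sum_range_succ', coeff_zero_H,
    Gm, map_neg, map_sum, sub_neg_eq_add, add_comm]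
  congr 1
  · simp
  · refine Finset.sum_congr rfl fun j hj => ?_
    rw [Finset.mem_range] at hj
    rw [map_mul, map_pow, up_X_none, up_rename_some, map_mul, map_pow, hA, hc (j + 1) (by omega),
      coeff_H_mul]
    congr 2
    ring

end ExpAux

open ExpAux

/-- The monic polynomial with given power sums of its roots, up to a positive integer factor. -/
theorem exists_charpoly {p : α × ℕ → MvPolynomial σ ℤ} (hp : Cls p) {D : α → ℕ} (hD : CF D) :
    ∃ E : α × ℕ → MvPolynomial σ ℤ, Cls E ∧ ∀ a, ∃ c : ℕ, 0 < c ∧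
      ∀ (z : σ → ℂ) (Λ : Multiset ℂ), Λ.card = D a →
        (∀ k, 1 ≤ k → k ≤ D a → aeval z (p (a, k)) = (Λ.map (· ^ k)).sum) →
        ∀ j, aeval z (E (a, j)) =
          c * (Λ.map fun l => Polynomial.X - Polynomial.C l).prod.coeff j := by
  have hsome : CF (some : σ → Option σ) := CF.id.some
  have hWl : Cls fun a => Wl (fun k => p (a, k)) (D a) := by
    unfold Wl
    fun_prop
  have hWe : Cls fun a => We (fun k => p (a, k)) (D a) := by
    have h1 : Cls fun x : α × ℕ => Wl (fun k => p (x.1, k)) (D x.1) := hWl.comp CF.id.fst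
    unfold We
    refine Cls.sum (F := fun a j => fac (Option σ) j (D a - j) * fac (Option σ) 0 (D a) ^ (D a - j) *
      Wl (fun k => p (a, k)) (D a) ^ j) (by fun_prop) (Cls.mul (by fun_prop) (h1.pow CF.id.snd))
  refine ⟨fun x => if x.2 ≤ D x.1 then cf1 (D x.1 - x.2) (We (fun k => p (x.1, k)) (D x.1)) else 0,
    ?_, fun a => ⟨(D a).factorial * (D a).factorial ^ D a, by positivity, ?_⟩⟩
  · refine Cls.ite (by fun_prop) (Cls.cf1 (hWe.comp CF.id.fst) (by fun_prop)) (Cls.const 0)
  · intro z Λ hΛ hp j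
    by_cases hj : j ≤ D a
    · simp only [if_pos hj]
      rw [aeval_cf1, up_We _ _ z Λ hp, Polynomial.coeff_C_mul, coeff_texp_Sl Λ (Nat.sub_le _ _),
        ← hΛ, coeff_H Λ (Nat.sub_le _ _), show Λ.card - (Λ.card - j) = j by omega]
    · simp only [if_neg hj]
      rw [map_zero, Polynomial.coeff_eq_zero_of_natDegree_lt, mul_zero]
      rw [Polynomial.natDegree_multiset_prod_X_sub_C_eq_card]
      omega

/-- The power sums of the roots, scaled by the leading coefficient. -/
theorem exists_powersum {h : α → MvPolynomial (Option σ) ℤ} (hh : Cls h) {D : α → ℕ}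
    (hD : CF D) : ∃ q : α × ℕ → MvPolynomial σ ℤ, Cls q ∧
      ∀ a (z : σ → ℂ) (A : ℂ) (Λ : Multiset ℂ), Λ.card = D a →
        up z (h a) = Polynomial.C A * (Λ.map fun l => Polynomial.X - Polynomial.C l).prod →
        ∀ m, aeval z (q (a, m)) = (Λ.map fun l => (A * l) ^ m).sum := by
  have hsome : CF (some : σ → Option σ) := CF.id.some
  have hG : Cls fun a => Gm (h a) (D a) := by
    unfold Gm
    fun_prop
  have hG' : Cls fun a => pderiv none (Gm (h a) (D a)) := hG.pderiv (CF.const none)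
  refine ⟨fun x => if x.2 = 0 then (D x.1 : MvPolynomial σ ℤ) else
    cf1 x.2 (X none * pderiv none (Gm (h x.1) (D x.1)) *
      ∑ k ∈ Finset.range (x.2 + 1), Gm (h x.1) (D x.1) ^ k), ?_, ?_⟩
  · have h1 : Cls fun x : α × ℕ => pderiv none (Gm (h x.1) (D x.1)) := hG'.comp CF.id.fst
    have h2 : Cls fun x : (α × ℕ) × ℕ => Gm (h x.1.1) (D x.1.1) := hG.comp CF.id.fst.fst
    refine Cls.ite (by fun_prop) (by fun_prop) (Cls.cf1 (((Cls.const _).mul h1).mul ?_) CF.id.snd)
    exact Cls.sum (F := fun (x : α × ℕ) k => Gm (h x.1) (D x.1) ^ k) (by fun_prop)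
      (h2.pow CF.id.snd)
  · intro a z A Λ hΛ hh m
    rcases m with _ | m
    · simp [hΛ]
    · simp only [if_neg (Nat.succ_ne_zero m)]
      have := coeff_powersum (Λ.map (A * ·)) _ (up_Gm (h a) z A Λ hh) m
      rw [Multiset.map_map, hΛ] at this
      rw [aeval_cf1, map_mul, map_mul, map_sum, up_X_none, up_pderiv]
      simp only [map_pow]
      exact this

end Crest.Agent.R316
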