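import Crest.Agent.Lib.PT.All

/-!
# Clocking: every polynomial-time map extends to a total polynomial-time map on trees
-/

namespace Crest.Agent.R316

open Crest.Agent.Lib.PT

namespace Ext

/-- index of a stack -/
def rix : R → ℕ
  | .m => 0
  | .a => 1
  | .b => 2
  | .c => 3

/-- the four stacks as a list -/
def stl (s : St) : List (List Bool) := [s.m, s.a, s.b, s.c]

theorem stl_get (s : St) (r : R) : (stl s).getD (rix r) [] = s.get r := by cases r <;> rfl

theorem stl_set (s : St) (r : R) (l : List Bool) : (stl s).set (rix r) l = stl (s.set r l) := by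
  cases r <;> rfl

/-- an instruction node -/
def ins (t r : ℕ) (x : Bool) (A B C : V) : V := .node (enc (t, r, x)) (.node A (.node B C))

/-- programs as trees -/
def cd : Prog → V
  | .skip => ins 0 0 false .nil .nil .nil
  | .push r x => ins 1 (rix r) x .nil .nil .nil
  | .seq p q => ins 2 0 false (cd p) (cd q) .nil
  | .case r pe pf pt => ins 3 (rix r) false (cd pe) (cd pf) (cd pt)
  | .loop r pf pt => ins 4 (rix r) false .nil (cd pf) (cd pt)
  | .wh r p => ins 5 (rix r) false .nil .nil (cd p)

/-- configurations -/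
abbrev Cfg := List V × List (List Bool)

/-- one step, given the decoded head instruction -/
def core (t r : ℕ) (x : Bool) (h : V) (K : List V) (S : List (List Bool)) : Cfg :=
  if t = 0 then (K, S)
  else if t = 1 then (K, S.set r (x :: S.getD r []))
  else if t = 2 then (h.right.left :: h.right.right.left :: K, S)
  else if t = 3 then
    (if S.getD r [] = [] then (h.right.left :: K, S)
    else if (S.getD r []).headD false = false then
      (h.right.right.left :: K, S.set r (S.getD r []).tail)
    else (h.right.right.right :: K, S.set r (S.getD r []).tail))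
  else if S.getD r [] = [] then (K, S)
  else if (S.getD r []).headD false = false then
    (if t = 4 then (h.right.right.left :: h :: K, S.set r (S.getD r []).tail)
    else (K, S.set r (S.getD r []).tail))
  else (h.right.right.right :: h :: K, S.set r (S.getD r []).tail)

/-- one step -/
def step (c : Cfg) : Cfg :=
  core (dec (c.1.headD .nil).left : ℕ × ℕ × Bool).1 (dec (c.1.headD .nil).left : ℕ × ℕ × Bool).2.1
    (dec (c.1.headD .nil).left : ℕ × ℕ × Bool).2.2 (c.1.headD .nil) c.1.tail c.2

theorem step_ins (t r : ℕ) (x : Bool) (A B C : V) (K : List V) (S : List (List Bool)) :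
    step (ins t r x A B C :: K, S) = core t r x (ins t r x A B C) K S := by
  simp only [step, List.headD_cons, List.tail_cons, ins, V.left_node, dec_enc]

theorem step_nil (S : List (List Bool)) : step ([], S) = ([], S) := rfl

theorem step_pt : PT step := by
  unfold step core
  fun_prop

theorem iter_nil (n : ℕ) (S : List (List Bool)) : step^[n] ([], S) = ([], S) :=
  Function.iterate_fixed (step_nil S) n

theorem sim {p : Prog} {s s' : St} {n : ℕ} (h : Exec p s s' n) :
    ∃ m, m + 1 ≤ 2 * n ∧ ∀ K, step^[m] (cd p :: K, stl s) = (K, stl s') := by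
  induction h with
  | mono _ hn ih =>
    obtain ⟨m, hm, h⟩ := ih
    exact ⟨m, by omega, h⟩
  | skip s => exact ⟨1, by omega, fun K => by simp [cd, step_ins, core]⟩
  | push r x s =>
    refine ⟨1, by omega, fun K => ?_⟩
    simp only [Function.iterate_one, cd, step_ins, core, stl_get, stl_set]
    simp
  | @seq p q _ _ _ _ _ _ _ ih1 ih2 =>
    obtain ⟨m1, hm1, h1⟩ := ih1
    obtain ⟨m2, hm2, h2⟩ := ih2
    refine ⟨m2 + m1 + 1, by omega, fun K => ?_⟩
    rw [Function.iterate_succ_apply, Function.iterate_add_apply, ← h2 K, ← h1 (cd q :: K)]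
    congr 2
  | caseE hr _ ih =>
    obtain ⟨m1, hm1, h1⟩ := ih
    refine ⟨m1 + 1, by omega, fun K => ?_⟩
    rw [Function.iterate_succ_apply, ← h1 K]
    congr 1
    simp only [cd, step_ins, core, stl_get, stl_set, hr]
    simp [ins]
  | caseF hr _ ih =>
    obtain ⟨m1, hm1, h1⟩ := ih
    refine ⟨m1 + 1, by omega, fun K => ?_⟩
    rw [Function.iterate_succ_apply, ← h1 K]
    congr 1
    simp only [cd, step_ins, core, stl_get, stl_set, hr]
    simp [ins]
  | caseT hr _ ih =>
    obtain ⟨m1, hm1, h1⟩ := ih
    refine ⟨m1 + 1, by omega, fun K => ?_⟩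
    rw [Function.iterate_succ_apply, ← h1 K]
    congr 1
    simp only [cd, step_ins, core, stl_get, stl_set, hr]
    simp [ins]
  | loopE hr =>
    refine ⟨1, by omega, fun K => ?_⟩
    simp only [Function.iterate_one, cd, step_ins, core, stl_get, stl_set, hr]
    simp
  | @loopF r pf pt _ _ _ _ _ _ hr _ _ ih1 ih2 =>
    obtain ⟨m1, hm1, h1⟩ := ih1
    obtain ⟨m2, hm2, h2⟩ := ih2
    refine ⟨m2 + m1 + 1, by omega, fun K => ?_⟩
    rw [Function.iterate_succ_apply, Function.iterate_add_apply, ← h2 K,
      ← h1 (cd (.loop r pf pt) :: K)]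
    congr 2
    simp only [cd, step_ins, core, stl_get, stl_set, hr]
    simp [ins]
  | @loopT r pf pt _ _ _ _ _ _ hr _ _ ih1 ih2 =>
    obtain ⟨m1, hm1, h1⟩ := ih1
    obtain ⟨m2, hm2, h2⟩ := ih2
    refine ⟨m2 + m1 + 1, by omega, fun K => ?_⟩
    rw [Function.iterate_succ_apply, Function.iterate_add_apply, ← h2 K,
      ← h1 (cd (.loop r pf pt) :: K)]
    congr 2
    simp only [cd, step_ins, core, stl_get, stl_set, hr]
    simp [ins]
  | whF hr =>
    refine ⟨1, by omega, fun K => ?_⟩
    simp only [Function.iterate_one, cd, step_ins, core, stl_get, stl_set, hr]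
    simp
  | @whT r p _ _ _ _ _ _ hr _ _ ih1 ih2 =>
    obtain ⟨m1, hm1, h1⟩ := ih1
    obtain ⟨m2, hm2, h2⟩ := ih2
    refine ⟨m2 + m1 + 1, by omega, fun K => ?_⟩
    rw [Function.iterate_succ_apply, Function.iterate_add_apply, ← h2 K,
      ← h1 (cd (.wh r p) :: K)]
    congr 2
    simp only [cd, step_ins, core, stl_get, stl_set, hr]
    simp [ins]

theorem sz_set_le (S : List (List Bool)) (y : List Bool) : ∀ r : ℕ,
    sz (S.set r y) + sz (S.getD r []) ≤ sz S + sz y := by
  induction S with
  | nil => intro r; have := one_le_sz y; simp; omega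
  | cons a S ih =>
    intro r
    cases r with
    | zero => simp; omega
    | succ r =>
      have := ih r
      simp only [List.set_cons_succ, sz_cons, List.getD_cons_succ]
      omega

theorem sz_tail_le {β : Type} [Enc β] (l : List β) : sz l.tail ≤ sz l :=
  sz_sublist (List.tail_sublist l)

theorem core_inv (t r : ℕ) (x : Bool) (h : V) (K : List V) (S : List (List Bool)) (B : ℕ)
    (hh : h.size ≤ B) (hK : ∀ v ∈ K, v.size ≤ B) :
    (∀ v ∈ (core t r x h K S).1, v.size ≤ B) ∧
      sz (core t r x h K S) ≤ sz K + sz S + 2 * B + 5 := by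
  have a1 := h.size_right_le
  have a2 := h.right.size_left_le
  have a3 := h.right.size_right_le
  have a4 := h.right.right.size_left_le
  have a5 := h.right.right.size_right_le
  have b1 := sz_set_le S (x :: S.getD r []) r
  have b2 := sz_set_le S (S.getD r []).tail r
  have b3 := sz_tail_le (S.getD r [])
  have b4 := sz_bool_le x
  rw [sz_cons] at b1
  unfold core
  split_ifs <;>
    refine ⟨?_, by simp only [sz_mk, sz_cons, sz_V]; omega⟩ <;>
    simp only [List.forall_mem_cons] <;>
    first
      | exact hK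
      | exact ⟨by omega, hK⟩
      | exact ⟨by omega, by omega, hK⟩

theorem step_inv (c : Cfg) (B : ℕ) (hB : 1 ≤ B) (hK : ∀ v ∈ c.1, v.size ≤ B) :
    (∀ v ∈ (step c).1, v.size ≤ B) ∧ sz (step c) ≤ sz c + (2 * B + 5) := by
  have hh : (c.1.headD .nil).size ≤ B := by
    cases hc : c.1 with
    | nil => simpa using hB
    | cons v K => exact hK v (by rw [hc]; exact List.mem_cons_self)
  obtain ⟨h1, h2⟩ := core_inv (dec (c.1.headD .nil).left : ℕ × ℕ × Bool).1
    (dec (c.1.headD .nil).left : ℕ × ℕ × Bool).2.1
    (dec (c.1.headD .nil).left : ℕ × ℕ × Bool).2.2 (c.1.headD .nil) c.1.tail c.2 B hh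
    fun v hv => hK v (List.mem_of_mem_tail hv)
  refine ⟨h1, h2.trans ?_⟩
  have := sz_tail_le c.1
  rw [sz_prod]
  omega

theorem run_pt (w : V) (c k : ℕ) :
    PT fun v : V => step^[2 * (c * v.bits.length ^ k)] ([w], [v.bits, [], [], []]) := by
  refine PT.iterate_inv (f := fun _ => step)
    (fun v j x => (∀ u ∈ x.1, u.size ≤ w.size) ∧
      sz x ≤ sz (([w], [v.bits, [], [], []]) : Cfg) + j * (2 * w.size + 5))
    (by fun_prop) (by fun_prop) (by fun_prop) (fun v => ⟨by simp, by simp⟩)
    (fun v j x _ hx => ?_) (PT.restrict (step_pt.comp PT.id.snd) _)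
    (B := fun v => sz (([w], [v.bits, [], [], []]) : Cfg) +
      2 * (c * v.bits.length ^ k) * (2 * w.size + 5)) (by fun_prop) (fun v j x hj hx => ?_)
  · obtain ⟨h1, h2⟩ := step_inv x w.size w.one_le_size hx.1
    refine ⟨h1, ?_⟩
    have := hx.2
    rw [Nat.succ_mul]
    omega
  · exact hx.2.trans (Nat.add_le_add_left (Nat.mul_le_mul_right _ hj) _)

end Ext

open Ext in
/-- A `PT` map between encoded types is the restriction of a `PT` map on all trees. -/
theorem PT_extend {α β : Type} [Enc α] [Enc β] {f : α → β} (hf : PT f) :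
    ∃ F : V → V, PT F ∧ ∀ a, F (enc a) = enc (f a) := by
  obtain ⟨T, ⟨c, k, hT⟩, p, hp⟩ := hf
  refine ⟨fun v => unbits
    ((step^[2 * (c * v.bits.length ^ k)] ([cd p], [v.bits, [], [], []])).2.headD []),
    PT.unbits (PT.headD (run_pt (cd p) c k).snd (PT.const _)), fun a => ?_⟩
  have h := hp a []
  rw [List.append_nil, List.append_nil] at h
  obtain ⟨m, hm, hs⟩ := sim h
  have hle : m ≤ 2 * (c * (enc a).bits.length ^ k) := by
    have := hT a
    rw [V.length_bits]
    unfold sz at this
    omega
  obtain ⟨j, hj⟩ := Nat.exists_eq_add_of_le' hle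
  have hs' : step^[m] ([cd p], [(enc a).bits, [], [], []]) =
      ([], [(enc (f a)).bits, [], [], []]) := hs []
  simp only
  rw [hj, Function.iterate_add_apply, hs', iter_nil, List.headD_cons, unbits_bits]

end Crest.Agent.R316
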