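import Crest.Agent.R316.Cls

/-!
# Signs of uniform big integers (Chinese remaindering)
-/

namespace Crest.Agent.R316

open Crest.Agent.Lib.PT MvPolynomial

variable {α β σ : Type} [Enc α] [Enc β] [Enc σ]

namespace Sign

theorem primes_lower (t : ℕ) (ht : 3 ≤ t) : 2 ^ t ≤ 2 * t * (Nat.primesLE (2 ^ t)).card := by
  have h1 := Chebyshev.two_pow_le_mul_lcmUpto (2 ^ t)
  have h2 : Nat.lcmUpto (2 ^ t) ≤ (2 ^ t) ^ (Nat.primesLE (2 ^ t)).card := by
    rw [Nat.lcmUpto_eq_prod_pow_log]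
    exact Finset.prod_le_pow_card _ _ _ fun p _ => Nat.pow_log_le_self p (by positivity)
  have h3 : 2 ^ t + 1 ≤ 2 ^ (t + 1) := by
    have : 1 ≤ 2 ^ t := Nat.one_le_two_pow
    rw [pow_succ]; omega
  have h4 : 2 ^ (2 ^ t) ≤ 2 ^ (t + 1 + t * (Nat.primesLE (2 ^ t)).card) := by
    rw [pow_add, pow_mul]
    exact h1.trans (Nat.mul_le_mul h3 h2)
  have h5 := (Nat.pow_le_pow_iff_right (by norm_num)).1 h4
  have h6 : 2 * (t + 1) ≤ 2 ^ t := by
    clear h1 h2 h3 h4 h5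
    induction t, ht using Nat.le_induction with
    | base => norm_num
    | succ k hk ih =>
      have : k + 1 ≤ 2 ^ k := Nat.lt_two_pow_self
      rw [pow_succ]; omega
  rw [mul_assoc]; omega

/-- one scale of the test -/
theorem step {Q M Y m : ℤ} {A : ℤ} (hQ : 0 < Q) (hM : 0 < M) (hY1 : 4 * Y ≤ M) (hY2 : -M ≤ 4 * Y)
    (h1 : 128 * Q * Y - Q * M ≤ (A - 128 * Q * m) * M) (h2 : (A - 128 * Q * m) * M ≤ 128 * Q * Y) :
    ((8 * Q ≤ A % (128 * Q) ∧ A % (128 * Q) < 64 * Q) → 0 < Y) ∧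
    (¬ (8 * Q ≤ A % (128 * Q) ∧ A % (128 * Q) ≤ 120 * Q) → 8 * Y ≤ M ∧ -M ≤ 8 * Y) ∧
    (0 < Y → A % (128 * Q) ≤ 120 * Q → A % (128 * Q) < 64 * Q) := by
  set a := A - 128 * Q * m with ha
  have hA : A % (128 * Q) = a % (128 * Q) := by
    rw [ha, Int.sub_mul_emod_self_left]
  have hu : a ≤ 32 * Q := by
    by_contra h
    push Not at h
    nlinarith [mul_pos hQ hM, mul_le_mul_of_nonneg_left hY1 hQ.le, mul_lt_mul_of_pos_right h hM]
  have hl : -(33 * Q) ≤ a := by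
    by_contra h
    push Not at h
    nlinarith [mul_pos hQ hM, mul_le_mul_of_nonneg_left hY2 hQ.le, mul_lt_mul_of_pos_right h hM]
  rw [hA]
  rcases le_or_gt 0 a with h0 | h0
  · rw [Int.emod_eq_of_lt h0 (by omega)]
    refine ⟨fun h => ?_, fun h => ?_, fun _ _ => by omega⟩
    · by_contra hc
      push Not at hc
      nlinarith [mul_pos hQ hM, mul_le_mul_of_nonneg_right h.1 hM.le,
        mul_le_mul_of_nonneg_left hc hQ.le]
    · have h3 : a ≤ 8 * Q := by omega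
      constructor
      · by_contra hc
        push Not at hc
        nlinarith [mul_pos hQ hM, mul_le_mul_of_nonneg_right h3 hM.le,
          mul_lt_mul_of_pos_left hc hQ]
      · by_contra hc
        push Not at hc
        nlinarith [mul_pos hQ hM, mul_nonneg h0 hM.le, mul_lt_mul_of_pos_left hc hQ]
  · have h3 : a % (128 * Q) = a + 128 * Q := by
      rw [← Int.add_emod_right]
      exact Int.emod_eq_of_lt (by omega) (by omega)
    rw [h3]
    refine ⟨fun h => by omega, fun h => ?_, fun hY h => ?_⟩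
    · have h4 : -(8 * Q) ≤ a := by omega
      constructor
      · by_contra hc
        push Not at hc
        nlinarith [mul_pos hQ hM, mul_lt_mul_of_pos_right h0 hM, mul_lt_mul_of_pos_left hc hQ]
      · by_contra hc
        push Not at hc
        nlinarith [mul_pos hQ hM, mul_le_mul_of_nonneg_right h4 hM.le,
          mul_lt_mul_of_pos_left hc hQ]
    · exfalso
      have h4 : a ≤ -(8 * Q) := by omega
      nlinarith [mul_pos hQ hM, mul_le_mul_of_nonneg_right h4 hM.le, mul_pos hQ hY]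

/-- the sign test -/
theorem main {X M : ℤ} {Q K : ℕ} (hQ : 0 < Q) (hM : 0 < M) (hX : 8 * |X| ≤ M) (hK : M ≤ 2 ^ K)
    (A : ℕ → ℕ) (hA : ∀ k, ∃ m : ℤ,
      128 * Q * (2 ^ k * X) - Q * M ≤ (A k - 128 * Q * m) * M ∧
      (A k - 128 * Q * m) * M ≤ 128 * Q * (2 ^ k * X)) :
    (∃ k < K + 1, (8 * Q ≤ A k % (128 * Q) ∧ A k % (128 * Q) < 64 * Q) ∧
      ∀ k' < k, ¬ (8 * Q ≤ A k' % (128 * Q) ∧ A k' % (128 * Q) ≤ 120 * Q)) ↔ 0 < X := by
  have hQ' : (0 : ℤ) < Q := by exact_mod_cast hQ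
  have st : ∀ k, 4 * (2 ^ k * X) ≤ M → -M ≤ 4 * (2 ^ k * X) →
      ((8 * Q ≤ A k % (128 * Q) ∧ A k % (128 * Q) < 64 * Q) → 0 < 2 ^ k * X) ∧
      (¬ (8 * Q ≤ A k % (128 * Q) ∧ A k % (128 * Q) ≤ 120 * Q) →
        8 * (2 ^ k * X) ≤ M ∧ -M ≤ 8 * (2 ^ k * X)) ∧
      (0 < 2 ^ k * X → A k % (128 * Q) ≤ 120 * Q → A k % (128 * Q) < 64 * Q) := by
    intro k h1 h2
    obtain ⟨m, h3, h4⟩ := hA k
    have := step hQ' hM h1 h2 h3 h4
    exact_mod_cast this
  have ind : ∀ k, (∀ k' < k, ¬ (8 * Q ≤ A k' % (128 * Q) ∧ A k' % (128 * Q) ≤ 120 * Q)) →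
      4 * (2 ^ k * X) ≤ M ∧ -M ≤ 4 * (2 ^ k * X) := by
    intro k
    induction k with
    | zero =>
      intro _
      have := le_abs_self X
      have := neg_abs_le X
      have := abs_nonneg X
      constructor <;> linarith
    | succ k ih =>
      intro h
      obtain ⟨h1, h2⟩ := ih fun k' hk' => h k' (by omega)
      obtain ⟨h3, h4⟩ := (st k h1 h2).2.1 (h k (by omega))
      rw [pow_succ]
      constructor <;> linarith
  constructor
  · rintro ⟨k, -, h1, h2⟩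
    obtain ⟨h3, h4⟩ := ind k h2
    exact (pos_iff_pos_of_mul_pos ((st k h3 h4).1 h1)).1 (by positivity)
  · intro hX0
    have hex : ∃ k, k < K + 1 ∧ 8 * Q ≤ A k % (128 * Q) ∧ A k % (128 * Q) ≤ 120 * Q := by
      by_contra hc
      push Not at hc
      obtain ⟨h1, -⟩ := ind (K + 1) fun k' hk' h => absurd h.2 (not_le.2 (hc k' hk' h.1))
      have h2 : (0 : ℤ) < 2 ^ K := by positivity
      rw [pow_succ] at h1
      nlinarith
    classical
    have hs := Nat.find_spec hex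
    have hmin : ∀ k' < Nat.find hex,
        ¬ (8 * Q ≤ A k' % (128 * Q) ∧ A k' % (128 * Q) ≤ 120 * Q) := fun k' hk' h =>
      Nat.find_min hex hk' ⟨hk'.trans hs.1, h⟩
    obtain ⟨h3, h4⟩ := ind _ hmin
    exact ⟨_, hs.1, ⟨hs.2.1, (st _ h3 h4).2.2 (by positivity) hs.2.2⟩, hmin⟩

/-- Chinese remaindering with rounding -/
theorem crt (Ps : Finset ℕ) (hP : ∀ p ∈ Ps, p.Prime) (Y : ℤ) (S : ℕ) (c : ℕ → ℕ)
    (hc : ∀ p ∈ Ps, (c p : ZMod p) * (∏ q ∈ Ps.erase p, q : ℕ) = (Y : ZMod p)) :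
    ∃ m : ℤ, S * Y - Ps.card * (∏ p ∈ Ps, p : ℕ) ≤
        ((∑ p ∈ Ps, c p * S / p : ℕ) - S * m) * (∏ p ∈ Ps, p : ℕ) ∧
      ((∑ p ∈ Ps, c p * S / p : ℕ) - S * m) * ((∏ p ∈ Ps, p : ℕ) : ℤ) ≤ S * Y := by
  set M := ∏ p ∈ Ps, p with hM
  set T : ℕ := ∑ p ∈ Ps, c p * ∏ q ∈ Ps.erase p, q with hT
  have hdvd : (M : ℤ) ∣ T - Y := by
    rw [hM, Nat.cast_prod]
    refine Finset.prod_dvd_of_coprime (fun p hp q hq hne => ?_) fun p hp => ?_
    · exact Nat.isCoprime_iff_coprime.2 ((Nat.coprime_primes (hP p hp) (hP q hq)).2 hne)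
    · rw [← ZMod.intCast_zmod_eq_zero_iff_dvd]
      have : (T : ZMod p) = (Y : ZMod p) := by
        rw [hT, Nat.cast_sum, Finset.sum_eq_single_of_mem p hp, Nat.cast_mul, hc p hp]
        intro q _ hqp
        rw [ZMod.natCast_eq_zero_iff]
        exact Dvd.dvd.mul_left (Finset.dvd_prod_of_mem (fun q => q)
          (Finset.mem_erase.2 ⟨fun h => hqp h.symm, hp⟩)) _
      push_cast
      rw [this, sub_self]
  obtain ⟨m, hm⟩ := hdvd
  have h1 : (∑ p ∈ Ps, c p * S / p) * M ≤ S * T := by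
    rw [hT, Finset.sum_mul, Finset.mul_sum]
    refine Finset.sum_le_sum fun p hp => ?_
    rw [hM, ← Finset.mul_prod_erase Ps (fun q => q) hp, ← mul_assoc, ← mul_assoc, mul_comm S]
    exact Nat.mul_le_mul_right _ (Nat.div_mul_le_self _ _)
  have h2 : S * T ≤ (∑ p ∈ Ps, c p * S / p) * M + Ps.card * M := by
    rw [hT, Finset.sum_mul, Finset.mul_sum, Finset.card_eq_sum_ones, Finset.sum_mul,
      ← Finset.sum_add_distrib]
    refine Finset.sum_le_sum fun p hp => ?_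
    rw [← add_mul, hM, ← Finset.mul_prod_erase Ps (fun q => q) hp, ← mul_assoc, ← mul_assoc,
      mul_comm S]
    refine Nat.mul_le_mul_right _ ?_
    rw [mul_comm _ p]
    exact (Nat.lt_mul_div_succ _ (hP p hp).pos).le
  have h1' : (((∑ p ∈ Ps, c p * S / p : ℕ) : ℤ)) * M ≤ S * T := by exact_mod_cast h1
  have h2' : (S : ℤ) * T ≤ ((∑ p ∈ Ps, c p * S / p : ℕ) : ℤ) * M + Ps.card * M := by
    exact_mod_cast h2
  have h3 : (S : ℤ) * T = S * Y + S * m * M := by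
    have : (T : ℤ) = Y + M * m := by linarith
    rw [this]; ring
  exact ⟨m, by nlinarith, by nlinarith⟩

/-- the residues used by the test -/
noncomputable def cc (P : MvPolynomial σ ℤ) (B Q k p : ℕ) : ℕ :=
  2 ^ k % p * ev p (fun _ => 0) P *
    (((∏ q ∈ Finset.range (Q + 1), if (q.Prime ∧ 2 ^ B < q) ∧ q ≠ p then q else 1) % p) ^ (p - 2) % p)

/-- the approximations used by the test -/
noncomputable def AA (P : MvPolynomial σ ℤ) (B Q k : ℕ) : ℕ :=
  ∑ p ∈ Finset.range (Q + 1), if p.Prime ∧ 2 ^ B < p then cc P B Q k p * (128 * Q) / p else 0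

theorem card_ge (B t : ℕ) (ht : t = 2 * B + 10) :
    2 ^ B + 3 ≤ ((Finset.range (2 ^ t + 1)).filter (fun p => p.Prime ∧ 2 ^ B < p)).card := by
  have h1 := primes_lower t (by omega)
  have h2 : Nat.primesLE (2 ^ t) ⊆ (Finset.range (2 ^ t + 1)).filter
      (fun p => p.Prime ∧ 2 ^ B < p) ∪ Finset.range (2 ^ B + 1) := fun p hp => by
    obtain ⟨h3, h4⟩ := Nat.mem_primesLE.1 hp
    rw [Finset.mem_union, Finset.mem_filter, Finset.mem_range, Finset.mem_range]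
    by_cases h5 : 2 ^ B < p
    · exact Or.inl ⟨by omega, h4, h5⟩
    · exact Or.inr (by omega)
  have h3 := (Finset.card_le_card h2).trans (Finset.card_union_le _ _)
  rw [Finset.card_range] at h3
  have h4 : B < 2 ^ B := Nat.lt_two_pow_self
  have h5 : 2 * t * (8 * 2 ^ B) ≤ 2 ^ t := by
    calc 2 * t * (8 * 2 ^ B) ≤ (128 * 2 ^ B) * (8 * 2 ^ B) :=
          Nat.mul_le_mul_right _ (by omega)
      _ = 2 ^ t := by rw [ht]; ring
  have h6 := Nat.le_of_mul_le_mul_left (h5.trans h1) (by omega)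
  omega

omit [Enc σ] in
theorem test (P : MvPolynomial σ ℤ) (B Q K : ℕ) (hP : nrm P ≤ 2 ^ 2 ^ B) (hQ : 0 < Q)
    (hcard : 2 ^ B + 3 ≤ ((Finset.range (Q + 1)).filter (fun p => p.Prime ∧ 2 ^ B < p)).card)
    (hK : Q ^ Q ≤ 2 ^ K) :
    (∃ k < K + 1, (8 * Q ≤ AA P B Q k % (128 * Q) ∧ AA P B Q k % (128 * Q) < 64 * Q) ∧
      ∀ k' < k, ¬ (8 * Q ≤ AA P B Q k' % (128 * Q) ∧ AA P B Q k' % (128 * Q) ≤ 120 * Q)) ↔
      0 < constantCoeff P := by
  set Ps := (Finset.range (Q + 1)).filter (fun p => p.Prime ∧ 2 ^ B < p) with hPs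
  have hpr : ∀ p ∈ Ps, p.Prime := fun p hp => (Finset.mem_filter.1 hp).2.1
  have hcardle : Ps.card ≤ Q := by
    have : Ps ⊆ Finset.Ioc 0 Q := fun p hp => by
      have h1 := Finset.mem_range.1 (Finset.mem_filter.1 hp).1
      exact Finset.mem_Ioc.2 ⟨(hpr p hp).pos, by omega⟩
    simpa using Finset.card_le_card this
  have hM1 : 2 ^ (2 ^ B + 3) ≤ ∏ p ∈ Ps, p :=
    (Nat.pow_le_pow_right (by norm_num) hcard).trans
      (Finset.pow_card_le_prod _ _ _ fun p hp => (hpr p hp).two_le)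
  have hM2 : ∏ p ∈ Ps, p ≤ 2 ^ K := by
    refine (Finset.prod_le_pow_card _ _ Q fun p hp => ?_).trans
      ((Nat.pow_le_pow_right hQ hcardle).trans hK)
    have := Finset.mem_range.1 (Finset.mem_filter.1 hp).1
    omega
  have hX : (constantCoeff P).natAbs ≤ nrm P := by
    rw [constantCoeff_eq]
    by_cases h0 : (0 : σ →₀ ℕ) ∈ P.support
    · exact Finset.single_le_sum (f := fun m => (P.coeff m).natAbs) (fun _ _ => Nat.zero_le _) h0
    · rw [notMem_support_iff.1 h0]; simp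
  refine main (M := (∏ p ∈ Ps, p : ℕ)) hQ ?_ ?_ (by exact_mod_cast hM2) _ fun k => ?_
  · exact_mod_cast lt_of_lt_of_le (by positivity) hM1
  · rw [← Int.natCast_natAbs]
    have : 8 * (constantCoeff P).natAbs ≤ ∏ p ∈ Ps, p := by
      rw [pow_add] at hM1
      omega
    exact_mod_cast this
  · obtain ⟨m, h1, h2⟩ := crt Ps hpr (2 ^ k * constantCoeff P) (128 * Q) (cc P B Q k) fun p hp => by
      have := Fact.mk (hpr p hp)
      have e1 : (∏ q ∈ Finset.range (Q + 1), if (q.Prime ∧ 2 ^ B < q) ∧ q ≠ p then q else 1) =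
          ∏ q ∈ Ps.erase p, q := by
        rw [← Finset.prod_filter]
        refine Finset.prod_congr ?_ fun _ _ => rfl
        ext q
        simp only [hPs, Finset.mem_filter, Finset.mem_erase]
        tauto
      have e2 : ((∏ q ∈ Ps.erase p, q : ℕ) : ZMod p) ≠ 0 := by
        rw [Nat.cast_prod, Finset.prod_ne_zero_iff]
        intro q hq h
        rw [ZMod.natCast_eq_zero_iff] at h
        obtain ⟨h1, h2⟩ := Finset.mem_erase.1 hq
        exact h1 ((Nat.prime_dvd_prime_iff_eq (hpr p hp) (hpr q h2)).1 h).symm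
      have e3 : ((ev p (fun _ => 0) P : ℕ) : ZMod p) = ((constantCoeff P : ℤ) : ZMod p) := by
        unfold ev
        simp
      have e4 := ZMod.pow_card_sub_one_eq_one e2
      have e5 : p - 1 = p - 2 + 1 := by have := (hpr p hp).two_le; omega
      rw [e5, pow_succ] at e4
      unfold cc
      rw [e1]
      simp only [Nat.cast_mul, ZMod.natCast_mod, Nat.cast_pow, e3, Int.cast_mul, Int.cast_pow]
      rw [mul_assoc, e4]
      simp
    have e : AA P B Q k = ∑ p ∈ Ps, cc P B Q k p * (128 * Q) / p := by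
      unfold AA
      rw [← Finset.sum_filter]
    rw [e]
    have h3 : (Ps.card : ℤ) * (∏ p ∈ Ps, p : ℕ) ≤ Q * (∏ p ∈ Ps, p : ℕ) := by
      exact_mod_cast Nat.mul_le_mul_right _ hcardle
    refine ⟨m, ?_, ?_⟩
    · push_cast at h1 h3 ⊢; linarith
    · push_cast at h2 ⊢; linarith

end Sign

/-- The sign of the constant term of a uniform family is `CF`. -/
theorem Cls.pos_constantCoeff {P : α → MvPolynomial σ ℤ} (hP : Cls P) :
    CF fun a => 0 < constantCoeff (P a) := by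
  obtain ⟨b, hb, -, hn, hev⟩ := hP
  obtain ⟨B, hB1, hB2, hB3⟩ := PB_exists_pt hb
  have hB : CF B := PT_cf hB1
  obtain ⟨Q, K, hQ, hK, hQK⟩ : ∃ Q K : α → ℕ, CF Q ∧ CF K ∧ ∀ a, 0 < Q a ∧
      2 ^ B a + 3 ≤ ((Finset.range (Q a + 1)).filter (fun p => p.Prime ∧ 2 ^ B a < p)).card ∧
      Q a ^ Q a ≤ 2 ^ K a := by
    obtain ⟨t, ht1, ht2, ht3⟩ : ∃ t : α → ℕ, CF t ∧ PB t ∧ ∀ a, t a = 2 * B a + 10 :=
      ⟨fun a => 2 * B a + 10, by fun_prop, by fun_prop, fun _ => rfl⟩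
    have h1 : CF fun a => 2 ^ t a := (CF.const 2).nat_pow ht1 ht2
    exact ⟨fun a => 2 ^ t a, fun a => t a * 2 ^ t a, h1, ht1.nat_mul h1, fun a =>
      ⟨by positivity, Sign.card_ge _ _ (ht3 a), (pow_mul _ _ _).ge⟩⟩
  have h2B : CF fun a => 2 ^ B a := (CF.const 2).nat_pow hB hB2
  have hpr : CF fun x : (α × ℕ) × ℕ => x.2.Prime ∧ 2 ^ B x.1.1 < x.2 :=
    (CF.nat_prime CF.id.snd).and ((h2B.comp CF.id.fst.fst).nat_lt CF.id.snd)
  have hcc : CF fun e : {x : (α × ℕ) × ℕ // x.2.Prime ∧ 2 ^ B x.1.1 < x.2} =>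
      Sign.cc (P e.1.1.1) (B e.1.1.1) (Q e.1.1.1) e.1.1.2 e.1.2 := by
    have hp : CF fun e : {x : (α × ℕ) × ℕ // x.2.Prime ∧ 2 ^ B x.1.1 < x.2} => e.1.2 :=
      CF.id.val.snd
    have ha : CF fun e : {x : (α × ℕ) × ℕ // x.2.Prime ∧ 2 ^ B x.1.1 < x.2} => e.1.1.1 :=
      CF.id.val.fst.fst
    have h1 := CF.nat_powMod (CF.const 2) CF.id.val.fst.snd hp fun e => e.2.1.pos
    have h2 := hev _ _ _ (fun _ _ => 0) ha hp (CF.const 0) fun e =>
      ⟨e.2.1, (Nat.pow_le_pow_right (by norm_num) (hB3 _)).trans_lt e.2.2⟩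
    have h3 : CF fun x : {x : (α × ℕ) × ℕ // x.2.Prime ∧ 2 ^ B x.1.1 < x.2} × ℕ =>
        if (x.2.Prime ∧ 2 ^ B x.1.1.1.1 < x.2) ∧ x.2 ≠ x.1.1.2 then x.2 else 1 :=
      CF.ite' (((CF.nat_prime CF.id.snd).and ((h2B.comp (ha.comp CF.id.fst)).nat_lt
        CF.id.snd)).and (CF.id.snd.ne (hp.comp CF.id.fst))) CF.id.snd (CF.const 1)
    have h4 := CF.prodMod'
      (f := fun e q => if (q.Prime ∧ 2 ^ B e.1.1.1 < q) ∧ q ≠ e.1.2 then q else 1)
      ((hQ.comp ha).nat_add (CF.const 1)) hp (fun e => e.2.1) (h3.restrict _)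
    have h5 := CF.nat_powMod h4 (hp.nat_sub (CF.const 2)) hp fun e => e.2.1.pos
    exact (h1.nat_mul h2).nat_mul h5
  have hA : CF fun x : α × ℕ => Sign.AA (P x.1) (B x.1) (Q x.1) x.2 := by
    unfold Sign.AA
    refine CF.sum_range ((hQ.comp CF.id.fst).nat_add (CF.const 1)) (CF.by_cases hpr ?_ ?_)
    · exact ((hcc.nat_mul ((CF.const 128).nat_mul (hQ.comp CF.id.val.fst.fst))).nat_div
        CF.id.val.snd).of_eq fun e => by rw [if_pos e.2]
    · exact (CF.const 0).of_eq fun e => by rw [if_neg e.2]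
  have hQ1 : CF fun x : α × ℕ => Q x.1 := hQ.comp CF.id.fst
  have hr : CF fun x : α × ℕ => Sign.AA (P x.1) (B x.1) (Q x.1) x.2 % (128 * Q x.1) :=
    hA.nat_mod ((CF.const 128).nat_mul hQ1)
  have hlo := ((CF.const 8).nat_mul hQ1).nat_le hr
  have hin := (hlo.and (hr.nat_le ((CF.const 120).nat_mul hQ1))).not
  have h1 : CF fun x : α × ℕ => ∀ k' < x.2,
      ¬ (8 * Q x.1 ≤ Sign.AA (P x.1) (B x.1) (Q x.1) k' % (128 * Q x.1) ∧
        Sign.AA (P x.1) (B x.1) (Q x.1) k' % (128 * Q x.1) ≤ 120 * Q x.1) :=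
    CF.ball_lt CF.id.snd (hin.comp (CF.id.fst.fst.pair CF.id.snd))
  refine CF.of_iff ?_ fun a => Sign.test (P a) (B a) (Q a) (K a)
    ((hn a).trans (Nat.pow_le_pow_right (by norm_num)
      (Nat.pow_le_pow_right (by norm_num) (hB3 a)))) (hQK a).1 (hQK a).2.1 (hQK a).2.2
  exact CF.bex_lt (hK.nat_add (CF.const 1))
    ((hlo.and (hr.nat_lt ((CF.const 64).nat_mul hQ1))).and h1)

/-- The origin is an algebraic point. -/
theorem alg_zero : Alg fun (_ : β) (_ : σ) => (0 : ℝ) := by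
  have e : ∀ P : MvPolynomial σ ℤ, aeval (fun _ => (0 : ℝ)) P = ((constantCoeff P : ℤ) : ℝ) :=
    fun P => by simp
  refine ⟨⟨fun _ => 0, by fun_prop, fun _ _ => by simp⟩, fun γ _ g P _ _ => ?_,
    fun γ _ g P _ hP => ?_⟩
  · refine ⟨fun _ => 0, by fun_prop, fun a h => ?_⟩
    rw [e] at h ⊢
    have h1 : (1 : ℤ) ≤ |constantCoeff (P a)| := Int.one_le_abs (by exact_mod_cast h)
    have h2 : (1 : ℝ) ≤ |((constantCoeff (P a) : ℤ) : ℝ)| := by exact_mod_cast h1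
    norm_num
    linarith
  · exact hP.pos_constantCoeff.of_iff fun a => by rw [e]; exact_mod_cast Iff.rfl

end Crest.Agent.R316
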