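import Crest.Agent.R316.Syntax
import Crest.Agent.R316.ExBlock
import Crest.Agent.R316.Sign

/-!
# The existential-universal theory of the reals is in the counting hierarchy
-/

namespace Crest.Agent.R316

open Crest.Agent.Lib.PT Crest.RealEA

theorem eatr_cf : CF fun w : List Bool => w ∈ EATR := by
  obtain ⟨i1, i2, henc, hwf, ⟨c, hc⟩, n, T, hn, hb, hT, hS⟩ := exists_syntax
  have h1 := ((hT.compl.ex (PT_cf hn) hb).compl.ex (PT_cf hn) hb).dec Sentence (fun S => S)
    (fun _ _ => 0) CF.id alg_zero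
  have h2 : CF fun S : Sentence => S.WF ∧ S.IsTrue := by
    refine ((PT_cf hwf).and h1).of_iff fun S => and_congr_right fun h => ?_
    rw [hS S h]
    simp
  have h3 : CF fun x : List Bool × Sentence => (x.2.WF ∧ x.2.IsTrue) ∧ x.2.encode = x.1 :=
    (h2.comp CF.id.snd).and (((PT_cf henc).comp CF.id.snd).eq CF.id.fst)
  refine (CF.bex_sz (B := fun w : List Bool => c * (w.length + 1))
    (q := fun w S => (S.WF ∧ S.IsTrue) ∧ S.encode = w) (by fun_prop) (by fun_prop) h3).of_iff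
    fun w => ⟨fun ⟨S, _, ⟨a, b⟩, e⟩ => ⟨S, a, b, e⟩, fun ⟨S, a, b, e⟩ => ⟨S, e ▸ hc S, ⟨a, b⟩, e⟩⟩

theorem eatr_mem_level : ∃ j : ℕ, EATR ∈ Crest.CountHier.level j := eatr_cf.mem_level

end Crest.Agent.R316
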