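import Crest.Agent.R316.Exp

/-!
# Norms over grids of roots
-/

namespace Crest.Agent.R316

open Crest.Agent.Lib.PT MvPolynomial

variable {α σ : Type} [Enc α] [Enc σ]

theorem grid_enum {d : ℕ} (Λ : Multiset ℂ) (h : Λ.card = d) :
    ∃ ρ : Fin d → ℂ, Λ = Finset.univ.val.map ρ := by
  induction Λ using Quotient.inductionOn with
  | h l =>
    have h' : l.length = d := h
    subst h'
    exact ⟨l.get, ((Fin.univ_val_map _).trans (by rw [List.ofFn_get]; rfl)).symm⟩

theorem grid_eval_box {n K : ℕ} (U : MvPolynomial (Fin n) ℂ) (hU : U.totalDegree < K)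
    (y : Fin n → ℂ) :
    eval y U = ∑ κ ∈ Fintype.piFinset (fun _ : Fin n => Finset.range K),
      coeff (Finsupp.equivFunOnFinite.symm κ) U * ∏ i, y i ^ κ i := by
  rw [eval_eq']
  have e := Finset.sum_map (Fintype.piFinset (fun _ : Fin n => Finset.range K))
    (Finsupp.equivFunOnFinite (α := Fin n) (M := ℕ)).symm.toEmbedding
    (fun d => coeff d U * ∏ i, y i ^ d i)
  refine Eq.trans ?_ e
  refine Finset.sum_subset (fun d hd => ?_) fun d _ hd => ?_
  · refine Finset.mem_map.2 ⟨fun i => d i, Fintype.mem_piFinset.2 fun i => Finset.mem_range.2 ?_,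
      by ext i; simp⟩
    exact ((monomial_le_degreeOf i hd).trans (degreeOf_le_totalDegree U i)).trans_lt hU
  · rw [notMem_support_iff.1 hd, zero_mul]

theorem grid_power_sum {n : ℕ} {D : ℕ → ℕ} (ρ : Roots n D) (A : Fin n → ℂ) (m : ℕ)
    (U : MvPolynomial (Fin n) ℂ) (hU : U.totalDegree ≤ m) :
    ∑ I : GIdx n D, (∏ i, A i) ^ m * eval (fun i => ρ i (I i)) U =
      ∑ c ∈ Finset.range ((m + 1) ^ n), coeff (expo n (dig (m + 1) c)) U *
        ∏ i : Fin n, (A i ^ (m - dig (m + 1) c i) * ∑ r, (A i * ρ i r) ^ dig (m + 1) c i) := by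
  refine Eq.trans ?_ (sum_box n (m + 1) (fun κ => coeff (Finsupp.equivFunOnFinite.symm κ) U *
    ∏ i : Fin n, (A i ^ (m - κ i) * ∑ r, (A i * ρ i r) ^ κ i)))
  simp only [grid_eval_box U (Nat.lt_succ_of_le hU), Finset.mul_sum]
  rw [Finset.sum_comm]
  refine Finset.sum_congr rfl fun κ hκ => ?_
  rw [Finset.prod_univ_sum, Fintype.piFinset_univ, Finset.mul_sum]
  refine Finset.sum_congr rfl fun I _ => ?_
  rw [mul_left_comm, ← Finset.prod_pow, ← Finset.prod_mul_distrib]
  congr 1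
  refine Finset.prod_congr rfl fun i _ => ?_
  have : κ i ≤ m := Nat.le_of_lt_succ (Finset.mem_range.1 (Fintype.mem_piFinset.1 hκ i))
  rw [mul_pow, ← mul_assoc, ← pow_add, Nat.sub_add_cancel this]

theorem grid_scale {ι : Type} [Fintype ι] (s : ℂ) (g : ι → ℂ) (j : ℕ) :
    (∏ I, (Polynomial.X - Polynomial.C (s * g I))).coeff j * s ^ j =
      s ^ Fintype.card ι * (∏ I, (Polynomial.X - Polynomial.C (g I))).coeff j := by
  rw [← Polynomial.comp_C_mul_X_coeff, Polynomial.prod_comp, ← Polynomial.coeff_C_mul, map_pow,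
    ← Finset.card_univ, ← Finset.prod_const, ← Finset.prod_mul_distrib]
  congr 1
  refine Finset.prod_congr rfl fun I _ => ?_
  simp [mul_sub]

/-- Roots can be enumerated. -/
theorem exists_isRoots {σ : Type} (n : ℕ) (D : ℕ → ℕ) (h : ℕ → MvPolynomial (Option σ) ℤ)
    (hdeg : ∀ i < n, ∀ l, D i < l → cf1 l (h i) = 0) (z : σ → ℝ)
    (hz : ∀ i < n, aeval z (cf1 (D i) (h i)) ≠ 0) : ∃ ρ : Roots n D, IsRoots n D h z ρ := by
  have key : ∀ i : Fin n, ∃ ρ : Fin (D i) → ℂ,
      up (fun j => (z j : ℂ)) (h i) = Polynomial.C ((aeval z (cf1 (D i) (h i)) : ℝ) : ℂ) *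
        ∏ r, (Polynomial.X - Polynomial.C (ρ r)) := by
    intro i
    have hc : ∀ l, (up (fun j => (z j : ℂ)) (h i)).coeff l = ((aeval z (cf1 l (h i)) : ℝ) : ℂ) :=
      fun l => by rw [ofReal_aeval, aeval_cf1]
    have hd : (up (fun j => (z j : ℂ)) (h i)).natDegree = D i := by
      refine Polynomial.natDegree_eq_of_le_of_coeff_ne_zero
        (Polynomial.natDegree_le_iff_coeff_eq_zero.2 fun l hl => ?_) ?_
      · rw [hc, hdeg i i.2 l hl]
        simp
      · rw [hc]
        exact_mod_cast hz i i.2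
    have hr := IsAlgClosed.card_roots_eq_natDegree (p := up (fun j => (z j : ℂ)) (h i))
    obtain ⟨ρ, hρ⟩ := grid_enum _ (hr.trans hd)
    refine ⟨ρ, ?_⟩
    have := Polynomial.C_leadingCoeff_mul_prod_multiset_X_sub_C hr
    rw [Polynomial.leadingCoeff, hd, hc, hρ, Multiset.map_map] at this
    exact this.symm
  choose ρ hρ using key
  exact ⟨ρ, fun i => ⟨hz i i.2, hρ i⟩⟩

/-- The monic polynomial whose roots are the values of `u` on the grid, up to a positive factor. -/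
theorem exists_gridNorm {n : α → ℕ} (hn : CF n) (hb : PB n) {D : α → ℕ → ℕ}
    (hD : CF fun x : α × ℕ => D x.1 x.2) {h : α → ℕ → MvPolynomial (Option σ) ℤ}
    (hh : Cls fun x : α × ℕ => h x.1 x.2) {u : α → MvPolynomial (σ ⊕ ℕ) ℤ} (hu : Cls u) :
    ∃ N : α × ℕ → MvPolynomial σ ℤ, Cls N ∧
      ∀ a (z : σ → ℝ) (ρ : Roots (n a) (D a)), IsRoots (n a) (D a) (h a) z ρ →
        ∃ c : ℝ, 0 < c ∧ ∀ j, ((aeval z (N (a, j)) : ℝ) : ℂ) =
          c * (∏ I : GIdx (n a) (D a),
            (Polynomial.X - Polynomial.C (gval z ρ I (u a)))).coeff j := by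
  have hA : Cls fun x : α × ℕ => cf1 (D x.1 x.2) (h x.1 x.2) := hh.cf1 hD
  obtain ⟨dg, hdg, hdeg⟩ := hu.deg_bound
  obtain ⟨q, hq, hq'⟩ := exists_powersum hh hD
  have hs : Cls fun a => (∏ i ∈ Finset.range (n a), cf1 (D a i) (h a i)) ^ (2 * dg a) :=
    (Cls.prod hn hA).pow (by fun_prop)
  have hp : Cls fun x : α × ℕ => ∑ c ∈ Finset.range ((2 * dg x.1 * x.2 + 1) ^ n x.1),
      cfn (n x.1) (dig (2 * dg x.1 * x.2 + 1) c) (u x.1 ^ x.2) *
        ∏ i ∈ Finset.range (n x.1),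
          (cf1 (D x.1 i) (h x.1 i) ^ (2 * dg x.1 * x.2 - dig (2 * dg x.1 * x.2 + 1) c i) *
            q ((x.1, i), dig (2 * dg x.1 * x.2 + 1) c i)) := by
    refine Cls.sum (CF.nat_pow (by fun_prop) (by fun_prop) (by fun_prop)) (Cls.mul ?_ ?_)
    · exact Cls.cfn (P := fun x : (α × ℕ) × ℕ => u x.1.1 ^ x.1.2) (by fun_prop) (by fun_prop)
        (by fun_prop) (μ := fun x => dig (2 * dg x.1.1 * x.1.2 + 1) x.2) (by fun_prop)
    · refine Cls.prod (by fun_prop) (Cls.mul (Cls.pow ?_ (by fun_prop)) (by fun_prop))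
      exact hA.comp_eq (fun x : ((α × ℕ) × ℕ) × ℕ => (x.1.1.1, x.2)) (by fun_prop)
  obtain ⟨E, hE, hE'⟩ := exists_charpoly hp (CF.prod_range_pb hn hb hD)
  refine ⟨fun x => E x * ((∏ i ∈ Finset.range (n x.1), cf1 (D x.1 i) (h x.1 i)) ^ (2 * dg x.1)) ^ x.2,
    hE.mul ((hs.comp CF.id.fst).pow CF.id.snd), fun a z ρ hρ => ?_⟩
  obtain ⟨c, hc, hc'⟩ := hE' a
  set A : Fin (n a) → ℝ := fun i => aeval z (cf1 (D a i) (h a i)) with hAdef
  have hAc : ∀ i : Fin (n a), aeval (fun j => (z j : ℂ)) (cf1 (D a i) (h a i)) = (A i : ℂ) :=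
    fun i => (ofReal_aeval z _).symm
  have hs0 : 0 < (∏ i, A i) ^ (2 * dg a) :=
    (even_two_mul _).pow_pos (Finset.prod_ne_zero_iff.2 fun i _ => (hρ i).1)
  have hcard : Fintype.card (GIdx (n a) (D a)) = ∏ i ∈ Finset.range (n a), D a i := by
    rw [Fintype.card_pi, Finset.prod_range]
    simp
  have key := hc' (fun j => (z j : ℂ))
    (Finset.univ.val.map fun I : GIdx (n a) (D a) =>
      (∏ i, (A i : ℂ)) ^ (2 * dg a) * gval z ρ I (u a))
    (by rw [Multiset.card_map, ← hcard]; rfl)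
    (fun k _ _ => by
      have hU : (upn (n a) (fun j => (z j : ℂ)) (u a ^ k)).totalDegree ≤ 2 * dg a * k := by
        refine (totalDegree_upn_le _ _ _).trans ((totalDegree_pow _ _).trans ?_)
        have := hdeg a
        nlinarith
      have e := grid_power_sum ρ (fun i => (A i : ℂ)) _ _ hU
      rw [Multiset.map_map]
      change _ = ∑ I : GIdx (n a) (D a), ((∏ i, (A i : ℂ)) ^ (2 * dg a) * gval z ρ I (u a)) ^ k
      refine Eq.trans ?_ (e.symm.trans ?_)
      · rw [map_sum]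
        refine Finset.sum_congr rfl fun c _ => ?_
        rw [map_mul, aeval_cfn, map_prod, Finset.prod_range]
        congr 1
        refine Finset.prod_congr rfl fun i _ => ?_
        rw [map_mul, map_pow, hAc,
          hq' (a, i) _ (A i) (Finset.univ.val.map (ρ i)) (by simp)
            (by rw [Multiset.map_map]; exact (hρ i).2), Multiset.map_map]
        rfl
      · refine Finset.sum_congr rfl fun I _ => ?_
        rw [mul_pow, ← pow_mul, eval_upn, map_pow, gval])
  refine ⟨c * ((∏ i, A i) ^ (2 * dg a)) ^ Fintype.card (GIdx (n a) (D a)), by positivity,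
    fun j => ?_⟩
  have e := grid_scale ((∏ i, (A i : ℂ)) ^ (2 * dg a)) (fun I => gval z ρ I (u a)) j
  rw [ofReal_aeval, map_mul, key j, map_pow, map_pow, map_prod, Finset.prod_range,
    Multiset.map_map]
  simp only [hAc]
  push_cast
  rw [mul_assoc, mul_assoc, ← e]
  rfl

end Crest.Agent.R316
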