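import Crest.Agent.R316.GridDecAux
import Crest.Agent.R316.Del

/-!
# Deciding grid projections; `Good` is closed under grid projections
-/

namespace Crest.Agent.R316

open Crest.Agent.Lib.PT MvPolynomial

theorem abs_sgn_le (x : ℝ) : |sgn x| ≤ 1 := by
  unfold sgn; split_ifs <;> simp

theorem sgn_eq_one {x : ℝ} : sgn x = 1 ↔ 0 < x := by
  unfold sgn; split_ifs <;> simp_all

section point

variable {β σ : Type} [Enc β] [Enc σ]
  {ξ : β → σ → ℝ} {n : β → ℕ} {D : β → ℕ → ℕ} {h : β → ℕ → MvPolynomial (Option σ) ℤ}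
  {ρ : ∀ b, Roots (n b) (D b)}

/-- The real grid points of odd multiplicity. -/
def oddPts {n : ℕ} {D : ℕ → ℕ} (ρ : Roots n D) : Set (Fin n → ℝ) :=
  {y | Odd {I : GIdx n D | ∀ i, ρ i (I i) = y i}.ncard}

theorem pt_unique {n : ℕ} {D : ℕ → ℕ} (ρ : Roots n D) (I : GIdx n D) (y y' : Fin n → ℝ)
    (h1 : ∀ i, ρ i (I i) = y i) (h2 : ∀ i, ρ i (I i) = y' i) : y = y' :=
  funext fun i => by exact_mod_cast (h1 i).symm.trans (h2 i)

theorem oddPts_exists {n : ℕ} {D : ℕ → ℕ} {ρ : Roots n D} {y : Fin n → ℝ} (hy : y ∈ oddPts ρ) :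
    ∃ I : GIdx n D, ∀ i, ρ i (I i) = y i :=
  Set.nonempty_of_ncard_ne_zero (Odd.pos hy).ne'

theorem oddPts_finite {n : ℕ} {D : ℕ → ℕ} (ρ : Roots n D) : (oddPts ρ).Finite :=
  (finite_of_rel (fun (I : GIdx n D) (y : Fin n → ℝ) => ∀ i, ρ i (I i) = y i)
    (pt_unique ρ)).subset fun _ hy => oddPts_exists hy

theorem oddPts_card_le {n : ℕ} {D : ℕ → ℕ} (ρ : Roots n D) :
    (oddPts_finite ρ).toFinset.card ≤ ∏ i ∈ Finset.range n, D i := by
  classical
  choose F hF using fun y : oddPts ρ => oddPts_exists y.2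
  have hinj : Function.Injective F := fun y y' e =>
    Subtype.ext (pt_unique ρ (F y) _ _ (hF y) (e ▸ hF y'))
  have := (oddPts_finite ρ).fintype
  have h1 := Fintype.card_le_of_injective F hinj
  rw [Fintype.card_pi] at h1
  simp only [Fintype.card_fin] at h1
  rw [Finset.prod_range, Set.Finite.card_toFinset]
  exact h1

/-- The parity oracle in terms of points of odd multiplicity. -/
theorem AlgGrid.parity_pts (H : AlgGrid ξ n D h ρ) {γ : Type} [Enc γ] {f : γ → β} (hf : CF f)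
    {L R : γ → ℕ} (hL : CF L) (hR : CF R) {g : γ → ℕ → MvPolynomial (σ ⊕ ℕ) ℤ}
    (hg : Cls fun x : γ × ℕ => g x.1 x.2) {c : γ → ℕ → ℕ → ℤ}
    (hc : CF fun x : γ × ℕ × ℕ => c x.1 x.2.1 x.2.2) {w : γ → ℕ → ℤ}
    (hw : CF fun x : γ × ℕ => w x.1 x.2) :
    CF fun e => Odd {y | y ∈ oddPts (ρ (f e)) ∧ ∀ r < R e,
        ∑ l ∈ Finset.range (L e), c e r l * sgn (aeval (Sum.elim (ξ (f e)) (extn y)) (g e l)) =
          w e r}.ncard :=
  (H.parity hf hL hR hg hc hw).of_iff fun e =>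
    odd_ncard_iff (fun (I : GIdx (n (f e)) (D (f e))) (y : Fin (n (f e)) → ℝ) =>
      ∀ i, ρ (f e) i (I i) = y i) (pt_unique _) _

/-- A uniform family of hash functions on real points, one of which separates the real grid
points of odd multiplicity. -/
theorem AlgGrid.exists_thom (H : AlgGrid ξ n D h ρ)
    (hdeg : ∀ b, ∀ i < n b, ∀ l, D b i < l → cf1 l (h b i) = 0) :
    ∃ (L N : β → ℕ) (th : β → ℕ → MvPolynomial (σ ⊕ ℕ) ℤ), CF L ∧ CF N ∧
      (Cls fun x : β × ℕ => th x.1 x.2) ∧ ∀ b, ∃ s < (2 * N b + 1) ^ 2,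
        ∀ y ∈ oddPts (ρ b), ∀ y' ∈ oddPts (ρ b),
          ∑ l ∈ Finset.range (L b), (hw (N b) s l : ℤ) *
            sgn (aeval (Sum.elim (ξ b) (extn y)) (th b l)) =
          ∑ l ∈ Finset.range (L b), (hw (N b) s l : ℤ) *
            sgn (aeval (Sum.elim (ξ b) (extn y')) (th b l)) → y = y' := by
  have hn := H.cf_n
  have hD := H.cf_D
  let Dm : β → ℕ := fun b => ∑ i ∈ Finset.range (n b), D b i + 1
  have hDm : CF Dm := (CF.sum_range hn hD).nat_add (CF.const 1)
  let Dt : β → ℕ := fun b => ∏ i ∈ Finset.range (n b), D b i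
  have hDt : CF Dt := CF.prod_range_pb hn H.pb_n hD
  refine ⟨fun b => n b * Dm b, fun b => Dt b * Dt b * (n b * Dm b) + 2,
    fun b l => rename (toBlock (l / Dm b))
      (dpoly (l % Dm b) (D b (l / Dm b)) (h b (l / Dm b))), by fun_prop, by fun_prop, ?_,
    fun b => ?_⟩
  · have e1 : CF fun x : β × ℕ => (x.1, x.2 / Dm x.1) := by fun_prop
    exact Cls.toBlock (Cls.dpoly (H.cls_h.comp e1) (by fun_prop) (hD.comp e1)) (by fun_prop)
  · obtain ⟨s, hs, hsep⟩ := exists_hash (oddPts_finite (ρ b)).toFinset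
      (fun y l => sgn (aeval (Sum.elim (ξ b) (extn y)) (rename (toBlock (l / Dm b))
        (dpoly (l % Dm b) (D b (l / Dm b)) (h b (l / Dm b)))))) (fun _ _ => abs_sgn_le _)
      (L := n b * Dm b) (N := Dt b * Dt b * (n b * Dm b) + 2) (by
        have := oddPts_card_le (ρ b)
        have h2 := Nat.mul_le_mul this this
        rw [sq]
        exact Nat.add_le_add_right (Nat.mul_le_mul_right _ h2) _)
    refine ⟨s, hs, fun y hy y' hy' e => funext fun i => ?_⟩
    have h1 := hsep y (by simpa using hy) y' (by simpa using hy') e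
    obtain ⟨I, hI⟩ := oddPts_exists hy
    have hdi : (up (ξ b) (h b i)).natDegree ≤ D b i :=
      Polynomial.natDegree_le_iff_coeff_eq_zero.2 fun l hl => by
        rw [← aeval_cf1, hdeg b i i.2 l hl, map_zero]
    have hle : D b i < Dm b := Nat.lt_succ_of_le
      (Finset.single_le_sum (f := D b) (fun _ _ => Nat.zero_le _) (Finset.mem_range.2 i.2))
    refine thom ((H.roots b).ne_zero i) ((H.roots b).eval_eq_zero (hI i)) fun j hj => ?_
    have hj' : j < Dm b := by omega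
    have h2 := h1 (j + Dm b * i) (by
      have := Nat.mul_le_mul_right (Dm b) (Nat.succ_le_of_lt i.2)
      rw [Nat.succ_mul, mul_comm] at this
      omega)
    rw [Nat.add_mul_div_left _ _ (by omega), Nat.add_mul_mod_self_left, Nat.div_eq_of_lt hj',
      Nat.mod_eq_of_lt hj', zero_add, aeval_toBlock, aeval_toBlock, up_dpoly _ _ _ _ hdi,
      extn_val, extn_val] at h2
    exact h2

/-- Short codes for real grid points. -/
theorem AlgGrid.exists_point (H : AlgGrid ξ n D h ρ)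
    (hdeg : ∀ b, ∀ i < n b, ∀ l, D b i < l → cf1 l (h b i) = 0) :
    ∃ (M : β → ℕ) (valid : β × ℕ → Prop) (y : ∀ x : Subtype valid, Fin (n x.1.1) → ℝ),
      CF M ∧ CF valid ∧ (Alg fun x : Subtype valid => Sum.elim (ξ x.1.1) (extn (y x))) ∧
      (∀ x, y x ∈ oddPts (ρ x.1.1)) ∧
      ∀ b, ∀ y0 ∈ oddPts (ρ b), ∃ c < M b, ∃ hv : valid (b, c), y ⟨(b, c), hv⟩ = y0 := by
  obtain ⟨L, N, th, hL, hN, hth, hsep⟩ := H.exists_thom hdeg
  let W : ∀ b, ℕ → (Fin (n b) → ℝ) → ℤ := fun b s y =>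
    ∑ l ∈ Finset.range (L b), (hw (N b) s l : ℤ) * sgn (aeval (Sum.elim (ξ b) (extn y)) (th b l))
  let Q : β → ℕ := fun b => (2 * N b + 1) ^ 2
  let Wm : β → ℕ := fun b => L b * (2 * N b)
  have hQ : CF Q := by fun_prop
  have hWm : CF Wm := by fun_prop
  have hW : ∀ b, ∀ s < Q b, ∀ y, |W b s y| ≤ Wm b := fun b s hs y => by
    refine (Finset.abs_sum_le_sum_abs _ _).trans ?_
    refine (Finset.sum_le_card_nsmul _ _ ((2 * N b : ℕ) : ℤ) fun l _ => ?_).trans (by simp [Wm])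
    rw [abs_mul, Nat.abs_cast]
    have h1 : (hw (N b) s l : ℤ) ≤ (2 * N b : ℕ) := by exact_mod_cast hw_le hs l
    have h2 := abs_sgn_le (aeval (Sum.elim (ξ b) (extn y)) (th b l))
    have h3 := abs_nonneg (sgn (aeval (Sum.elim (ξ b) (extn y)) (th b l)))
    have h4 : (0 : ℤ) ≤ hw (N b) s l := Nat.cast_nonneg _
    nlinarith
  let K : ∀ x : β × ℕ, Set (Fin (n x.1) → ℝ) := fun x =>
    {y | y ∈ oddPts (ρ x.1) ∧
      W x.1 (x.2 / (2 * Wm x.1 + 1)) y = ((x.2 % (2 * Wm x.1 + 1) : ℕ) : ℤ) - Wm x.1}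
  let valid : β × ℕ → Prop := fun x => ∃ y, K x = {y}
  choose ys hKy using fun x : Subtype valid => (x.2 : ∃ y, K x.1 = {y})
  have hmem : ∀ x : Subtype valid, ys x ∈ K x.1 := fun x => by rw [hKy]; rfl
  refine ⟨fun b => Q b * (2 * Wm b + 1), valid, ys, by fun_prop, ?_, ?_,
    fun x => (hmem x).1, fun b y0 hy0 => ?_⟩
  · -- validity is `CF`
    have h0 : CF fun x : ((β × ℕ) × ℕ) × ℕ =>
        Odd {y | y ∈ K x.1.1 ∧ W x.1.1.1 x.1.2 y = (x.2 : ℤ) - Wm x.1.1.1}.ncard := by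
      refine (H.parity_pts (f := fun x : ((β × ℕ) × ℕ) × ℕ => x.1.1.1) (by fun_prop)
        (L := fun x => L x.1.1.1) (R := fun _ => 2) (by fun_prop) (by fun_prop)
        (g := fun x l => th x.1.1.1 l)
        (hth.comp_eq (fun x : (((β × ℕ) × ℕ) × ℕ) × ℕ => (x.1.1.1.1, x.2)) (by fun_prop))
        (c := fun x r l => (hw (N x.1.1.1)
          (if r = 0 then x.1.1.2 / (2 * Wm x.1.1.1 + 1) else x.1.2) l : ℤ)) (by fun_prop)
        (w := fun x r => ((if r = 0 then x.1.1.2 % (2 * Wm x.1.1.1 + 1) else x.2 : ℕ) : ℤ) -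
          Wm x.1.1.1) (by fun_prop)).of_iff fun x => ?_
      refine iff_of_eq (congrArg (fun s : Set _ => Odd s.ncard) ?_)
      ext y
      simp only [Set.mem_ofPred_eq, K, W, and_assoc]
      refine and_congr_right fun _ => ⟨fun hh => ⟨?_, ?_⟩, fun hh r hr => ?_⟩
      · simpa using hh 0 (by omega)
      · simpa using hh 1 (by omega)
      · interval_cases r
        · simpa using hh.1
        · simpa using hh.2
    have h1 : CF fun x : β × ℕ => ∀ s < Q x.1, ∃ w < 2 * Wm x.1 + 1,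
        Odd {y | y ∈ K x ∧ W x.1 s y = (w : ℤ) - Wm x.1}.ncard ∧ ∀ w' < 2 * Wm x.1 + 1,
          Odd {y | y ∈ K x ∧ W x.1 s y = (w' : ℤ) - Wm x.1}.ncard → w' = w := by
      refine CF.ball_lt (by fun_prop) (CF.bex_lt (by fun_prop) (h0.and
        (CF.ball_lt (by fun_prop) (CF.imp ?_ (by fun_prop)))))
      exact h0.comp_eq (fun x : (((β × ℕ) × ℕ) × ℕ) × ℕ => (x.1.1, x.2)) (by fun_prop)
    refine h1.of_iff fun x => (single_iff_hash (K x)
      ((oddPts_finite _).subset fun _ hy => hy.1) (W x.1) _ _ (hW x.1) ?_).symm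
    obtain ⟨s, hs, h2⟩ := hsep x.1
    exact ⟨s, hs, fun y hy y' hy' => h2 y hy.1 y' hy'.1⟩
  · -- the point is algebraic
    choose I hI using fun x : Subtype valid => oddPts_exists (hmem x).1
    have hp : CF fun x : Subtype valid => x.1.1 := by fun_prop
    refine ⟨?_, fun γ _ g P hg hP => ?_, fun γ _ g P hg hP => ?_⟩
    · obtain ⟨c₁, h1, h2⟩ := H.alg.size
      obtain ⟨c₂, h3, h4⟩ := H.size
      refine ⟨fun x => c₁ x.1.1 + c₂ x.1.1, by fun_prop, fun x i => ?_⟩
      have m : ∀ a b : ℕ, a ≤ b → (2 : ℝ) ^ 2 ^ a ≤ 2 ^ 2 ^ b := fun a b hab =>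
        pow_le_pow_right₀ one_le_two (Nat.pow_le_pow_right two_pos hab)
      cases i with
      | inl i => exact (h2 _ i).trans (m _ _ (Nat.le_add_right _ _))
      | inr j =>
        refine le_trans ?_ (m _ _ (Nat.le_add_left _ _))
        simp only [Sum.elim_inr, extn]
        split_ifs with hj
        · have := h4 x.1.1 ⟨j, hj⟩ (I x ⟨j, hj⟩)
          rwa [hI, Complex.norm_real, Real.norm_eq_abs] at this
        · simp
    · obtain ⟨c, h1, h2⟩ := H.gap (hp.comp hg) hP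
      refine ⟨c, h1, fun e he => ?_⟩
      have := (h2 e (I (g e))).2
      rw [gval_real (hI (g e)), Complex.norm_real, Real.norm_eq_abs] at this
      exact this (by exact_mod_cast he)
    · refine (H.parity_pts (f := fun e => (g e).1.1) (hp.comp hg)
        (L := fun e => L (g e).1.1 + 1) (R := fun _ => 2) (by fun_prop) (by fun_prop)
        (g := fun e l => if l < L (g e).1.1 then th (g e).1.1 l else P e)
        (Cls.ite (by fun_prop)
          (hth.comp_eq (fun x : γ × ℕ => ((g x.1).1.1, x.2)) (by fun_prop)) (by fun_prop))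
        (c := fun e r l => if r = 0 then (if l < L (g e).1.1 then (hw (N (g e).1.1)
          ((g e).1.2 / (2 * Wm (g e).1.1 + 1)) l : ℤ) else 0) else
          (if l < L (g e).1.1 then 0 else 1)) (by fun_prop)
        (w := fun e r => if r = 0 then (((g e).1.2 % (2 * Wm (g e).1.1 + 1) : ℕ) : ℤ) -
          Wm (g e).1.1 else 1) (by fun_prop)).of_iff fun e => ?_
      have e1 : {y | y ∈ oddPts (ρ (g e).1.1) ∧ ∀ r < 2,
          ∑ l ∈ Finset.range (L (g e).1.1 + 1), (if r = 0 then (if l < L (g e).1.1 then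
            (hw (N (g e).1.1) ((g e).1.2 / (2 * Wm (g e).1.1 + 1)) l : ℤ) else 0) else
            (if l < L (g e).1.1 then 0 else 1)) * sgn (aeval (Sum.elim (ξ (g e).1.1) (extn y))
              (if l < L (g e).1.1 then th (g e).1.1 l else P e)) =
          if r = 0 then (((g e).1.2 % (2 * Wm (g e).1.1 + 1) : ℕ) : ℤ) - Wm (g e).1.1 else 1} =
          {y | y ∈ K (g e).1 ∧ 0 < aeval (Sum.elim (ξ (g e).1.1) (extn y)) (P e)} := by
        ext y
        have a0 : ∑ l ∈ Finset.range (L (g e).1.1 + 1), (if l < L (g e).1.1 then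
            (hw (N (g e).1.1) ((g e).1.2 / (2 * Wm (g e).1.1 + 1)) l : ℤ) else 0) *
            sgn (aeval (Sum.elim (ξ (g e).1.1) (extn y))
              (if l < L (g e).1.1 then th (g e).1.1 l else P e)) =
            W (g e).1.1 ((g e).1.2 / (2 * Wm (g e).1.1 + 1)) y := by
          rw [Finset.sum_range_succ, if_neg (lt_irrefl _), zero_mul, add_zero]
          exact Finset.sum_congr rfl fun l hl => by
            rw [if_pos (Finset.mem_range.1 hl), if_pos (Finset.mem_range.1 hl)]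
        have a1 : ∑ l ∈ Finset.range (L (g e).1.1 + 1), (if l < L (g e).1.1 then 0 else 1) *
            sgn (aeval (Sum.elim (ξ (g e).1.1) (extn y))
              (if l < L (g e).1.1 then th (g e).1.1 l else P e)) =
            sgn (aeval (Sum.elim (ξ (g e).1.1) (extn y)) (P e)) := by
          rw [Finset.sum_range_succ, if_neg (lt_irrefl _), if_neg (lt_irrefl _), one_mul,
            Finset.sum_eq_zero fun l hl => by rw [if_pos (Finset.mem_range.1 hl), zero_mul],
            zero_add]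
        simp only [Set.mem_ofPred_eq, K, and_assoc]
        refine and_congr_right fun _ => ⟨fun hh => ⟨?_, ?_⟩, fun hh r hr => ?_⟩
        · have := hh 0 (by omega)
          simp only [if_true] at this
          exact a0 ▸ this
        · have := hh 1 (by omega)
          simp only [one_ne_zero, if_false] at this
          exact sgn_eq_one.1 (a1 ▸ this)
        · interval_cases r
          · simp only [if_true]
            exact a0 ▸ hh.1
          · simp only [one_ne_zero, if_false]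
            exact a1 ▸ sgn_eq_one.2 hh.2
      rw [e1, hKy]
      by_cases hpos : 0 < aeval (Sum.elim (ξ (g e).1.1) (extn (ys (g e)))) (P e)
      · have : {y | y ∈ ({ys (g e)} : Set _) ∧
            0 < aeval (Sum.elim (ξ (g e).1.1) (extn y)) (P e)} = {ys (g e)} :=
          Set.eq_singleton_iff_unique_mem.2 ⟨⟨rfl, hpos⟩, fun _ hy => hy.1⟩
        rw [this]
        simpa using hpos
      · have : {y | y ∈ ({ys (g e)} : Set _) ∧
            0 < aeval (Sum.elim (ξ (g e).1.1) (extn y)) (P e)} = ∅ :=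
          Set.eq_empty_of_forall_notMem fun y hy => hpos (Set.mem_singleton_iff.1 hy.1 ▸ hy.2)
        rw [this]
        simpa using hpos
  · -- completeness
    obtain ⟨s, hs, h2⟩ := hsep b
    have h3 := abs_le.1 (hW b s hs y0)
    obtain ⟨w, hw, e⟩ : ∃ w < 2 * Wm b + 1, W b s y0 = (w : ℤ) - Wm b :=
      ⟨(W b s y0 + Wm b).toNat, by omega, by omega⟩
    have e1 : (w + (2 * Wm b + 1) * s) / (2 * Wm b + 1) = s := by
      rw [Nat.add_mul_div_left _ _ (by omega), Nat.div_eq_of_lt hw, zero_add]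
    have e2 : (w + (2 * Wm b + 1) * s) % (2 * Wm b + 1) = w := by
      rw [Nat.add_mul_mod_self_left, Nat.mod_eq_of_lt hw]
    have e3 : K (b, w + (2 * Wm b + 1) * s) = {y0} := by
      simp only [K, e1, e2]
      exact Set.eq_singleton_iff_unique_mem.2
        ⟨⟨hy0, e⟩, fun y hy => h2 y hy.1 y0 hy0 (hy.2.trans e.symm)⟩
    refine ⟨w + (2 * Wm b + 1) * s, ?_, ⟨y0, e3⟩, ?_⟩
    · have := Nat.mul_le_mul_right (2 * Wm b + 1) (Nat.succ_le_of_lt hs)
      rw [Nat.succ_mul, mul_comm] at this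
      show _ < Q b * (2 * Wm b + 1)
      simp only [Q]
      omega
    · exact Set.mem_singleton_iff.1 (e3.subset (hmem ⟨(b, w + (2 * Wm b + 1) * s), ⟨y0, e3⟩⟩))

end point

variable {α σ : Type} [Enc α] [Enc σ]

theorem grid_decid {T : α → Set (σ ⊕ ℕ → ℝ)} (hT : Decid T) {n : α → ℕ} (hn : CF n) (hb : PB n)
    {D : α → ℕ → ℕ} (hD : CF fun x : α × ℕ => D x.1 x.2)
    {h : α → ℕ → MvPolynomial (Option σ) ℤ} (hh : Cls fun x : α × ℕ => h x.1 x.2)
    (hdeg : ∀ a, ∀ i < n a, ∀ l, D a i < l → cf1 l (h a i) = 0) :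
    Decid fun a => gridSet (n a) (D a) (h a) (T a) := by
  intro β _ f ξ hf hξ
  have hp : CF fun x : β × ℕ => (f x.1, x.2) := by fun_prop
  refine CF.and' (p := fun e => ∀ i < n (f e), aeval (ξ e) (cf1 (D (f e) i) (h (f e) i)) ≠ 0)
    (CF.ball_lt (hn.comp hf)
      (hξ.eq_zero CF.id.fst ((hh.comp hp).cf1 (hD.comp hp))).not) ?_
  let p₁ : β → Prop := fun e => ∀ i < n (f e), aeval (ξ e) (cf1 (D (f e) i) (h (f e) i)) ≠ 0
  choose ρ hρ using fun e : Subtype p₁ => exists_isRoots (n (f e.1)) (D (f e.1)) (h (f e.1))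
    (hdeg _) (ξ e.1) e.2
  have hv : CF fun e : Subtype p₁ => e.1 := CF.id.val
  have hp' : CF fun x : Subtype p₁ × ℕ => (f x.1.1, x.2) := by fun_prop
  have H : AlgGrid (fun e : Subtype p₁ => ξ e.1) (fun e => n (f e.1)) (fun e => D (f e.1))
      (fun e => h (f e.1)) ρ :=
    ⟨hξ.comp hv, by fun_prop, by fun_prop, hD.comp hp', hh.comp hp', hρ⟩
  obtain ⟨M, valid, y, hM, hval, halg, hy, hc⟩ := H.exists_point fun e => hdeg _
  have h1 : CF fun x : Subtype valid =>
      (∀ i < n (f x.1.1.1), aeval (Sum.elim (ξ x.1.1.1) (extn (y x)))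
        (rename (toBlock i) (pderiv none (h (f x.1.1.1) i))) ≠ 0) ∧
      Sum.elim (ξ x.1.1.1) (extn (y x)) ∈ T (f x.1.1.1) := by
    refine CF.and (CF.ball_lt (by fun_prop) (halg.eq_zero CF.id.fst ?_).not)
      (hT _ _ _ (by fun_prop) halg)
    exact Cls.toBlock (Cls.pderiv (hh.comp_eq
      (fun x : Subtype valid × ℕ => (f x.1.1.1.1, x.2)) (by fun_prop)) (CF.const none)) CF.id.snd
  have h1' := CF.exists_prop (q := fun x hv =>
    (∀ i < n (f x.1.1), aeval (Sum.elim (ξ x.1.1) (extn (y ⟨x, hv⟩)))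
      (rename (toBlock i) (pderiv none (h (f x.1.1) i))) ≠ 0) ∧
    Sum.elim (ξ x.1.1) (extn (y ⟨x, hv⟩)) ∈ T (f x.1.1)) hval h1
  refine (CF.bex_lt (q := fun e c => ∃ hv : valid (e, c),
    (∀ i < n (f e.1), aeval (Sum.elim (ξ e.1) (extn (y ⟨(e, c), hv⟩)))
      (rename (toBlock i) (pderiv none (h (f e.1) i))) ≠ 0) ∧
    Sum.elim (ξ e.1) (extn (y ⟨(e, c), hv⟩)) ∈ T (f e.1)) hM h1').of_iff fun e => ⟨?_, ?_⟩
  · rintro ⟨c, -, hv, h2, h3⟩
    refine ⟨y ⟨(e, c), hv⟩, fun i => ⟨?_, ?_⟩, h3⟩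
    · obtain ⟨I, hI⟩ := oddPts_exists (hy ⟨(e, c), hv⟩)
      exact (hρ e).eval_eq_zero (hI i)
    · have := h2 i i.2
      rwa [aeval_toBlock, up_pderiv, extn_val] at this
  · rintro ⟨y0, h2, h3⟩
    have hodd : y0 ∈ oddPts (ρ e) := by
      choose I hI using fun i => ((hρ e).existsUnique (h2 i).1 (h2 i).2)
      have : {I : GIdx (n (f e.1)) (D (f e.1)) | ∀ i, ρ e i (I i) = y0 i} = {I} :=
        Set.eq_singleton_iff_unique_mem.2
          ⟨fun i => (hI i).1, fun I' hI' => funext fun i => (hI i).2 _ (hI' i)⟩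
      show Odd _
      rw [this]; simp
    obtain ⟨c, hc1, hv, rfl⟩ := hc e y0 hodd
    refine ⟨c, hc1, hv, fun i hi => ?_, h3⟩
    have := (h2 ⟨i, hi⟩).2
    rwa [aeval_toBlock, up_pderiv, extn_val (y ⟨(e, c), hv⟩) ⟨i, hi⟩]

theorem Good.grid {T : α → Set (σ ⊕ ℕ → ℝ)} (hT : Good T) {n : α → ℕ} (hn : CF n) (hb : PB n)
    {D : α → ℕ → ℕ} (hD : CF fun x : α × ℕ => D x.1 x.2)
    {h : α → ℕ → MvPolynomial (Option σ) ℤ} (hh : Cls fun x : α × ℕ => h x.1 x.2)
    (hdeg : ∀ a, ∀ i < n a, ∀ l, D a i < l → cf1 l (h a i) = 0) :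
    Good fun a => gridSet (n a) (D a) (h a) (T a) :=
  ⟨grid_strat hT.strat hn hb hD hh hdeg, grid_decid hT.dec hn hb hD hh hdeg⟩

end Crest.Agent.R316
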