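import Crest.Agent.R316.Thom

/-!
# Auxiliary lemmas for `GridDec`: parity bookkeeping, iterated derivatives, simple roots
-/

namespace Crest.Agent.R316

open Crest.Agent.Lib.PT MvPolynomial

/-! ### Parity bookkeeping -/

theorem finite_of_rel {ι X : Type} [Finite ι] (R : ι → X → Prop)
    (hR : ∀ I y y', R I y → R I y' → y = y') : {y | ∃ I, R I y}.Finite := by
  have : {y | ∃ I, R I y} = ⋃ I, {y | R I y} := by ext; simp
  rw [this]
  exact Set.finite_iUnion fun I => Set.Subsingleton.finite fun y hy y' hy' => hR I y y' hy hy'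

/-- Only points of odd multiplicity matter for the parity. -/
theorem odd_ncard_iff {ι X : Type} [Finite ι] (R : ι → X → Prop)
    (hR : ∀ I y y', R I y → R I y' → y = y') (A : X → Prop) :
    Odd {I | ∃ y, R I y ∧ A y}.ncard ↔ Odd {y | Odd {I | R I y}.ncard ∧ A y}.ncard := by
  classical
  have := Fintype.ofFinite ι
  have hf := finite_of_rel R hR
  have e1 : {I | ∃ y, R I y ∧ A y} =
      ↑((hf.toFinset.filter A).biUnion fun y => Finset.univ.filter fun I => R I y) := by
    ext I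
    simp only [Set.mem_ofPred_eq, Finset.coe_biUnion, Finset.coe_filter, Set.Finite.mem_toFinset,
      Finset.mem_univ, true_and, Set.mem_iUnion, exists_prop]
    exact ⟨fun ⟨y, h1, h2⟩ => ⟨y, ⟨⟨I, h1⟩, h2⟩, h1⟩, fun ⟨y, ⟨_, h2⟩, h1⟩ => ⟨y, h1, h2⟩⟩
  have e2 : ∀ y, {I | R I y}.ncard = (Finset.univ.filter fun I => R I y).card := fun y => by
    rw [← Set.ncard_coe_finset]; congr 1; ext; simp
  have e3 : {y | Odd {I | R I y}.ncard ∧ A y} = ↑((hf.toFinset.filter A).filter fun y =>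
      Odd (Finset.univ.filter fun I => R I y).card) := by
    ext y
    simp only [Set.mem_ofPred_eq, Finset.coe_filter, Finset.mem_filter, Set.Finite.mem_toFinset, e2]
    refine ⟨fun ⟨h1, h2⟩ => ⟨⟨?_, h2⟩, h1⟩, fun ⟨⟨_, h2⟩, h1⟩ => ⟨h1, h2⟩⟩
    obtain ⟨I, hI⟩ := Finset.card_pos.1 h1.pos
    exact ⟨I, by simpa using hI⟩
  rw [e1, e3, Set.ncard_coe_finset, Set.ncard_coe_finset, Finset.card_biUnion,
    Finset.odd_sum_iff_odd_card_odd]
  intro y _ y' _ hne
  refine Finset.disjoint_left.2 fun I h1 h2 => hne ?_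
  simp only [Finset.mem_filter, Finset.mem_univ, true_and] at h1 h2
  exact hR I y y' h1 h2

/-- Being a singleton is detected by parities of hash classes. -/
theorem single_iff_hash {X : Type} (K : Set X) (hK : K.Finite) (W : ℕ → X → ℤ) (Q Wm : ℕ)
    (hW : ∀ s < Q, ∀ y, |W s y| ≤ Wm) (hg : ∃ s < Q, ∀ y ∈ K, ∀ y' ∈ K, W s y = W s y' → y = y') :
    (∃ y, K = {y}) ↔ ∀ s < Q, ∃ w < 2 * Wm + 1, Odd {y | y ∈ K ∧ W s y = (w : ℤ) - Wm}.ncard ∧
      ∀ w' < 2 * Wm + 1, Odd {y | y ∈ K ∧ W s y = (w' : ℤ) - Wm}.ncard → w' = w := by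
  have key : ∀ s < Q, ∀ y, ∃ w < 2 * Wm + 1, W s y = (w : ℤ) - Wm := fun s hs y => by
    have := abs_le.1 (hW s hs y)
    exact ⟨(W s y + Wm).toNat, by omega, by omega⟩
  constructor
  · rintro ⟨y, rfl⟩ s hs
    obtain ⟨w, hw, e⟩ := key s hs y
    refine ⟨w, hw, ?_, fun w' _ h => ?_⟩
    · have : {y' | y' ∈ ({y} : Set X) ∧ W s y' = (w : ℤ) - Wm} = {y} := by
        ext y'
        simp only [Set.mem_singleton_iff, Set.mem_ofPred_eq]
        exact ⟨fun h => h.1, fun h => ⟨h, h ▸ e⟩⟩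
      rw [this]; simp
    · obtain ⟨y', h1, h2⟩ := Set.nonempty_of_ncard_ne_zero h.pos.ne'
      rw [Set.mem_singleton_iff.1 h1] at h2
      omega
  · intro h
    obtain ⟨s, hs, hinj⟩ := hg
    obtain ⟨w, hw, h1, h2⟩ := h s hs
    obtain ⟨y, hy, e⟩ := Set.nonempty_of_ncard_ne_zero h1.pos.ne'
    refine ⟨y, Set.eq_singleton_iff_unique_mem.2 ⟨hy, fun y' hy' => ?_⟩⟩
    obtain ⟨w', hw', e'⟩ := key s hs y'
    have : {y'' | y'' ∈ K ∧ W s y'' = (w' : ℤ) - Wm} = {y'} := by
      refine Set.eq_singleton_iff_unique_mem.2 ⟨⟨hy', e'⟩, fun y'' h'' => ?_⟩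
      exact hinj _ h''.1 _ hy' (h''.2.trans e'.symm)
    have h3 := h2 w' hw' (by rw [this]; simp)
    exact hinj _ hy' _ hy (by rw [e, e', h3])

/-! ### Iterated derivatives -/

/-- The `j`-th derivative in the variable `none` of a polynomial of degree at most `D`. -/
noncomputable def dpoly {σ : Type} (j D : ℕ) (h : MvPolynomial (Option σ) ℤ) :
    MvPolynomial (Option σ) ℤ :=
  ∑ k ∈ Finset.range (D + 1), (∏ r ∈ Finset.range j, ((k + j - r : ℕ) : MvPolynomial (Option σ) ℤ)) *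
    rename some (cf1 (k + j) h) * X none ^ k

theorem up_dpoly {σ K : Type} [CommRing K] (z : σ → K) (j D : ℕ) (h : MvPolynomial (Option σ) ℤ)
    (hD : (up z h).natDegree ≤ D) : up z (dpoly j D h) = Polynomial.derivative^[j] (up z h) := by
  ext m
  have e : ∀ k : ℕ, up z ((∏ r ∈ Finset.range j, ((k + j - r : ℕ) : MvPolynomial (Option σ) ℤ)) *
      rename some (cf1 (k + j) h) * X none ^ k) = Polynomial.monomial k
        (((k + j).descFactorial j : K) * (up z h).coeff (k + j)) := fun k => by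
    rw [map_mul, map_mul, map_pow, up_X_none, up_rename_some, aeval_cf1, ← Nat.cast_prod,
      map_natCast, ← Nat.descFactorial_eq_prod_range, ← Polynomial.C_mul_X_pow_eq_monomial,
      map_mul, map_natCast]
  rw [dpoly, map_sum, Finset.sum_congr rfl fun k _ => e k, Polynomial.finsetSum_coeff,
    Polynomial.coeff_iterate_derivative]
  simp only [Polynomial.coeff_monomial, Finset.sum_ite_eq', Finset.mem_range, nsmul_eq_mul]
  split_ifs with hm
  · rfl
  · rw [Polynomial.coeff_eq_zero_of_natDegree_lt (by omega), mul_zero]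

theorem Cls.dpoly {α σ : Type} [Enc α] [Enc σ] {h : α → MvPolynomial (Option σ) ℤ} (hh : Cls h)
    {j D : α → ℕ} (hj : CF j) (hD : CF D) : Cls fun a => dpoly (j a) (D a) (h a) := by
  have : CF (some : σ → Option σ) := CF.id.some
  unfold R316.dpoly
  fun_prop

/-- The variable `none` becomes the `i`-th variable of the block. -/
def toBlock {σ : Type} (i : ℕ) (o : Option σ) : σ ⊕ ℕ := o.elim (Sum.inr i) Sum.inl

theorem aeval_toBlock {σ K : Type} [CommRing K] (z : σ → K) (y : ℕ → K) (i : ℕ)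
    (P : MvPolynomial (Option σ) ℤ) :
    aeval (Sum.elim z y) (rename (toBlock i) P) = (up z P).eval (y i) := by
  rw [aeval_rename, eval_up]
  congr 2
  funext o
  cases o <;> rfl

theorem Cls.toBlock {α σ : Type} [Enc α] [Enc σ] {P : α → MvPolynomial (Option σ) ℤ} (hP : Cls P)
    {i : α → ℕ} (hi : CF i) : Cls fun a => MvPolynomial.rename (toBlock (i a)) (P a) :=
  hP.rename' (r := fun a => R316.toBlock (i a)) (by unfold R316.toBlock; fun_prop)

/-! ### Roots -/

theorem eval_up_ofReal {σ : Type} (z : σ → ℝ) (t : ℝ) (P : MvPolynomial (Option σ) ℤ) :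
    (up (fun j => (z j : ℂ)) P).eval (t : ℂ) = ((up z P).eval t : ℝ) := by
  rw [eval_up, eval_up, ofReal_aeval]
  congr 2
  funext o
  cases o <;> rfl

section roots

variable {σ : Type} {n : ℕ} {D : ℕ → ℕ} {h : ℕ → MvPolynomial (Option σ) ℤ} {z : σ → ℝ}
  {ρ : Roots n D}

theorem IsRoots.eval_eq_zero (H : IsRoots n D h z ρ) {i : Fin n} {r : Fin (D i)} {t : ℝ}
    (e : ρ i r = t) : (up z (h i)).eval t = 0 := by
  have := eval_up_ofReal z t (h i)
  rw [(H i).2, Polynomial.eval_mul, Polynomial.eval_prod,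
    Finset.prod_eq_zero (Finset.mem_univ r) (by simp [e]), mul_zero] at this
  exact_mod_cast this.symm

theorem IsRoots.ne_zero (H : IsRoots n D h z ρ) (i : Fin n) : up z (h i) ≠ 0 := fun e =>
  (H i).1 (by rw [aeval_cf1, e, Polynomial.coeff_zero])

theorem IsRoots.existsUnique (H : IsRoots n D h z ρ) {i : Fin n} {t : ℝ}
    (h0 : (up z (h i)).eval t = 0) (h1 : (Polynomial.derivative (up z (h i))).eval t ≠ 0) :
    ∃! r, ρ i r = t := by
  have a0 : ((aeval z (cf1 (D i) (h i)) : ℝ) : ℂ) ≠ 0 := by exact_mod_cast (H i).1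
  have e0 := eval_up_ofReal z t (h i)
  rw [h0, (H i).2, Polynomial.eval_mul, Polynomial.eval_prod, Polynomial.eval_C,
    Complex.ofReal_zero, mul_eq_zero, Finset.prod_eq_zero_iff] at e0
  obtain ⟨r, -, hr⟩ := e0.resolve_left a0
  have hr' : ρ i r = t := by
    simp only [Polynomial.eval_sub, Polynomial.eval_X, Polynomial.eval_C] at hr
    exact (sub_eq_zero.1 hr).symm
  refine ⟨r, hr', fun r' hr'' => ?_⟩
  by_contra hne
  apply h1
  have e1 := eval_up_ofReal z t (pderiv none (h i))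
  rw [up_pderiv, up_pderiv, (H i).2, ← Finset.mul_prod_erase _ _ (Finset.mem_univ r),
    ← Finset.mul_prod_erase _ _ (Finset.mem_erase.2 ⟨hne, Finset.mem_univ r'⟩), hr', hr''] at e1
  simp only [Polynomial.derivative_mul, Polynomial.eval_add, Polynomial.eval_mul,
    Polynomial.eval_sub, Polynomial.eval_X, Polynomial.eval_C, sub_self, zero_mul, mul_zero,
    add_zero] at e1
  exact_mod_cast e1.symm

theorem gval_real {I : GIdx n D} {y : Fin n → ℝ} (e : ∀ i, ρ i (I i) = y i)
    (u : MvPolynomial (σ ⊕ ℕ) ℤ) :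
    gval z ρ I u = ((aeval (Sum.elim z (extn y)) u : ℝ) : ℂ) := by
  rw [ofReal_aeval, gval]
  congr 2
  funext o
  cases o with
  | inl j => rfl
  | inr j =>
    simp only [Sum.elim_inr, e]
    exact (map_extn Complex.ofRealHom y j).symm

end roots

end Crest.Agent.R316
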