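import Crest.Agent.R316.Grid
import Crest.Agent.R316.GoodBasic

/-!
# Size and gap bounds at grid points over algebraic points
-/

namespace Crest.Agent.R316

open Crest.Agent.Lib.PT MvPolynomial

variable {β γ σ : Type} [Enc β] [Enc γ] [Enc σ]

namespace GridGap

/-- Cauchy's bound in terms of uniform bounds on the coefficients. -/
theorem root_le {p : Polynomial ℂ} (hp : p ≠ 0) {A B : ℝ}
    (hA : ∀ j, ‖p.coeff j‖ ≤ A) (hB : ∀ j, p.coeff j ≠ 0 → 1 ≤ B * ‖p.coeff j‖) {t : ℂ}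
    (ht : p.IsRoot t) : ‖t‖ ≤ A * B + 1 := by
  have hA0 : 0 ≤ A := (norm_nonneg _).trans (hA 0)
  have hl : p.leadingCoeff ≠ 0 := Polynomial.leadingCoeff_ne_zero.2 hp
  have hl' : 0 < ‖p.leadingCoeff‖ := norm_pos_iff.2 hl
  have h1 : ‖t‖ < (p.cauchyBound : ℝ) := ht.norm_lt_cauchyBound hp
  have h2 : (Finset.range p.natDegree).sup (fun j => ‖p.coeff j‖₊) ≤ ⟨A, hA0⟩ :=
    Finset.sup_le fun j _ => hA j
  have h3 : (((Finset.range p.natDegree).sup (fun j => ‖p.coeff j‖₊) : NNReal) : ℝ) ≤ A := h2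
  have h4 : 1 ≤ B * ‖p.leadingCoeff‖ := hB _ hl
  refine h1.le.trans ?_
  rw [Polynomial.cauchyBound, NNReal.coe_add, NNReal.coe_div, NNReal.coe_one, coe_nnnorm]
  gcongr
  rw [div_le_iff₀ hl']
  nlinarith

theorem root_ge {p : Polynomial ℂ} (hp : p ≠ 0) {A B : ℝ}
    (hA : ∀ j, ‖p.coeff j‖ ≤ A) (hB : ∀ j, p.coeff j ≠ 0 → 1 ≤ B * ‖p.coeff j‖) {t : ℂ}
    (ht : p.IsRoot t) (ht0 : t ≠ 0) : 1 ≤ (A * B + 1) * ‖t‖ := by
  let _ : Invertible t := invertibleOfNonzero ht0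
  have h1 : p.reverse.IsRoot t⁻¹ := by
    have := (Polynomial.eval₂_reverse_eq_zero_iff (RingHom.id ℂ) t p).2 ht
    rwa [invOf_eq_inv] at this
  have h2 := root_le (mt Polynomial.reverse_eq_zero.1 hp)
    (fun j => by rw [Polynomial.coeff_reverse]; exact hA _)
    (fun j => by rw [Polynomial.coeff_reverse]; exact hB _) h1
  rwa [norm_inv, inv_le_iff_one_le_mul₀ (norm_pos_iff.2 ht0)] at h2

theorem two_pow_mono {a b : ℕ} (h : a ≤ b) : (2 : ℝ) ^ 2 ^ a ≤ 2 ^ 2 ^ b :=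
  pow_le_pow_right₀ one_le_two (Nat.pow_le_pow_right two_pos h)

theorem two_pow_mul_add_one (a b : ℕ) : (2 : ℝ) ^ 2 ^ a * 2 ^ 2 ^ b + 1 ≤ 2 ^ 2 ^ (a + b + 2) := by
  have h1 : (1 : ℝ) ≤ 2 ^ 2 ^ a * 2 ^ 2 ^ b :=
    one_le_mul_of_one_le_of_one_le (one_le_pow₀ one_le_two) (one_le_pow₀ one_le_two)
  have h2 : 2 ^ a + 2 ^ b + 1 ≤ 2 ^ (a + b + 2) := by
    have ha : 2 ^ a ≤ 2 ^ (a + b) := Nat.pow_le_pow_right two_pos (by omega)
    have hb : 2 ^ b ≤ 2 ^ (a + b) := Nat.pow_le_pow_right two_pos (by omega)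
    have hc : 1 ≤ 2 ^ (a + b) := Nat.one_le_two_pow
    rw [pow_add _ (a + b) 2]
    omega
  calc _ ≤ (2 : ℝ) ^ (2 ^ a + 2 ^ b + 1) := by rw [pow_succ, pow_add]; linarith
    _ ≤ _ := pow_le_pow_right₀ one_le_two h2

/-- Roots of polynomials whose coefficients are values of uniform polynomials at algebraic points
are bounded above and, if nonzero, below. -/
theorem roots_bound {ξ : β → σ → ℝ} (H : Alg ξ) {g : γ → β} (hg : CF g) {N : γ → ℕ} (hN : CF N)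
    {Q : γ × ℕ → MvPolynomial σ ℤ} (hQ : Cls Q) :
    ∃ c : γ → ℕ, PB c ∧ ∀ e (p : Polynomial ℂ), p ≠ 0 → p.natDegree ≤ N e →
      (∀ j, p.coeff j = ((aeval (ξ (g e)) (Q (e, j)) : ℝ) : ℂ)) → ∀ t, p.IsRoot t →
        ‖t‖ ≤ 2 ^ 2 ^ c e ∧ (t ≠ 0 → 1 ≤ 2 ^ 2 ^ c e * ‖t‖) := by
  have hg' : CF fun x : γ × ℕ => g x.1 := hg.comp CF.id.fst
  have hN' : CF fun e => N e + 1 := by fun_prop
  obtain ⟨c₁, hc₁, h₁⟩ := H.abs_le hg' hQ
  obtain ⟨c₂, hc₂, h₂⟩ := H.gap _ _ _ hg' hQ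
  obtain ⟨B₁, -, hB₁, k₁⟩ := PB_sup hN' hc₁
  obtain ⟨B₂, -, hB₂, k₂⟩ := PB_sup hN' hc₂
  refine ⟨fun e => B₁ e + B₂ e + 2, by fun_prop, fun e p hp hd hco t ht => ?_⟩
  have hA : ∀ j, ‖p.coeff j‖ ≤ 2 ^ 2 ^ B₁ e := fun j => by
    rcases le_or_gt j (N e) with hj | hj
    · rw [hco, Complex.norm_real, Real.norm_eq_abs]
      exact (h₁ (e, j)).trans (two_pow_mono (k₁ e j (Nat.lt_succ_of_le hj)))
    · rw [Polynomial.coeff_eq_zero_of_natDegree_lt (hd.trans_lt hj), norm_zero]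
      positivity
  have hB : ∀ j, p.coeff j ≠ 0 → 1 ≤ 2 ^ 2 ^ B₂ e * ‖p.coeff j‖ := fun j h0 => by
    have hj : j ≤ N e := (Polynomial.le_natDegree_of_ne_zero h0).trans hd
    rw [hco] at h0
    rw [hco, Complex.norm_real, Real.norm_eq_abs]
    exact (h₂ (e, j) (by exact_mod_cast h0)).trans (mul_le_mul_of_nonneg_right
      (two_pow_mono (k₂ e j (Nat.lt_succ_of_le hj))) (abs_nonneg _))
  exact ⟨(root_le hp hA hB ht).trans (two_pow_mul_add_one _ _), fun h0 =>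
    (root_ge hp hA hB ht h0).trans
      (mul_le_mul_of_nonneg_right (two_pow_mul_add_one _ _) (norm_nonneg _))⟩

/-- The polynomial `c ∏ (X - ρ r)`. -/
theorem prod_spec {ι : Type} [Fintype ι] {c : ℂ} (hc : c ≠ 0) (ρ : ι → ℂ) :
    Polynomial.C c * ∏ r, (Polynomial.X - Polynomial.C (ρ r)) ≠ 0 ∧
      (Polynomial.C c * ∏ r, (Polynomial.X - Polynomial.C (ρ r))).natDegree ≤ Fintype.card ι ∧
      ∀ r, (Polynomial.C c * ∏ r, (Polynomial.X - Polynomial.C (ρ r))).IsRoot (ρ r) := by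
  refine ⟨mul_ne_zero (Polynomial.C_ne_zero.2 hc)
    (Polynomial.monic_prod_X_sub_C _ _).ne_zero, ?_, fun r => ?_⟩
  · refine (Polynomial.natDegree_C_mul_le _ _).trans ?_
    rw [Polynomial.natDegree_finsetProd_X_sub_C_eq_card, Finset.card_univ]
  · rw [Polynomial.IsRoot, Polynomial.eval_mul, Polynomial.eval_prod,
      Finset.prod_eq_zero (Finset.mem_univ r) (by simp), mul_zero]

end GridGap

open GridGap

/-- Uniform grids over algebraic points. -/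
structure AlgGrid {β σ : Type} [Enc β] [Enc σ] (ξ : β → σ → ℝ) (n : β → ℕ) (D : β → ℕ → ℕ)
    (h : β → ℕ → MvPolynomial (Option σ) ℤ) (ρ : ∀ b, Roots (n b) (D b)) : Prop where
  alg : Alg ξ
  cf_n : CF n
  pb_n : PB n
  cf_D : CF fun x : β × ℕ => D x.1 x.2
  cls_h : Cls fun x : β × ℕ => h x.1 x.2
  roots : ∀ b, IsRoots (n b) (D b) (h b) (ξ b) (ρ b)

variable {ξ : β → σ → ℝ} {n : β → ℕ} {D : β → ℕ → ℕ} {h : β → ℕ → MvPolynomial (Option σ) ℤ}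
  {ρ : ∀ b, Roots (n b) (D b)}

theorem AlgGrid.size (H : AlgGrid ξ n D h ρ) :
    ∃ c : β → ℕ, PB c ∧ ∀ b i r, ‖ρ b i r‖ ≤ 2 ^ 2 ^ c b := by
  have hD := H.cf_D
  have hh := H.cls_h
  have hQ : Cls fun x : (β × ℕ) × ℕ => cf1 x.2 (h x.1.1 x.1.2) :=
    (hh.comp CF.id.fst).cf1 CF.id.snd
  obtain ⟨c, hc, k⟩ := roots_bound H.alg (CF.id.fst : CF fun x : β × ℕ => x.1) hD hQ
  obtain ⟨B, -, hB, k'⟩ := PB_sup H.cf_n hc
  refine ⟨B, hB, fun b i r => ?_⟩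
  obtain ⟨h0, he⟩ := H.roots b i
  obtain ⟨p1, p2, p3⟩ := prod_spec (Complex.ofReal_ne_zero.2 h0) (ρ b i)
  rw [← he] at p1 p2 p3
  refine (k (b, i) _ p1 (by simpa using p2) (fun j => ?_) _ (p3 r)).1.trans
    (GridGap.two_pow_mono (k' b i i.2))
  rw [ofReal_aeval, aeval_cf1]

/-- Nonzero values of uniform polynomials at grid points are bounded below and above. -/
theorem AlgGrid.gap (H : AlgGrid ξ n D h ρ) {g : γ → β} (hg : CF g)
    {P : γ → MvPolynomial (σ ⊕ ℕ) ℤ} (hP : Cls P) :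
    ∃ c : γ → ℕ, PB c ∧ ∀ e (I : GIdx (n (g e)) (D (g e))),
      ‖gval (ξ (g e)) (ρ (g e)) I (P e)‖ ≤ 2 ^ 2 ^ c e ∧
      (gval (ξ (g e)) (ρ (g e)) I (P e) ≠ 0 →
        1 ≤ 2 ^ 2 ^ c e * ‖gval (ξ (g e)) (ρ (g e)) I (P e)‖) := by
  have hn : CF fun e => n (g e) := H.cf_n.comp hg
  have hb : PB fun e => n (g e) := PB_compCF H.pb_n hg
  have hg' : CF fun x : γ × ℕ => (g x.1, x.2) := (hg.comp CF.id.fst).pair CF.id.snd
  have hD : CF fun x : γ × ℕ => D (g x.1) x.2 := H.cf_D.comp hg'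
  have hh : Cls fun x : γ × ℕ => h (g x.1) x.2 := H.cls_h.comp hg'
  obtain ⟨N, hN, kN⟩ := exists_gridNorm (D := fun e => D (g e)) (h := fun e => h (g e))
    hn hb hD hh hP
  obtain ⟨c, hc, k⟩ := roots_bound H.alg hg
    (CF.prod_range_pb (f := fun e => D (g e)) hn hb hD) hN
  refine ⟨c, hc, fun e I => ?_⟩
  obtain ⟨a, ha, ke⟩ := kN e _ _ (H.roots (g e))
  obtain ⟨p1, p2, p3⟩ := prod_spec (Complex.ofReal_ne_zero.2 ha.ne')
    fun I : GIdx (n (g e)) (D (g e)) => gval (ξ (g e)) (ρ (g e)) I (P e)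
  refine k e _ p1 (p2.trans_eq ?_) (fun j => ?_) _ (p3 I)
  · simp [Finset.prod_range]
  · rw [ke, Polynomial.coeff_C_mul]

end Crest.Agent.R316
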