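import Mathlib

/-!
# Pure lemmas for the parity oracle: rational sign approximation, signs of products
-/

namespace Crest.Agent.R316.Par

open Finset

section ring

variable {A B : Type} [CommRing A] [CommRing B]

/-- `∏_{k ≤ 2K} (2^k + 2^K u)` -/
def pp (K : ℕ) (u : A) : A := ∏ k ∈ range (2 * K + 1), ((2 : A) ^ k + 2 ^ K * u)

def num (K t : ℕ) (u : A) : A := pp K u ^ (2 * t) - pp K (-u) ^ (2 * t)

def den (K t : ℕ) (u : A) : A := pp K u ^ (2 * t) + pp K (-u) ^ (2 * t)

/-- negative exactly when all linear conditions on the signs of the `u l` hold -/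
def GG (K t L R : ℕ) (c : ℕ → ℕ → ℤ) (w : ℕ → ℤ) (u : ℕ → A) : A :=
  4 * ∑ r ∈ range R, (∑ l ∈ range L, (c r l : A) *
      ∏ l' ∈ range L, (if l' = l then num K t (u l') else den K t (u l'))
    - (w r : A) * ∏ l' ∈ range L, den K t (u l')) ^ 2 - (∏ l' ∈ range L, den K t (u l')) ^ 2

theorem map_pp (φ : A →+* B) (K : ℕ) (u : A) : φ (pp K u) = pp K (φ u) := by
  simp only [pp, map_prod, map_add, map_mul, map_pow, map_ofNat]

theorem map_GG (φ : A →+* B) (K t L R : ℕ) (c : ℕ → ℕ → ℤ) (w : ℕ → ℤ) (u : ℕ → A) :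
    φ (GG K t L R c w u) = GG K t L R c w fun l => φ (u l) := by
  simp only [GG, num, den, map_sub, map_mul, map_sum, map_pow, map_prod, map_ofNat, map_intCast,
    apply_ite φ, map_add, map_pp, map_neg]

end ring

theorem pp_pos (K : ℕ) {u : ℝ} (hu : 0 ≤ u) : 0 < pp K u :=
  prod_pos fun _ _ => by positivity

theorem den_neg (K t : ℕ) (u : ℝ) : den K t (-u) = den K t u := by
  simp only [den, neg_neg]; ring

theorem num_neg (K t : ℕ) (u : ℝ) : num K t (-u) = - num K t u := by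
  simp only [num, neg_neg]; ring

theorem den_pos (K t : ℕ) (u : ℝ) : 0 < den K t u := by
  have key : ∀ u : ℝ, 0 ≤ u → 0 < den K t u := fun u hu =>
    add_pos_of_pos_of_nonneg (pow_pos (pp_pos K hu) _) (by rw [pow_mul]; positivity)
  rcases le_total 0 u with h | h
  · exact key u h
  · rw [← den_neg]; exact key _ (by linarith)

theorem abs_pp_neg_le (K : ℕ) {u : ℝ} (h1 : 1 ≤ 2 ^ K * u) (h2 : u ≤ 2 ^ K) :
    3 * |pp K (-u)| ≤ pp K u := by
  obtain ⟨k, hk1, hk2⟩ := exists_nat_pow_near h1 (one_lt_two (α := ℝ))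
  have hk : k ∈ range (2 * K + 1) := by
    rw [mem_range, Nat.lt_succ_iff, ← pow_le_pow_iff_right₀ (one_lt_two (α := ℝ))]
    calc (2 : ℝ) ^ k ≤ 2 ^ K * u := hk1
      _ ≤ 2 ^ K * 2 ^ K := by gcongr
      _ = 2 ^ (2 * K) := by ring
  rw [pp, pp, abs_prod, ← mul_prod_erase _ _ hk, ← mul_prod_erase _ _ hk, ← mul_assoc]
  refine mul_le_mul ?_ (prod_le_prod (fun _ _ => abs_nonneg _) fun j _ => ?_)
    (prod_nonneg fun _ _ => abs_nonneg _) (by positivity)
  · rw [pow_succ] at hk2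
    rw [abs_of_nonpos (by linarith)]
    linarith
  · have : (0 : ℝ) < 2 ^ j := by positivity
    rw [abs_le]; constructor <;> linarith

theorem approx_pos (K t : ℕ) {u : ℝ} (h1 : 1 ≤ 2 ^ K * u) (h2 : u ≤ 2 ^ K) :
    |num K t u / den K t u - 1| ≤ 2 / 9 ^ t := by
  have hd := den_pos K t u
  have h3 := abs_pp_neg_le K h1 h2
  have h4 : 9 ^ t * pp K (-u) ^ (2 * t) ≤ pp K u ^ (2 * t) := by
    calc 9 ^ t * pp K (-u) ^ (2 * t) = (3 * |pp K (-u)|) ^ (2 * t) := by
          rw [mul_pow, pow_mul, pow_mul, pow_mul, sq_abs]; norm_num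
      _ ≤ _ := pow_le_pow_left₀ (by positivity) h3 _
  have h5 : 0 ≤ pp K (-u) ^ (2 * t) := by rw [pow_mul]; positivity
  have e : num K t u / den K t u - 1 = -(2 * pp K (-u) ^ (2 * t) / den K t u) := by
    field_simp
    simp only [num, den]; ring
  rw [e, abs_neg, abs_of_nonneg (by positivity), div_le_div_iff₀ hd (by positivity), den]
  nlinarith

/-- the rational function `num / den` approximates the sign -/
theorem approx (K t : ℕ) {u : ℝ} (h2 : |u| ≤ 2 ^ K) (h1 : u ≠ 0 → 1 ≤ 2 ^ K * |u|) :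
    |num K t u / den K t u - ((if 0 < u then 1 else if u < 0 then -1 else 0 : ℤ) : ℝ)|
      ≤ 2 / 9 ^ t := by
  rcases lt_trichotomy u 0 with h | h | h
  · rw [if_neg h.le.not_gt, if_pos h]
    rw [abs_of_neg h] at h1 h2
    have := approx_pos K t (h1 h.ne) h2
    rw [num_neg, den_neg, ← abs_neg] at this
    convert this using 2
    push_cast; ring
  · subst h
    simp only [num, neg_zero, sub_self, zero_div, lt_irrefl, if_false]
    simp only [Int.cast_zero, sub_self, abs_zero]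
    positivity
  · rw [if_pos h]
    rw [abs_of_pos h] at h1 h2
    simpa using approx_pos K t (h1 h.ne') h2

theorem GG_eq (K t L R : ℕ) (c : ℕ → ℕ → ℤ) (w : ℕ → ℤ) (u : ℕ → ℝ) :
    GG K t L R c w u = (∏ l ∈ range L, den K t (u l)) ^ 2 *
      (4 * ∑ r ∈ range R, (∑ l ∈ range L, (c r l : ℝ) * (num K t (u l) / den K t (u l))
        - w r) ^ 2 - 1) := by
  have key : ∀ l ∈ range L, ∏ l' ∈ range L, (if l' = l then num K t (u l') else den K t (u l'))
      = num K t (u l) / den K t (u l) * ∏ l' ∈ range L, den K t (u l') := by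
    intro l hl
    rw [← mul_prod_erase _ _ hl, ← mul_prod_erase _ (fun l' => den K t (u l')) hl, if_pos rfl,
      ← mul_assoc, div_mul_cancel₀ _ (den_pos K t _).ne']
    congr 1
    exact prod_congr rfl fun l' hl' => if_neg (ne_of_mem_erase hl')
  have key2 : ∀ r, (∑ l ∈ range L, (c r l : ℝ) *
      ∏ l' ∈ range L, (if l' = l then num K t (u l') else den K t (u l'))
        - (w r : ℝ) * ∏ l' ∈ range L, den K t (u l')) ^ 2
      = (∏ l ∈ range L, den K t (u l)) ^ 2 *
        (∑ l ∈ range L, (c r l : ℝ) * (num K t (u l) / den K t (u l)) - w r) ^ 2 := by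
    intro r
    rw [← mul_pow, mul_sub, mul_sum, mul_comm (w r : ℝ)]
    congr 2
    exact sum_congr rfl fun l hl => by rw [key l hl]; ring
  rw [GG, sum_congr rfl fun r _ => key2 r, ← mul_sum]
  ring

theorem GG_sign {K t L R : ℕ} {c : ℕ → ℕ → ℤ} {w : ℕ → ℤ} {u : ℕ → ℝ} {s : ℕ → ℤ}
    (hs : ∀ l < L, |num K t (u l) / den K t (u l) - s l| ≤ 2 / 9 ^ t)
    (ht : ∑ r ∈ range R, ∑ l ∈ range L, (c r l).natAbs < t) :
    GG K t L R c w u ≠ 0 ∧
      (GG K t L R c w u < 0 ↔ ∀ r < R, ∑ l ∈ range L, c r l * s l = w r) := by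
  set S : ℕ → ℝ := fun r => ∑ l ∈ range L, |(c r l : ℝ)| with hS
  have hS0 : ∀ r, 0 ≤ S r := fun r => sum_nonneg fun _ _ => abs_nonneg _
  have hδ : 2 / 9 ^ t * ∑ r ∈ range R, S r < 1 / 2 := by
    have h1 : ∑ r ∈ range R, S r < t := by
      have : ((∑ r ∈ range R, ∑ l ∈ range L, (c r l).natAbs : ℕ) : ℝ) < t := by exact_mod_cast ht
      simpa [hS] using this
    have h2 : (1 : ℝ) + t * 8 ≤ (1 + 8) ^ t := one_add_mul_le_pow (by norm_num) t
    have h3 : (0 : ℝ) < 9 ^ t := by positivity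
    rw [div_mul_eq_mul_div, div_lt_iff₀ h3]
    norm_num at h2
    have : (0 : ℝ) ≤ t := by positivity
    linarith
  set E : ℕ → ℝ := fun r => ∑ l ∈ range L, (c r l : ℝ) * (num K t (u l) / den K t (u l)) - w r
    with hE
  have hE1 : ∀ r, |E r - ((∑ l ∈ range L, c r l * s l - w r : ℤ) : ℝ)| ≤ 2 / 9 ^ t * S r := by
    intro r
    have e : E r - ((∑ l ∈ range L, c r l * s l - w r : ℤ) : ℝ)
        = ∑ l ∈ range L, (c r l : ℝ) * (num K t (u l) / den K t (u l) - s l) := by
      simp only [hE, mul_sub, sum_sub_distrib]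
      push_cast; ring
    rw [e, hS, mul_sum]
    refine (abs_sum_le_sum_abs _ _).trans (sum_le_sum fun l hl => ?_)
    rw [abs_mul, mul_comm]
    exact mul_le_mul_of_nonneg_right (hs l (mem_range.1 hl)) (abs_nonneg _)
  have hD : 0 < (∏ l ∈ range L, den K t (u l)) ^ 2 :=
    pow_pos (prod_pos fun _ _ => den_pos K t _) 2
  rw [GG_eq]
  by_cases hc : ∀ r < R, ∑ l ∈ range L, c r l * s l = w r
  · have h1 : ∑ r ∈ range R, |E r| < 1 / 2 := by
      refine lt_of_le_of_lt ?_ hδ
      rw [mul_sum]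
      refine sum_le_sum fun r hr => ?_
      simpa [hc r (mem_range.1 hr)] using hE1 r
    have h2 : ∑ r ∈ range R, E r ^ 2 ≤ (∑ r ∈ range R, |E r|) ^ 2 := by
      simpa only [sq_abs] using sum_sq_le_sq_sum_of_nonneg (s := range R) (f := fun r => |E r|)
        fun _ _ => abs_nonneg _
    have h3 : 0 ≤ ∑ r ∈ range R, |E r| := sum_nonneg fun _ _ => abs_nonneg _
    have h4 : 4 * ∑ r ∈ range R, E r ^ 2 - 1 < 0 := by nlinarith
    have h5 := mul_neg_of_pos_of_neg hD h4
    exact ⟨h5.ne, iff_of_true h5 hc⟩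
  · have hc' := hc
    push Not at hc'
    obtain ⟨r, hr, hne⟩ := hc'
    have h1 : (1 : ℝ) ≤ |((∑ l ∈ range L, c r l * s l - w r : ℤ) : ℝ)| := by
      exact_mod_cast Int.one_le_abs (sub_ne_zero.2 hne)
    have h2 : 2 / 9 ^ t * S r ≤ 2 / 9 ^ t * ∑ r ∈ range R, S r :=
      mul_le_mul_of_nonneg_left (single_le_sum (fun r _ => hS0 r) (mem_range.2 hr)) (by positivity)
    have h3 : 1 / 2 < |E r| := by
      have := abs_sub_abs_le_abs_sub ((∑ l ∈ range L, c r l * s l - w r : ℤ) : ℝ) (E r)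
      have h' := hE1 r
      rw [abs_sub_comm] at h'
      linarith
    have h4 : E r ^ 2 ≤ ∑ r ∈ range R, E r ^ 2 :=
      single_le_sum (f := fun r => E r ^ 2) (fun r _ => sq_nonneg _) (mem_range.2 hr)
    have h5 : 0 < 4 * ∑ r ∈ range R, E r ^ 2 - 1 := by nlinarith [sq_abs (E r)]
    have h6 := mul_pos hD h5
    exact ⟨h6.ne', iff_of_false h6.not_gt hc⟩

theorem prod_neg_iff {ι : Type} (s : Finset ι) (a : ι → ℝ) (ha : ∀ i ∈ s, a i ≠ 0) :
    ∏ i ∈ s, a i < 0 ↔ Odd (s.filter fun i => a i < 0).card := by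
  classical
  induction s using Finset.induction_on with
  | empty => simp
  | insert i s hi ih =>
    have h1 := ih fun j hj => ha j (mem_insert_of_mem hj)
    have h2 : ∏ i ∈ s, a i ≠ 0 := prod_ne_zero_iff.2 fun j hj => ha j (mem_insert_of_mem hj)
    rw [prod_insert hi, filter_insert]
    rcases (ha i (mem_insert_self _ _)).lt_or_gt with h | h
    · rw [if_pos h, card_insert_of_notMem (by simp [hi]), Nat.odd_add_one, ← h1]
      constructor
      · intro h3 h4; exact absurd (mul_pos_of_neg_of_neg h h4) h3.not_gt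
      · intro h3; exact mul_neg_of_neg_of_pos h (lt_of_le_of_ne (not_lt.1 h3) h2.symm)
    · rw [if_neg h.not_gt, ← h1]
      constructor
      · intro h3; by_contra h4; exact absurd (mul_nonneg h.le (not_lt.1 h4)) h3.not_ge
      · exact mul_neg_of_pos_of_neg h

open Classical in
theorem prod_pos_of_conj {ι P : Type} [Fintype ι] (pt : ι → P) (cj : P → P)
    (hcj : ∀ p, cj (cj p) = p) (π : ι ≃ ι) (hπ : ∀ I, pt (π I) = cj (pt I)) (v : ι → ℂ)
    (hv : ∀ I, v (π I) = (starRingEnd ℂ) (v I)) :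
    ∃ r : ℝ, 0 < r ∧ ∏ I ∈ univ.filter (fun I => v I ≠ 0 ∧ cj (pt I) ≠ pt I), v I = r := by
  set Z := univ.filter (fun I => v I ≠ 0 ∧ cj (pt I) ≠ pt I) with hZ
  let _ : LinearOrder P := linearOrderOfSTO WellOrderingRel
  set U := univ.filter (fun I => v I ≠ 0 ∧ pt I < cj (pt I)) with hU
  set W := univ.filter (fun I => v I ≠ 0 ∧ cj (pt I) < pt I) with hW
  have h1 : Z = U ∪ W := by
    ext I
    simp only [hZ, hU, hW, mem_filter, mem_univ, true_and, mem_union, ← and_or_left]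
    exact and_congr_right fun _ => ne_iff_lt_or_gt.trans or_comm
  have h2 : Disjoint U W := by
    rw [disjoint_filter]
    exact fun I _ h h' => absurd h.2 h'.2.not_gt
  have h3 : ∏ I ∈ U, (starRingEnd ℂ) (v I) = ∏ I ∈ W, v I := by
    refine prod_equiv π (fun I => ?_) fun I _ => (hv I).symm
    simp only [hU, hW, mem_filter, mem_univ, true_and, hπ, hcj, hv, map_ne_zero]
  refine ⟨∏ I ∈ U, Complex.normSq (v I), prod_pos fun I hI => ?_, ?_⟩
  · exact Complex.normSq_pos.2 (mem_filter.1 hI).2.1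
  · rw [h1, prod_union h2, ← h3, ← prod_mul_distrib]
    push_cast
    exact prod_congr rfl fun I _ => Complex.mul_conj _

open Polynomial Classical in
theorem coeff_prod_X_add_C {ι : Type} [Fintype ι] (v : ι → ℂ) :
    (∀ j < (univ.filter fun I => v I = 0).card, (∏ I, (X + C (v I))).coeff j = 0) ∧
      (∏ I, (X + C (v I))).coeff (univ.filter fun I => v I = 0).card =
        ∏ I ∈ univ.filter (fun I => v I ≠ 0), v I := by
  have e : ∏ I, (X + C (v I)) = X ^ (univ.filter fun I => v I = 0).card *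
      ∏ I ∈ univ.filter (fun I => v I ≠ 0), (X + C (v I)) := by
    rw [← prod_filter_mul_prod_filter_not univ fun I => v I = 0]
    congr 1
    rw [← prod_const]
    exact prod_congr rfl fun I hI => by rw [(mem_filter.1 hI).2]; simp
  rw [e]
  refine ⟨fun j hj => ?_, ?_⟩
  · rw [coeff_X_pow_mul', if_neg hj.not_ge]
  · rw [coeff_X_pow_mul', if_pos le_rfl, Nat.sub_self, coeff_zero_eq_eval_zero, eval_prod]
    simp

theorem exists_perm_of_map_eq {ι α : Type} [Fintype ι] {f g : ι → α}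
    (h : univ.val.map f = univ.val.map g) : ∃ π : ι ≃ ι, ∀ i, g (π i) = f i := by
  classical
  refine ⟨Equiv.ofFiberEquiv (f := f) (g := g) fun a => Fintype.equivOfCardEq ?_,
    Equiv.ofFiberEquiv_map _⟩
  have := congrArg (Multiset.count a) h
  rw [Multiset.count_map, Multiset.count_map] at this
  simpa only [Fintype.card_subtype, eq_comm, Finset.card, filter_val] using this

open Classical in
/-- The sign of the least nonzero coefficient gives the parity. -/
theorem parity_iff {ι P : Type} [Fintype ι] (pt : ι → P) (cj : P → P)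
    (hcj : ∀ p, cj (cj p) = p) (π : ι ≃ ι) (hπ : ∀ I, pt (π I) = cj (pt I)) (v : ι → ℂ)
    (hv : ∀ I, v (π I) = (starRingEnd ℂ) (v I)) (S : Set ι)
    (hS : ∀ I, cj (pt I) = pt I → ∃ a : ℝ, v I = a ∧ a ≠ 0 ∧ (a < 0 ↔ I ∈ S))
    (hS' : ∀ I ∈ S, cj (pt I) = pt I) (N : ℕ → ℝ) (c : ℝ) (hc : 0 < c)
    (hN : ∀ j, (N j : ℂ) = c * (∏ I, (Polynomial.X + Polynomial.C (v I))).coeff j) :
    (∃ j < Fintype.card ι + 1, N j < 0 ∧ ∀ j' < j, N j' = 0) ↔ Odd S.ncard := by
  obtain ⟨h1, h2⟩ := coeff_prod_X_add_C v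
  obtain ⟨r, hr, h3⟩ := prod_pos_of_conj pt cj hcj π hπ v hv
  set j0 := (univ.filter fun I => v I = 0).card with hj0
  set T := univ.filter fun I => cj (pt I) = pt I with hT
  have hTv : ∀ I ∈ T, v I = (v I).re ∧ (v I).re ≠ 0 ∧ ((v I).re < 0 ↔ I ∈ S) := by
    intro I hI
    obtain ⟨a, ha, ha'⟩ := hS I (mem_filter.1 hI).2
    rw [ha]; simpa using ha'
  have h4 : N j0 = c * r * ∏ I ∈ T, (v I).re := by
    have e1 : (univ.filter fun I => v I ≠ 0).filter (fun I => cj (pt I) = pt I) = T := by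
      ext I
      simp only [hT, mem_filter, mem_univ, true_and, and_iff_right_iff_imp]
      intro hI h0
      have := (hTv I (by simp [hT, hI])).2.1
      rw [h0] at this; simp at this
    have e2 := hN j0
    rw [h2, ← prod_filter_mul_prod_filter_not _ fun I => cj (pt I) = pt I, e1, filter_filter, h3,
      prod_congr rfl fun I hI => (hTv I hI).1] at e2
    have : (N j0 : ℂ) = ((c * r * ∏ I ∈ T, (v I).re : ℝ) : ℂ) := by
      rw [e2]; push_cast; ring
    exact_mod_cast this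
  have h5 : ∀ j < j0, N j = 0 := fun j hj => by
    have := hN j
    rw [h1 j hj, mul_zero] at this
    exact_mod_cast this
  have h6 : S = ↑(T.filter fun I => (v I).re < 0) := by
    ext I
    simp only [coe_filter, Set.mem_ofPred_eq]
    constructor
    · intro hI
      have : I ∈ T := by simp [hT, hS' I hI]
      exact ⟨this, (hTv I this).2.2.2 hI⟩
    · rintro ⟨hI, hI'⟩
      exact (hTv I hI).2.2.1 hI'
  have h7 : N j0 < 0 ↔ Odd S.ncard := by
    rw [h6, Set.ncard_coe_finset, ← prod_neg_iff T _ fun I hI => (hTv I hI).2.1, h4]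
    have := mul_pos hc hr
    constructor
    · intro h; by_contra h'; exact absurd (mul_nonneg this.le (not_lt.1 h')) h.not_ge
    · exact mul_neg_of_pos_of_neg this
  have h8 : N j0 ≠ 0 := by
    rw [h4]
    exact mul_ne_zero (mul_pos hc hr).ne' (prod_ne_zero_iff.2 fun I hI => (hTv I hI).2.1)
  rw [← h7]
  constructor
  · rintro ⟨j, -, hj, hj'⟩
    rcases lt_trichotomy j j0 with h | h | h
    · exact absurd (h5 j h) hj.ne
    · rwa [← h]
    · exact absurd (hj' j0 h) h8
  · intro h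
    exact ⟨j0, Nat.lt_succ_of_le (card_le_univ _), h, h5⟩

end Crest.Agent.R316.Par
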