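import Crest.Agent.R316.GridGap
import Crest.Agent.R316.ParityAux

/-!
# The parity of the number of real grid points satisfying linear conditions on signs
-/

namespace Crest.Agent.R316

open Crest.Agent.Lib.PT MvPolynomial

variable {β γ σ : Type} [Enc β] [Enc γ] [Enc σ]
  {ξ : β → σ → ℝ} {n : β → ℕ} {D : β → ℕ → ℕ} {h : β → ℕ → MvPolynomial (Option σ) ℤ}
  {ρ : ∀ b, Roots (n b) (D b)}

/-- The sign of a real number as an integer. -/
noncomputable def sgn (x : ℝ) : ℤ := if 0 < x then 1 else if x < 0 then -1 else 0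

theorem Par.cls_pp {α τ : Type} [Enc α] [Enc τ] {K : α → ℕ} {u : α → MvPolynomial τ ℤ} (hK : CF K)
    (hu : Cls u) : Cls fun a => Par.pp (K a) (u a) := by
  unfold Par.pp
  fun_prop

theorem Par.cls_GG {α τ : Type} [Enc α] [Enc τ] {K t L R : α → ℕ} (hK : CF K) (ht : CF t)
    (hL : CF L) (hR : CF R) {c : α → ℕ → ℕ → ℤ} (hc : CF fun x : α × ℕ × ℕ => c x.1 x.2.1 x.2.2)
    {w : α → ℕ → ℤ} (hw : CF fun x : α × ℕ => w x.1 x.2) {u : α → ℕ → MvPolynomial τ ℤ}
    (hu : Cls fun x : α × ℕ => u x.1 x.2) :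
    Cls fun a => Par.GG (K a) (t a) (L a) (R a) (c a) (w a) (u a) := by
  have h1 : Cls fun x : α × ℕ => Par.pp (K x.1) (u x.1 x.2) ^ (2 * t x.1) :=
    (Par.cls_pp (hK.comp CF.id.fst) hu).pow (by fun_prop)
  have h2 : Cls fun x : α × ℕ => Par.pp (K x.1) (-u x.1 x.2) ^ (2 * t x.1) :=
    (Par.cls_pp (hK.comp CF.id.fst) hu.neg).pow (by fun_prop)
  have hn : Cls fun x : α × ℕ => Par.num (K x.1) (t x.1) (u x.1 x.2) := h1.sub h2
  have hd : Cls fun x : α × ℕ => Par.den (K x.1) (t x.1) (u x.1 x.2) := h1.add h2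
  have hD : Cls fun a => ∏ l ∈ Finset.range (L a), Par.den (K a) (t a) (u a l) := Cls.prod hL hd
  have hN : Cls fun x : α × ℕ => ∏ l' ∈ Finset.range (L x.1),
      (if l' = x.2 then Par.num (K x.1) (t x.1) (u x.1 l') else Par.den (K x.1) (t x.1) (u x.1 l')) :=
    Cls.prod (hL.comp CF.id.fst) (Cls.ite' (by fun_prop)
      (hn.comp_eq (fun x : (α × ℕ) × ℕ => (x.1.1, x.2)) (by fun_prop))
      (hd.comp_eq (fun x : (α × ℕ) × ℕ => (x.1.1, x.2)) (by fun_prop)))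
  unfold Par.GG
  refine ((Cls.const 4).mul (Cls.sum hR (Cls.pow (Cls.sub (Cls.sum (hL.comp CF.id.fst)
    (Cls.mul (Cls.intCast ?_) ?_)) (Cls.mul (Cls.intCast hw) (hD.comp CF.id.fst)))
    (CF.const 2)))).sub (hD.pow (CF.const 2))
  · exact hc.comp_eq (fun x : (α × ℕ) × ℕ => (x.1.1, x.1.2, x.2)) (by fun_prop)
  · exact hN.comp_eq (fun x : (α × ℕ) × ℕ => (x.1.1, x.2)) (by fun_prop)

theorem Par.gval_real {τ : Type} {n : ℕ} {D : ℕ → ℕ} (z : τ → ℝ) (ρ : Roots n D) (I : GIdx n D)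
    (y : Fin n → ℝ) (hy : ∀ i, ρ i (I i) = y i) (u : MvPolynomial (τ ⊕ ℕ) ℤ) :
    gval z ρ I u = ((aeval (Sum.elim z (extn y)) u : ℝ) : ℂ) := by
  rw [ofReal_aeval, gval]
  congr 2
  funext o
  cases o with
  | inl i => rfl
  | inr j =>
    simp only [Sum.elim_inr, hy]
    exact (map_extn Complex.ofRealHom y j).symm

theorem Par.exists_conj {τ : Type} {n : ℕ} {D : ℕ → ℕ} {h : ℕ → MvPolynomial (Option τ) ℤ}
    {z : τ → ℝ} {ρ : Roots n D} (H : IsRoots n D h z ρ) :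
    ∃ π : GIdx n D ≃ GIdx n D, ∀ I i, ρ i (π I i) = (starRingEnd ℂ) (ρ i (I i)) := by
  have key : ∀ i : Fin n, ∃ π : Fin (D i) ≃ Fin (D i), ∀ r, ρ i (π r) = (starRingEnd ℂ) (ρ i r) := by
    intro i
    refine Par.exists_perm_of_map_eq ?_
    obtain ⟨h0, h1⟩ := H i
    have h2 := congrArg (Polynomial.map (starRingEnd ℂ)) h1
    rw [map_up] at h2
    simp only [Complex.conj_ofReal, Polynomial.map_mul, Polynomial.map_C, Polynomial.map_prod,
      Polynomial.map_sub, Polynomial.map_X] at h2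
    rw [h1] at h2
    have h3 := mul_left_cancel₀ (Polynomial.C_ne_zero.2 (Complex.ofReal_ne_zero.2 h0)) h2
    have h4 : ∀ f : Fin (D i) → ℂ, (∏ r, (Polynomial.X - Polynomial.C (f r))).roots
        = Finset.univ.val.map f := by
      intro f
      rw [← Polynomial.roots_multiset_prod_X_sub_C (Finset.univ.val.map f), Multiset.map_map]
      rfl
    rw [← h4, ← h4, h3]
  choose π hπ using key
  exact ⟨Equiv.piCongrRight π, fun I i => hπ i (I i)⟩

theorem AlgGrid.parity (H : AlgGrid ξ n D h ρ) {f : γ → β} (hf : CF f) {L R : γ → ℕ}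
    (hL : CF L) (hR : CF R) {g : γ → ℕ → MvPolynomial (σ ⊕ ℕ) ℤ}
    (hg : Cls fun x : γ × ℕ => g x.1 x.2) {c : γ → ℕ → ℕ → ℤ}
    (hc : CF fun x : γ × ℕ × ℕ => c x.1 x.2.1 x.2.2) {w : γ → ℕ → ℤ}
    (hw : CF fun x : γ × ℕ => w x.1 x.2) :
    CF fun e => Odd (Set.ncard {I : GIdx (n (f e)) (D (f e)) | ∃ y : Fin (n (f e)) → ℝ,
      (∀ i, ρ (f e) i (I i) = y i) ∧ ∀ r < R e,
        ∑ l ∈ Finset.range (L e), c e r l * sgn (aeval (Sum.elim (ξ (f e)) (extn y)) (g e l)) =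
          w e r}) := by
  obtain ⟨c0, hc0, hgap⟩ := H.gap (g := fun x : γ × ℕ => f x.1) (hf.comp CF.id.fst) hg
  obtain ⟨B, hB, hB', hBle⟩ := PB_sup hL hc0
  have hK : CF fun e => 2 ^ B e := (CF.const 2).nat_pow (PT_cf hB) hB'
  have ht : CF fun e => ∑ r ∈ Finset.range (R e), ∑ l ∈ Finset.range (L e), (c e r l).natAbs + 1 :=
    (CF.sum_range hR (CF.sum_range (hL.comp CF.id.fst)
      (hc.comp_eq (fun x : (γ × ℕ) × ℕ => (x.1.1, x.1.2, x.2)) (by fun_prop)).natAbs)).nat_add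
      (CF.const 1)
  have hG := Par.cls_GG hK ht hL hR hc hw hg
  have hn : CF fun e => n (f e) := H.cf_n.comp hf
  have hn' : PB fun e => n (f e) := PB_compCF H.pb_n hf
  have hD : CF fun x : γ × ℕ => D (f x.1) x.2 :=
    H.cf_D.comp_eq (fun x : γ × ℕ => (f x.1, x.2)) (by fun_prop)
  obtain ⟨N, hN, hN'⟩ := exists_gridNorm hn hn' (D := fun e => D (f e)) hD
    (h := fun e => h (f e)) (H.cls_h.comp_eq (fun x : γ × ℕ => (f x.1, x.2)) (by fun_prop)) hG.neg
  have hQ : CF fun e => ∃ j < ∏ i ∈ Finset.range (n (f e)), D (f e) i + 1,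
      aeval (ξ (f e)) (N (e, j)) < 0 ∧ ∀ j' < j, aeval (ξ (f e)) (N (e, j')) = 0 := by
    refine CF.bex_lt ((CF.prod_range_pb hn hn' hD).nat_add (CF.const 1)) (CF.and ?_ ?_)
    · exact H.alg.neg (g := fun x : γ × ℕ => f x.1) (hf.comp CF.id.fst) hN
    · refine CF.ball_lt (N := fun x : γ × ℕ => x.2) CF.id.snd ?_
      exact H.alg.eq_zero (g := fun x : (γ × ℕ) × ℕ => f x.1.1) (by fun_prop)
        (hN.comp_eq (fun x : (γ × ℕ) × ℕ => (x.1.1, x.2)) (by fun_prop))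
  refine hQ.of_iff fun e => ?_
  obtain ⟨c1, hc1, hN1⟩ := hN' e (ξ (f e)) (ρ (f e)) (H.roots _)
  obtain ⟨π, hπ⟩ := Par.exists_conj (H.roots (f e))
  have hcard : ∏ i ∈ Finset.range (n (f e)), D (f e) i
      = Fintype.card (GIdx (n (f e)) (D (f e))) := by
    rw [Fintype.card_pi, ← Fin.prod_univ_eq_prod_range]
    simp
  rw [hcard]
  set G := Par.GG (2 ^ B e)
    (∑ r ∈ Finset.range (R e), ∑ l ∈ Finset.range (L e), (c e r l).natAbs + 1) (L e) (R e) (c e)
    (w e) (g e) with hGdef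
  refine Par.parity_iff (fun (I : GIdx (n (f e)) (D (f e))) i => ρ (f e) i (I i))
    (fun p i => (starRingEnd ℂ) (p i)) (fun p => by simp) π (fun I => funext (hπ I))
    (fun I => gval (ξ (f e)) (ρ (f e)) I G) (fun I => ?_) _ (fun I hI => ?_) (fun I hI => ?_)
    (fun j => aeval (ξ (f e)) (N (e, j))) c1 hc1 fun j => ?_
  · simp only [gval]
    rw [map_aeval_int]
    congr 2
    funext o
    cases o with
    | inl i => simp
    | inr j => simp only [Sum.elim_inr, map_extn, hπ]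
  · have hy : ∀ i, ρ (f e) i (I i) = ((ρ (f e) i (I i)).re : ℝ) := fun i =>
      (Complex.conj_eq_iff_re.1 (congrFun hI i)).symm
    set y : Fin (n (f e)) → ℝ := fun i => (ρ (f e) i (I i)).re with hydef
    refine ⟨_, Par.gval_real _ _ I y hy G, ?_⟩
    have e1 : aeval (Sum.elim (ξ (f e)) (extn y)) G = Par.GG (2 ^ B e)
        (∑ r ∈ Finset.range (R e), ∑ l ∈ Finset.range (L e), (c e r l).natAbs + 1) (L e) (R e)
        (c e) (w e) fun l => aeval (Sum.elim (ξ (f e)) (extn y)) (g e l) :=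
      Par.map_GG (aeval (Sum.elim (ξ (f e)) (extn y)) : _ →ₐ[ℤ] ℝ).toRingHom _ _ _ _ _ _ _
    rw [e1]
    have key := Par.GG_sign (K := 2 ^ B e) (L := L e) (R := R e) (c := c e) (w := w e)
      (u := fun l => aeval (Sum.elim (ξ (f e)) (extn y)) (g e l))
      (s := fun l => sgn (aeval (Sum.elim (ξ (f e)) (extn y)) (g e l))) (fun l hl => by
        obtain ⟨h1, h2⟩ := hgap (e, l) I
        rw [Par.gval_real _ _ I y hy, Complex.norm_real, Real.norm_eq_abs] at h1 h2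
        have h3 : (2 : ℝ) ^ 2 ^ c0 (e, l) ≤ 2 ^ 2 ^ B e :=
          pow_le_pow_right₀ one_le_two (Nat.pow_le_pow_right two_pos (hBle e l hl))
        exact Par.approx _ _ (h1.trans h3) fun h0 => (h2 (Complex.ofReal_ne_zero.2 h0)).trans
          (mul_le_mul_of_nonneg_right h3 (abs_nonneg _))) (Nat.lt_succ_self _)
    refine ⟨key.1, key.2.trans ⟨fun hh => ⟨y, hy, hh⟩, ?_⟩⟩
    rintro ⟨y', hy', hh⟩
    obtain rfl : y' = y := funext fun i => by simp [hydef, hy' i]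
    exact hh
  · obtain ⟨y, hy, -⟩ := hI
    funext i
    simp only [hy, Complex.conj_ofReal]
  · rw [hN1 j]
    simp only [gval, map_neg, sub_neg_eq_add]

end Crest.Agent.R316
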