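import Crest.Agent.R316.GoodBasic
import Crest.Agent.R316.Syntax.Poly
import Crest.Prelude.Def_RealEA

/-!
# Sentences as an encoded type; the quantifier-free part is a good family
-/

namespace Crest.Agent.R316

open Crest.Agent.Lib.PT MvPolynomial Crest.RealEA

namespace Syn

open Filter Topology

/-- The set of points satisfying a formula. -/
def TS (L : List ℕ) (φ : Form) : Set (Var → ℝ) :=
  {z | φ.Holds (fun i => z (vx L i)) (fun i => z (vy L i))}

/-- Truth of an atom. -/
def atmH (L : List ℕ) (z : Var → ℝ) (c : Atom) : Prop :=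
  bif c.1 then 0 < aeval z (poly L c.2) else aeval z (poly L c.2) = 0

/-- The binary connectives on propositions. -/
def opP (b : Bool) (p q : Prop) : Prop := bif b then p ∨ q else p ∧ q

theorem mem_TS (L : List ℕ) (z : Var → ℝ) (φ : Form) :
    z ∈ TS L φ ↔ fev (atmH L z) Not opP φ := by
  induction φ with
  | eqZero c => simp [TS, Form.Holds, fev, atmH, aeval_poly, circuitValue_eq]
  | pos c => simp [TS, Form.Holds, fev, atmH, aeval_poly, circuitValue_eq]
  | and φ ψ h1 h2 => exact and_congr h1 h2
  | or φ ψ h1 h2 => exact or_congr h1 h2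
  | not φ h1 => exact not_congr h1

theorem fev_congr {a a' : Atom → Prop} (φ : Form) (h : ∀ c, Sum.inl c ∈ flat φ → (a c ↔ a' c)) :
    fev a Not opP φ ↔ fev a' Not opP φ := by
  induction φ with
  | eqZero c => exact h _ (by simp [flat])
  | pos c => exact h _ (by simp [flat])
  | and φ ψ h1 h2 =>
    exact and_congr (h1 fun c hc => h c (by simp [flat, hc])) (h2 fun c hc => h c (by simp [flat, hc]))
  | or φ ψ h1 h2 =>
    exact or_congr (h1 fun c hc => h c (by simp [flat, hc])) (h2 fun c hc => h c (by simp [flat, hc]))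
  | not φ h1 => exact not_congr (h1 fun c hc => h c (by simp [flat, hc]))

/-! ### Stratification -/

theorem continuous_aeval {σ : Type} (P : MvPolynomial σ ℤ) :
    Continuous fun z : σ → ℝ => aeval z P := by
  induction P using MvPolynomial.induction_on with
  | C a => simpa using continuous_const
  | add p q hp hq => simp only [map_add]; exact hp.add hq
  | mul_X p i hp => simp only [map_mul, aeval_X]; exact hp.mul (continuous_apply i)

theorem atmH_eventually (L : List ℕ) (z : Var → ℝ) (c : Atom) :
    ∀ᶠ z' in 𝓝 z, (aeval z' (poly L c.2) = 0 ↔ aeval z (poly L c.2) = 0) →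
      (atmH L z' c ↔ atmH L z c) := by
  obtain ⟨_ | _, c⟩ := c
  · exact Eventually.of_forall fun z' h => h
  · have hc := (continuous_aeval (poly L c)).continuousAt (x := z)
    simp only [atmH, cond_true]
    rcases lt_trichotomy (aeval z (poly L c)) 0 with h | h | h
    · filter_upwards [hc.eventually (gt_mem_nhds h)] with z' hz' _
      exact iff_of_false (not_lt.2 hz'.le) (not_lt.2 h.le)
    · exact Eventually.of_forall fun z' h' => by rw [h'.2 h, h]
    · filter_upwards [hc.eventually (lt_mem_nhds h)] with z' hz' _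
      exact iff_of_true hz' h

/-- The circuit of a token. -/
def circ (t : Tok) : List AGate := Sum.elim (fun c : Atom => c.2) (fun _ => []) t

theorem inv_TS (L : List ℕ) (φ : Form) :
    Inv {P | ∃ l < (flat φ).length, P = poly L (circ ((flat φ).getD l (.inr none)))} (TS L φ) := by
  intro z
  have h : ∀ᶠ z' in 𝓝 z, ∀ c ∈ {c : Atom | Sum.inl c ∈ flat φ},
      (aeval z' (poly L c.2) = 0 ↔ aeval z (poly L c.2) = 0) → (atmH L z' c ↔ atmH L z c) :=
    (eventually_all_finite ((List.finite_toSet (flat φ)).preimage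
      Sum.inl_injective.injOn)).2 fun c _ => atmH_eventually L z c
  filter_upwards [h] with z' hz' hB
  rw [mem_TS, mem_TS]
  refine fev_congr φ fun c hc => hz' c hc (hB _ ?_)
  obtain ⟨l, hl, e⟩ := List.getElem_of_mem hc
  exact ⟨l, hl, by simp [List.getD_eq_getElem?_getD, hl, e, circ]⟩

theorem strat_TS : Strat fun S : Sentence => TS S.toNats S.body := by
  refine ⟨_, Fam.range (N := fun S : Sentence => (flat S.body).length)
    (B := fun S l => poly S.toNats (circ ((flat S.body).getD l (.inr none))))
    (PT_cf toks_pt.length) ?_, fun S => inv_TS _ _⟩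
  have h4 : PT circ := by unfold circ; fun_prop
  have h3 : PT fun x : Sentence × ℕ => circ ((flat x.1.body).getD x.2 (.inr none)) :=
    h4.comp (PT.getD (toks_pt.comp PT.id.fst) PT.id.snd (PT.const _))
  exact poly_cls' (PT_cf (sentToNats_pt.comp PT.id.fst)) (PT_cf h3)

/-! ### Decidability -/

/-- The Boolean stack machine. -/
def runP (l : List (Prop ⊕ Option Bool)) : Prop :=
  (l.foldr (step id Not opP False) []).headD False

theorem runP_pt : PT runP := by
  refine PT.headD (PT.foldr_grow (f := fun _ => step id Not opP False) PT.id (PT.const [])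
    (by unfold step opP; fun_prop) (G := fun _ => 4) (by fun_prop) ?_) (PT.const False)
  have h : ∀ p : Prop, sz p ≤ 3 := sz_prop_le
  rintro a (c | _ | b) st _
  · have := h c
    simp [step]; omega
  · have := h (¬ st.headD False)
    have := sz_sublist (List.tail_sublist st)
    simp only [step, Sum.elim_inr, Option.elim, sz_cons]; omega
  · have := h (opP b (st.headD False) (st.tail.headD False))
    have := sz_sublist (List.tail_sublist st)
    have := sz_sublist (List.tail_sublist st.tail)
    simp only [step, Sum.elim_inr, Option.elim, sz_cons]; omega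

theorem runP_flat (a : Atom → Prop) (φ : Form) :
    runP ((flat φ).map fun t => Sum.elim (fun c => Sum.inl (a c)) Sum.inr t) ↔
      fev a Not opP φ := by
  have : ∀ (t : Tok) (st : List Prop),
      step id Not opP False (Sum.elim (fun c => Sum.inl (a c)) Sum.inr t) st =
        step a Not opP False t st := fun t st => by cases t <;> rfl
  rw [runP, List.foldr_map]
  simp only [this]
  exact iff_of_eq (congrArg (fun l => List.headD l False) (foldr_flat a Not opP False φ []))

theorem decid_TS : Decid fun S : Sentence => TS S.toNats S.body := by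
  intro β _ f ξ hf hξ
  have hL : CF fun e => (f e).toNats := (PT_cf sentToNats_pt).comp hf
  have hT : CF fun e => flat (f e).body := (PT_cf toks_pt).comp hf
  have hP : Cls fun q : β × Atom => poly (f q.1).toNats q.2.2 :=
    poly_cls' (hL.comp CF.id.fst) CF.id.snd.snd
  have hA : CF fun q : β × Atom => atmH (f q.1).toNats (ξ q.1) q.2 :=
    CF.cond CF.id.snd.fst (hξ.pos CF.id.fst hP) (hξ.eq_zero CF.id.fst hP)
  have hM : CF fun e => (flat (f e).body).map fun t =>
      (Sum.elim (fun c => Sum.inl (atmH (f e).toNats (ξ e) c)) Sum.inr t : Prop ⊕ Option Bool) :=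
    CF.map hT (CF.sum_elim CF.id.snd
      (hA.comp_eq (fun q : (β × Tok) × Atom => (q.1.1, q.2)) (CF.id.fst.fst.pair CF.id.snd)).inl
      CF.id.snd.inr)
  exact ((PT_cf runP_pt).comp hM).of_iff fun e => by rw [runP_flat, mem_TS]

/-! ### Renaming the variables -/

theorem holds_congr {x y x' y' : ℕ → ℝ} (φ : Form)
    (h : ∀ c : Atom, Sum.inl c ∈ flat φ → cv x y c.2 = cv x' y' c.2) :
    φ.Holds x y ↔ φ.Holds x' y' := by
  induction φ with
  | eqZero c =>
    rw [Form.Holds, Form.Holds, circuitValue_eq, circuitValue_eq, h (false, c) (by simp [flat])]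
  | pos c =>
    rw [Form.Holds, Form.Holds, circuitValue_eq, circuitValue_eq, h (true, c) (by simp [flat])]
  | and φ ψ h1 h2 =>
    exact and_congr (h1 fun c hc => h c (by simp [flat, hc])) (h2 fun c hc => h c (by simp [flat, hc]))
  | or φ ψ h1 h2 =>
    exact or_congr (h1 fun c hc => h c (by simp [flat, hc])) (h2 fun c hc => h c (by simp [flat, hc]))
  | not φ h1 => exact not_congr (h1 fun c hc => h c (by simp [flat, hc]))

theorem gate_facts {S : Sentence} (hS : S.WF) {c : Atom} (hc : Sum.inl c ∈ flat S.body)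
    {g : AGate} (hg : g ∈ c.2) : (∃ t, g.WF S.r S.s t) ∧ ∀ n ∈ g.toNats, n ∈ S.toNats := by
  constructor
  · have h := ((wf_iff _ _ _).1 hS _ hc).2
    obtain ⟨t, rfl⟩ := List.get_of_mem hg
    exact ⟨t, h t⟩
  · intro n hn
    rw [Sentence.toNats, toNats_eq]
    refine List.mem_cons_of_mem _ (List.mem_cons_of_mem _ (List.mem_flatMap.2 ⟨_, hc, ?_⟩))
    exact List.mem_cons_of_mem _ (List.mem_cons_of_mem _ (List.mem_flatMap.2 ⟨g, hg, hn⟩))

theorem holds_congr' {S : Sentence} (hS : S.WF) {x y x' y' : ℕ → ℝ}
    (hx : ∀ i, i < S.r → i ∈ S.toNats → x i = x' i)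
    (hy : ∀ i, i < S.s → i ∈ S.toNats → y i = y' i) : S.body.Holds x y ↔ S.body.Holds x' y' :=
  holds_congr _ fun _ hc => cv_congr
    (fun i hi => by
      obtain ⟨⟨t, h1⟩, h2⟩ := gate_facts hS hc hi
      exact hx i h1 (h2 i (by simp [AGate.toNats])))
    (fun i hi => by
      obtain ⟨⟨t, h1⟩, h2⟩ := gate_facts hS hc hi
      exact hy i h1 (h2 i (by simp [AGate.toNats])))

theorem extn_idxOf (L : List ℕ) (v : ℕ → ℝ) {i : ℕ} (hi : i ∈ L) :
    extn (fun j : Fin L.length => v L[j]) (L.idxOf i) = v i := by
  have h := List.idxOf_lt_length_of_mem hi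
  simp [extn, h]

theorem extend_of_lt {n : ℕ} (v : ℕ → ℝ) {i : ℕ} (hi : i < n) :
    extend (fun j : Fin n => v j) i = v i := by
  simp [extend, hi]

theorem isTrue_iff {S : Sentence} (hS : S.WF) :
    S.IsTrue ↔ ∃ x : Fin S.toNats.length → ℝ, ∀ y : Fin S.toNats.length → ℝ,
      Sum.elim (Sum.elim (fun _ => (0 : ℝ)) (extn x)) (extn y) ∈ TS S.toNats S.body := by
  simp only [TS, vx, vy, Set.mem_ofPred_eq, Sum.elim_inl, Sum.elim_inr]
  constructor
  · rintro ⟨x, hx⟩
    refine ⟨fun j => extend x S.toNats[j], fun y => ?_⟩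
    refine (holds_congr' hS (fun i _ hi => ?_) (fun i hi _ => ?_)).1
      (hx fun j => extn y (S.toNats.idxOf (j : ℕ)))
    · exact (extn_idxOf _ (extend x) hi).symm
    · exact extend_of_lt (fun j => extn y (S.toNats.idxOf j)) hi
  · rintro ⟨x, hx⟩
    refine ⟨fun j => extn x (S.toNats.idxOf (j : ℕ)), fun y => ?_⟩
    refine (holds_congr' hS (fun i hi _ => ?_) (fun i _ hi => ?_)).1
      (hx fun j => extend y S.toNats[j])
    · exact (extend_of_lt (fun j => extn x (S.toNats.idxOf j)) hi).symm
    · exact extn_idxOf _ (extend y) hi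

end Syn

/-- There is a code of sentences with a decoder, for which writing a sentence and testing
well-formedness take polynomial time, codes are polynomially short, and truth is an
`∃∀` statement over polynomially many variables about a good family of sets. -/
theorem exists_syntax : ∃ (_ : Enc Sentence) (_ : Dec Sentence),
    PT Sentence.encode ∧ PT Sentence.WF ∧
    (∃ c : ℕ, ∀ S : Sentence, sz S ≤ c * (S.encode.length + 1)) ∧
    ∃ (n : Sentence → ℕ) (T : Sentence → Set ((Unit ⊕ ℕ) ⊕ ℕ → ℝ)), PT n ∧ PB n ∧ Good T ∧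
      ∀ S : Sentence, S.WF → (S.IsTrue ↔ ∃ x : Fin (n S) → ℝ, ∀ y : Fin (n S) → ℝ,
        Sum.elim (Sum.elim (fun _ => (0 : ℝ)) (extn x)) (extn y) ∈ T S) :=
  ⟨Syn.encSentence, Syn.decSentence, Syn.encode_pt, Syn.wf_pt, ⟨10, Syn.sz_sentence_le⟩,
    fun S => S.toNats.length, fun S => Syn.TS S.toNats S.body, Syn.sentToNats_pt.length,
    PB.length Syn.sentToNats_pt, ⟨Syn.strat_TS, Syn.decid_TS⟩, fun _ hS => Syn.isTrue_iff hS⟩

end Crest.Agent.R316
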