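import Crest.Agent.R316.Parity

/-!
# Thom's lemma and hashing of sign vectors
-/

namespace Crest.Agent.R316

open Crest.Agent.Lib.PT

namespace Thom

theorem sgn_between {a b t : ℝ} (h : sgn a = sgn b) (h1 : a ≤ t) (h2 : t ≤ b) :
    sgn t = sgn a := by
  unfold sgn at *
  split_ifs at * <;> first | rfl | (exfalso; linarith)

theorem nonneg_of_sgn {a b : ℝ} (h : sgn a = sgn b) (hb : 0 ≤ b) : 0 ≤ a := by
  unfold sgn at *
  split_ifs at * <;> linarith

theorem nonpos_of_sgn {a b : ℝ} (h : sgn a = sgn b) (hb : b ≤ 0) : a ≤ 0 := by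
  unfold sgn at *
  split_ifs at * <;> linarith

/-- The sign is constant between two points with the same signs of all derivatives. -/
theorem sgn_const {x y : ℝ} (hxy : x ≤ y) (n : ℕ) : ∀ h : Polynomial ℝ, h.natDegree ≤ n →
    (∀ j, sgn ((Polynomial.derivative^[j] h).eval x) =
      sgn ((Polynomial.derivative^[j] h).eval y)) →
    ∀ t ∈ Set.Icc x y, sgn (h.eval t) = sgn (h.eval x) := by
  induction n with
  | zero =>
    intro h hn _ t _
    rw [Polynomial.eq_C_of_natDegree_le_zero hn, Polynomial.eval_C, Polynomial.eval_C]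
  | succ n ih =>
    intro h hn hs t ht
    have h1 := ih (Polynomial.derivative h)
      ((Polynomial.natDegree_derivative_le h).trans (by omega)) fun j => hs (j + 1)
    have hc : ContinuousOn (fun t => h.eval t) (Set.Icc x y) := h.continuous.continuousOn
    have hd : DifferentiableOn ℝ (fun t => h.eval t) (interior (Set.Icc x y)) :=
      h.differentiable.differentiableOn
    have hx : x ∈ Set.Icc x y := ⟨le_rfl, hxy⟩
    have hy : y ∈ Set.Icc x y := ⟨hxy, le_rfl⟩
    rcases le_total 0 ((Polynomial.derivative h).eval x) with h2 | h2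
    · have hm := monotoneOn_of_deriv_nonneg (convex_Icc x y) hc hd fun s hs => by
        rw [Polynomial.deriv]; exact nonneg_of_sgn (h1 s (interior_subset hs)) h2
      exact sgn_between (hs 0) (hm hx ht ht.1) (hm ht hy ht.2)
    · have hm := antitoneOn_of_deriv_nonpos (convex_Icc x y) hc hd fun s hs => by
        rw [Polynomial.deriv]; exact nonpos_of_sgn (h1 s (interior_subset hs)) h2
      exact (sgn_between (hs 0).symm (hm ht hy ht.2) (hm hx ht ht.1)).trans (hs 0).symm

theorem thom_le {h : Polynomial ℝ} (h0 : h ≠ 0) {x y : ℝ} (hxy : x ≤ y) (hx : h.eval x = 0)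
    (hs : ∀ j, sgn ((Polynomial.derivative^[j] h).eval x) =
      sgn ((Polynomial.derivative^[j] h).eval y)) : x = y := by
  by_contra hne
  refine h0 (Polynomial.eq_zero_of_infinite_isRoot h
    ((Set.Icc_infinite (lt_of_le_of_ne hxy hne)).mono fun t ht => ?_))
  have := sgn_const hxy _ h le_rfl hs t ht
  exact le_antisymm (nonpos_of_sgn this hx.le) (nonneg_of_sgn this hx.ge)

end Thom

/-- Two roots with the same signs of all derivatives are equal. -/
theorem thom {h : Polynomial ℝ} (h0 : h ≠ 0) {x y : ℝ} (hx : h.eval x = 0)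
    (hs : ∀ j ≤ h.natDegree, sgn ((Polynomial.derivative^[j] h).eval x) =
      sgn ((Polynomial.derivative^[j] h).eval y)) : x = y := by
  have hs' : ∀ j, sgn ((Polynomial.derivative^[j] h).eval x) =
      sgn ((Polynomial.derivative^[j] h).eval y) := fun j => by
    rcases le_or_gt j h.natDegree with hj | hj
    · exact hs j hj
    · simp [Polynomial.iterate_derivative_eq_zero hj]
  rcases le_total x y with hxy | hxy
  · exact Thom.thom_le h0 hxy hx hs'
  · have hy : h.eval y = 0 :=
      le_antisymm (Thom.nonpos_of_sgn (hs' 0).symm hx.le) (Thom.nonneg_of_sgn (hs' 0).symm hx.ge)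
    exact (Thom.thom_le h0 hxy hy fun j => (hs' j).symm).symm

/-- Hash weights: `s` codes a point and a modulus. -/
def hw (N s l : ℕ) : ℕ := (s % (2 * N + 1)) ^ l % (s / (2 * N + 1) + 1)

theorem hw_le {N s : ℕ} (hs : s < (2 * N + 1) ^ 2) (l : ℕ) : hw N s l ≤ 2 * N := by
  have h1 : hw N s l < s / (2 * N + 1) + 1 := Nat.mod_lt _ (Nat.succ_pos _)
  have h2 : s / (2 * N + 1) < 2 * N + 1 := Nat.div_lt_of_lt_mul (by rwa [← sq])
  omega

@[fun_prop] theorem CF.hw {α : Type} [Enc α] {N s l : α → ℕ} (hN : CF N) (hs : CF s)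
    (hl : CF l) : CF fun a => hw (N a) (s a) (l a) :=
  CF.nat_powMod (by fun_prop) hl (by fun_prop) fun _ => Nat.succ_pos _

/-- Some hash function separates a given small set of sign vectors. -/
theorem exists_hash {ι : Type} (S : Finset ι) (v : ι → ℕ → ℤ) (hv : ∀ x l, |v x l| ≤ 1)
    {L N : ℕ} (hN : S.card ^ 2 * L + 2 ≤ N) :
    ∃ s < (2 * N + 1) ^ 2, ∀ x ∈ S, ∀ x' ∈ S,
      ∑ l ∈ Finset.range L, (hw N s l : ℤ) * v x l =
        ∑ l ∈ Finset.range L, (hw N s l : ℤ) * v x' l → ∀ l < L, v x l = v x' l := by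
  classical
  obtain ⟨q, hq, hq1, hq2⟩ := Nat.exists_prime_lt_and_le_two_mul N (by omega)
  have := Fact.mk hq
  let F : ι × ι → Polynomial (ZMod q) := fun p =>
    ∑ l ∈ Finset.range L, Polynomial.monomial l ((v p.1 l - v p.2 l : ℤ) : ZMod q)
  have hF : ∀ p, (F p).natDegree ≤ L := fun p =>
    Polynomial.natDegree_sum_le_of_forall_le _ _ fun l hl =>
      (Polynomial.natDegree_monomial_le _).trans (Finset.mem_range.1 hl).le
  have hcard : ((S ×ˢ S).biUnion fun p => (F p).roots.toFinset).card <
      (Finset.univ : Finset (ZMod q)).card := by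
    refine (Finset.card_biUnion_le_card_mul _ _ L fun p _ =>
      ((Multiset.toFinset_card_le _).trans (Polynomial.card_roots' _)).trans (hF p)).trans_lt ?_
    rw [Finset.card_product, Finset.card_univ, ZMod.card, ← sq]
    omega
  obtain ⟨c, -, hc⟩ := Finset.exists_mem_notMem_of_card_lt_card hcard
  have hcq : c.val < q := ZMod.val_lt c
  have h1 : ((q - 1) * (2 * N + 1) + c.val) % (2 * N + 1) = c.val := by
    rw [Nat.mul_add_mod_self_right, Nat.mod_eq_of_lt (by omega)]
  have h2 : ((q - 1) * (2 * N + 1) + c.val) / (2 * N + 1) + 1 = q := by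
    rw [add_comm _ c.val, Nat.add_mul_div_right _ _ (by omega), Nat.div_eq_of_lt (by omega)]
    omega
  have h3 : ∀ l, ((hw N ((q - 1) * (2 * N + 1) + c.val) l : ℕ) : ZMod q) = c ^ l := fun l => by
    rw [hw, h1, h2, ZMod.natCast_mod, Nat.cast_pow, ZMod.natCast_zmod_val]
  refine ⟨(q - 1) * (2 * N + 1) + c.val, ?_, fun x hx x' hx' h l hl => ?_⟩
  · have : (q - 1) * (2 * N + 1) ≤ (2 * N) * (2 * N + 1) := Nat.mul_le_mul_right _ (by omega)
    nlinarith
  have h4 : (F (x, x')).IsRoot c := by
    have := congrArg (Int.cast : ℤ → ZMod q) h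
    push_cast at this
    simp only [h3] at this
    simp only [F, Polynomial.IsRoot, Polynomial.eval_finsetSum, Polynomial.eval_monomial]
    push_cast
    simp only [mul_comm _ (c ^ _), mul_sub, Finset.sum_sub_distrib, this, sub_self]
  have h5 : F (x, x') = 0 := by
    by_contra h0
    exact hc (Finset.mem_biUnion.2 ⟨(x, x'), Finset.mem_product.2 ⟨hx, hx'⟩,
      Multiset.mem_toFinset.2 ((Polynomial.mem_roots h0).2 h4)⟩)
  have h6 : ((v x l - v x' l : ℤ) : ZMod q) = 0 := by
    have := congrArg (Polynomial.coeff · l) h5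
    simpa [F, Polynomial.coeff_monomial, hl] using this
  have h7 := Int.eq_zero_of_abs_lt_dvd ((ZMod.intCast_zmod_eq_zero_iff_dvd _ _).1 h6) (by
    have := abs_sub (v x l) (v x' l)
    have := hv x l
    have := hv x' l
    omega)
  omega

end Crest.Agent.R316
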